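import Crest.Agent.R167.Gain

/-!
# R167-G: annulus contraction (`ann`) and its iteration (`decay`).
-/

set_option autoImplicit false
set_option linter.unusedSectionVars false
set_option linter.unusedVariables false

open Finset Function MeasureTheory
open scoped ContDiff RealInnerProductSpace

namespace Crest.Agent.R167

noncomputable section

open GA

namespace AN

variable {n : ℕ} {Λ : Type} [Fintype Λ] [DecidableEq Λ]

/-- affine change of the twist field -/
theorem Qf_aff (hC : CalcB n Λ) (T : Tri n) {S : Set Λ} {F : (Λ → E n) → ℝ} (hF : Sm F)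
    (hL : Loc S F) (h1 : ∀ i, D (fun _ => 1) (T.A i) F = fun _ => 0) {θ lam : Λ → ℝ} {a b : ℝ}
    (h : ∀ x ∈ S, θ x = a * 1 + b * lam x) (s : Λ → E n) :
    Qf T θ F s = b ^ 2 * Qf T lam F s := by
  have key : ∀ i, D θ (T.A i) (D θ (T.A i) F) s = b ^ 2 * D lam (T.A i) (D lam (T.A i) F) s := by
    intro i
    have e1 : D θ (T.A i) F = fun s => b * D lam (T.A i) F s := by
      rw [hC.congr _ hF hL h, hC.lin (fun _ => 1) lam a b, h1]
      simp
    have hs := hC.sm lam (T.A i) hF
    have e2 : D (fun _ => 1) (T.A i) (D lam (T.A i) F) = fun _ => 0 := by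
      rw [hC.comm _ _ _ _ hF, h1, hC.const, sub_self, hC.zeroA]
      simp
    rw [e1, hC.const_mul _ _ _ hs, hC.congr _ hs (hC.loc _ _ hF hL) h,
      hC.lin (fun _ => 1) lam a b, e2]
    ring
  simp only [Qf, key]
  rw [← Finset.mul_sum]; ring

/-- the abstract Ward contraction -/
theorem contr (hC : CalcB n Λ) (hE : ExB n Λ) (T : Tri n) (I : Finset Λ) (θ : Λ → ℝ)
    {F u : (Λ → E n) → ℝ} (hF : Sm F) (hu : Sm u) (hθ : ∀ x, x ∉ I → θ x = 0) {e η : ℝ}
    (he : 0 ≤ e) (hQ : ∀ s, OnS s → Qf T θ F s ≤ e) (hη : ∀ s, OnS s → |u s| ≤ η)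
    (hl : ∀ s, ∑ i, D θ (T.A i) (D θ (T.A i) u) s = -2 * u s) {ξ : Λ → E n} (hξ : OnS ξ) :
    |Ex I F u ξ| ≤ e * η := by
  set Φ : (Λ → E n) → ℝ := fun s => ∑ i, (D θ (T.A i) (D θ (T.A i) F) s +
    D θ (T.A i) F s * D θ (T.A i) F s) with hΦ
  have hD := fun i => hC.sm θ (T.A i) hF
  have hDD := fun i => hC.sm θ (T.A i) (hD i)
  have hcF := hF.continuous
  have hcΦ : Continuous Φ := continuous_finsetSum _ fun i _ =>
    (hDD i).continuous.add ((hD i).continuous.mul (hD i).continuous)
  have main : ∀ {w : (Λ → E n) → ℝ}, Sm w →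
      Ex I F (fun s => ∑ i, D θ (T.A i) (D θ (T.A i) w) s) ξ = Ex I F (fun s => w s * Φ s) ξ := by
    intro w hw
    have hw1 := fun i => hC.sm θ (T.A i) hw
    have e0 : (fun s => w s * Φ s) = fun s => ∑ i, (w s * D θ (T.A i) (D θ (T.A i) F) s +
        w s * D θ (T.A i) F s * D θ (T.A i) F s) := by
      funext s; simp only [hΦ, Finset.mul_sum]; refine Finset.sum_congr rfl fun i _ => by ring
    rw [e0, hE.sum I _ _ hcF fun i _ => (hC.sm _ _ (hw1 i)).continuous,
      hE.sum I _ _ hcF fun i _ => (hw.continuous.fun_mul (hDD i).continuous).fun_add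
        ((hw.continuous.fun_mul (hD i).continuous).fun_mul (hD i).continuous)]
    refine Finset.sum_congr rfl fun i _ => ?_
    have a1 := congrFun (hE.ibp I θ (T.rot i) hF (hw1 i) hθ) ξ
    have a2 := congrFun (hE.ibp I θ (T.rot i) hF (hw.mul (hD i)) hθ) ξ
    rw [hC.mul _ _ hw (hD i), hE.add I hcF ((hw1 i).continuous.fun_mul (hD i).continuous)
      (hw.continuous.fun_mul (hDD i).continuous)] at a2
    rw [hE.add I hcF (hw.continuous.fun_mul (hDD i).continuous)
      ((hw.continuous.fun_mul (hD i).continuous).fun_mul (hD i).continuous)]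
    simp only at a1 a2 ⊢
    linarith
  have m0 : Ex I F Φ ξ = 0 := by
    have := main (w := fun _ => 1) contDiff_const
    simp only [hC.const, Finset.sum_const_zero, hE.const I _ hcF, one_mul] at this
    exact this.symm
  have m1 : -2 * Ex I F u ξ = Ex I F (fun s => u s * Φ s) ξ := by
    rw [← main hu]
    simp only [hl]
    rw [hE.const_mul]
  have hΦ0 : ∀ s, OnS s → 0 ≤ Φ s + e := by
    intro s hs
    have h1 := hQ s hs
    have h2 : ∑ i, D θ (T.A i) (D θ (T.A i) F) s ≤ Φ s :=
      Finset.sum_le_sum fun i _ => le_add_of_nonneg_right (mul_self_nonneg _)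
    simp only [Qf] at h1
    linarith
  have up : ∀ σ : ℝ, |σ| = 1 → σ * Ex I F (fun s => u s * Φ s) ξ ≤ 2 * (e * η) := by
    intro σ hσ
    have h1 := hE.mono I (f := fun s => σ * (u s * Φ s)) (g := fun s => η * Φ s + 2 * (e * η)) hcF
      (continuous_const.mul (hu.continuous.mul hcΦ))
      ((continuous_const.mul hcΦ).add continuous_const) hξ fun s hs => by
        have h2 : |σ * u s| ≤ η := by rw [abs_mul, hσ, one_mul]; exact hη s hs
        have h3 := hΦ0 s hs
        obtain ⟨h4, h5⟩ := abs_le.1 h2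
        nlinarith [mul_le_mul_of_nonneg_right h5 h3, mul_le_mul_of_nonneg_right h4 he]
    rw [hE.const_mul, hE.add I hcF (continuous_const.fun_mul hcΦ) continuous_const, hE.const_mul,
      hE.const I _ hcF] at h1
    simp only [m0] at h1
    linarith
  have u1 := up 1 abs_one
  have u2 := up (-1) (by simp)
  rw [abs_le]; constructor <;> linarith

/-- sup-distance -/
def rho (c y : Fin 2 → ℤ) : ℝ := max |(y 0 : ℝ) - c 0| |(y 1 : ℝ) - c 1|

theorem le_rho (c y : Fin 2 → ℤ) (j : Fin 2) : |(y j : ℝ) - c j| ≤ rho c y := by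
  fin_cases j
  · exact le_max_left _ _
  · exact le_max_right _ _

theorem rho_lip (c : Fin 2 → ℤ) {y y' : Fin 2 → ℤ} {r : ℝ} (h : ∀ j, |(y j : ℝ) - y' j| ≤ r) :
    |rho c y - rho c y'| ≤ r := by
  have key : ∀ j, |(|(y j : ℝ) - c j|) - (|(y' j : ℝ) - c j|)| ≤ r := fun j =>
    (abs_abs_sub_abs_le_abs_sub _ _).trans (by rw [sub_sub_sub_cancel_right]; exact h j)
  exact (abs_max_sub_max_le_max _ _ _ _).trans (max_le (key 0) (key 1))

def mm (z : ℤ) : ℤ := if 0 ≤ z then z else -z - 1

theorem mm_bd {l : ℝ} (hl : 0 < l) {z : ℤ} {y : ℝ} (h1 : l * z ≤ y) (h2 : y ≤ l * z + l) :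
    l * mm z ≤ |y| ∧ |y| ≤ l * mm z + l ∧ |y| = (if 0 ≤ z then 1 else -1) * y := by
  unfold mm
  split_ifs with h
  · have : (0 : ℝ) ≤ z := by exact_mod_cast h
    have h0 : 0 ≤ y := by nlinarith
    rw [abs_of_nonneg h0]; exact ⟨h1, h2, by ring⟩
  · have : (z : ℝ) + 1 ≤ 0 := by exact_mod_cast (by omega : z + 1 ≤ 0)
    have h0 : y ≤ 0 := by nlinarith
    rw [abs_of_nonpos h0]; push_cast
    exact ⟨by linarith, by linarith, by ring⟩

end AN

open AN

theorem ann {n : ℕ} {β : ℝ} (hB : Basic n β) (hβ : 0 < β) : Ann n β := by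
  intro T Λ _ _ G l K ε η hl hK hε hS hsm x₀ ξ hξ
  obtain ⟨hC, -, hE, -, hX⟩ := hB Λ
  have hX := hX G
  set c := G.pos x₀ with hc
  have hl0 : (0 : ℝ) < l := by exact_mod_cast hl
  have hK0 : (0 : ℝ) < K := by exact_mod_cast hK
  have hl1 : (0 : ℤ) < l := by exact_mod_cast hl
  set r : ℝ := K * l with hr
  have hr0 : 0 < r := by positivity
  set ci : Fin 2 → ℤ := fun j => c j - (K * l : ℕ) with hci
  set cb : Fin 2 → ℤ := fun j => c j - (2 * (K * l) : ℕ) with hcb
  set Zi : Finset (Fin 2 → ℤ) :=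
    Fintype.piFinset fun _ => Finset.Ico (-(K : ℤ)) (-(K : ℤ) + (2 * K : ℕ)) with hZi
  set Zb : Finset (Fin 2 → ℤ) :=
    Fintype.piFinset fun _ => Finset.Ico (-(2 * K : ℤ)) (-(2 * K : ℤ) + (4 * K : ℕ)) with hZb
  have mZi : ∀ z, z ∈ Zi ↔ ∀ j, -(K : ℤ) ≤ z j ∧ z j < K := by
    intro z
    rw [hZi, Fintype.mem_piFinset]
    refine forall_congr' fun j => ?_
    rw [Finset.mem_Ico]; push_cast; omega
  have mZb : ∀ z, z ∈ Zb ↔ ∀ j, -(2 * K : ℤ) ≤ z j ∧ z j < 2 * K := by
    intro z
    rw [hZb, Fintype.mem_piFinset]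
    refine forall_congr' fun j => ?_
    rw [Finset.mem_Ico]; push_cast; omega
  set Z := Zb \ Zi with hZ
  set S := hbox G ci (2 * (K * l)) with hSd
  set J := obox G ci (2 * (K * l)) with hJ
  set I := obox G cb (2 * (2 * (K * l))) with hI
  set S' := Z.biUnion fun z => hbox G (grid c l z) l with hS'
  have cov1 : S = Zi.biUnion fun z => hbox G (grid c l z) l := by
    have := hX.cover c l (2 * K) (fun _ => -(K : ℤ)) hl
    rw [← this, hSd, ← mul_assoc]
    congr 1
    funext j; simp only [hci, grid]; push_cast; ring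
  have cov2 : hbox G cb (2 * (2 * (K * l))) = S ∪ S' := by
    have := hX.cover c l (4 * K) (fun _ => -(2 * K : ℤ)) hl
    have e : Zb = Zi ∪ Z := by
      rw [hZ, Finset.union_sdiff_of_subset]
      intro z hz
      rw [mZi] at hz; rw [mZb]
      intro j; have := hz j; omega
    rw [cov1, hS', ← Finset.union_biUnion, ← e, ← this, show 2 * (2 * (K * l)) = 4 * K * l by ring]
    congr 1
    funext j; simp only [hcb, grid]; push_cast; ring
  have inner : ∀ (z : Fin 2 → ℤ) (y : Fin 2 → ℤ), (∀ j, l * z j < K * l ∧ -(K * l : ℤ) < l * z j + l) →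
      z ∈ Zi := by
    intro z y h
    rw [mZi]
    intro j
    obtain ⟨h1, h2⟩ := h j
    constructor
    · by_contra h3
      have : z j + 1 ≤ -(K : ℤ) := by omega
      nlinarith
    · by_contra h3
      have : (K : ℤ) ≤ z j := by omega
      nlinarith
  have hdisj : ∀ z ∈ Z, Disjoint S (hbox G (grid c l z) l) := by
    intro z hz
    rw [Finset.disjoint_left]
    intro x h1 h2
    refine (Finset.mem_sdiff.1 hz).2 (inner z 0 fun j => ?_)
    simp only [hSd, hbox, Finset.mem_filter, Finset.mem_univ, true_and, hci, grid] at h1 h2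
    have := h1 j; have := h2 j
    push_cast at *
    constructor <;> linarith
  have hsub : ∀ z ∈ Z, obox G (grid c l z) l ⊆ I := by
    intro z hz x hx
    have hz' := (mZb z).1 (Finset.mem_sdiff.1 hz).1
    simp only [hI, obox, Finset.mem_filter, Finset.mem_univ, true_and, hcb, grid] at hx ⊢
    intro j
    obtain ⟨h1, h2⟩ := hx j
    obtain ⟨h3, h4⟩ := hz' j
    have h5 : z j + 1 ≤ 2 * K := by omega
    push_cast
    constructor <;> nlinarith
  have hJI : J ⊆ I := by
    intro x hx
    simp only [hI, hJ, obox, Finset.mem_filter, Finset.mem_univ, true_and, hcb, hci] at hx ⊢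
    intro j
    obtain ⟨h1, h2⟩ := hx j
    have : (0 : ℤ) ≤ K * l := by positivity
    push_cast at *
    constructor <;> linarith
  set f0 : (Λ → E n) → ℝ := fun s => ⟪T.e, s x₀⟫ with hf0
  have hx₀ : x₀ ∈ cbox G ci (2 * (K * l)) := by
    intro j
    have : (0 : ℤ) ≤ K * l := by positivity
    simp only [hci, ← hc]; push_cast
    constructor <;> linarith
  have locB : ∀ B : E n →L[ℝ] E n, Loc (cbox G ci (2 * (K * l))) (fun s : Λ → E n => ⟪T.e, B (s x₀)⟫) :=
    fun B s s' h => by simp only [h x₀ hx₀]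
  have hHS := hX.sm_H S
  have hf0s : Sm f0 := hC.sm_lin T.e (ContinuousLinearMap.id ℝ _) x₀
  set u : (Λ → E n) → ℝ := U G T.e x₀ (K * l) with hu
  have hu' : u = Ex J (H G S) f0 := rfl
  have hus : Sm u := hE.sm J hHS hf0s
  have hul : Loc (cbox G ci (2 * (K * l))) u :=
    hE.loc J (hX.loc_H _ _) (locB (ContinuousLinearMap.id ℝ _))
  set F : (Λ → E n) → ℝ := fun s => H G S s + ∑ z ∈ Z, FB G (grid c l z) l s with hF
  have hFs2 : Sm (fun s : Λ → E n => ∑ z ∈ Z, FB G (grid c l z) l s) :=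
    ContDiff.sum fun z _ => hX.sm_FB _ _
  have hFs : Sm F := hHS.add hFs2
  have hU : U G T.e x₀ (2 * (K * l)) = Ex I F u := by
    have d1 : Disjoint S' S := (Finset.disjoint_biUnion_left _ _ _).2 fun z hz => (hdisj z hz).symm
    have e1 : U G T.e x₀ (2 * (K * l)) = Ex I (H G (hbox G cb (2 * (2 * (K * l))))) f0 := rfl
    have e2 := hE.cond hJI (hX.sm_H S').continuous hHS.continuous hf0s.continuous
      (hX.ind_H S' ci (2 * (K * l)) d1)
    rw [← hX.union_H S' S d1, Finset.union_comm, ← hu'] at e2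
    rw [e1, cov2, e2]
    refine (hX.tile c l Z S I hl hsub hdisj).2 u hus.continuous fun z hz s s' h => hul s s' ?_
    intro x hx
    refine h x fun hx2 => (Finset.mem_sdiff.1 hz).2 (inner z 0 fun j => ?_)
    simp only [obox, Finset.coe_filter, Finset.mem_univ, true_and, Set.mem_ofPred_eq, grid] at hx2
    have h1 := hx j; have h2 := hx2 j
    simp only [hci] at h1
    push_cast at *
    constructor <;> linarith
  set θ : Λ → ℝ := fun x => cl (2 - rho c (G.pos x) / r) with hθ
  have hθ1 : ∀ x ∈ cbox G ci (2 * (K * l)), θ x = (fun _ => (1 : ℝ)) x := by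
    intro x hx
    refine cl_one ?_
    have : rho c (G.pos x) ≤ r := by
      have key : ∀ j, |(G.pos x j : ℝ) - c j| ≤ r := by
        intro j
        have h1 : ((ci j : ℤ) : ℝ) ≤ G.pos x j := by exact_mod_cast (hx j).1
        have h2 : (G.pos x j : ℝ) ≤ ((ci j + (2 * (K * l) : ℕ) : ℤ) : ℝ) := by exact_mod_cast (hx j).2
        simp only [hci] at h1 h2
        push_cast at h1 h2
        rw [abs_le]; constructor <;> linarith
      exact max_le (key 0) (key 1)
    have := (div_le_one hr0).2 this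
    linarith
  have hθ0 : ∀ x, x ∉ I → θ x = 0 := by
    intro x hx
    refine cl_zero ?_
    by_contra h
    apply hx
    have h1 : rho c (G.pos x) < 2 * r := by
      rw [not_le, sub_pos, div_lt_iff₀ hr0] at h; exact h
    simp only [hI, obox, Finset.mem_filter, Finset.mem_univ, true_and, hcb]
    intro j
    obtain ⟨h2, h3⟩ := abs_lt.1 ((le_rho c (G.pos x) j).trans_lt h1)
    constructor
    · have : ((c j - (2 * (K * l) : ℕ) : ℤ) : ℝ) < G.pos x j := by push_cast; linarith
      exact_mod_cast this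
    · have : (G.pos x j : ℝ) < ((c j - (2 * (K * l) : ℕ) + (2 * (2 * (K * l)) : ℕ) : ℤ) : ℝ) := by
        push_cast; linarith
      exact_mod_cast this
  have hDH : ∀ i, D θ (T.A i) (H G S : (Λ → E n) → ℝ) = fun _ => 0 := fun i => by
    rw [hC.congr _ hHS (hX.loc_H _ _) hθ1, hX.inv_H _ (T.rot i)]
  have hDE : ∀ i (B : E n →L[ℝ] E n), D θ (T.A i) (Ex J (H G S) fun s => ⟪T.e, B (s x₀)⟫) =
      Ex J (H G S) fun s => ⟪T.e, (B.comp (T.A i)) (s x₀)⟫ := by
    intro i B
    have hs := hC.sm_lin T.e B x₀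
    rw [hC.congr _ (hE.sm J hHS hs) (hE.loc J (hX.loc_H _ _) (locB B)) hθ1,
      hE.D_Ex J _ (T.rot i) hHS hs, hX.inv_H _ (T.rot i), hC.D_lin]
    simp only [mul_zero, one_mul, hE.const J _ hHS.continuous, add_zero, sub_zero]
  have hlap : ∀ s, ∑ i, D θ (T.A i) (D θ (T.A i) u) s = -2 * u s := by
    intro s
    have e : ∀ i, D θ (T.A i) (D θ (T.A i) u) =
        Ex J (H G S) fun s => ⟪T.e, T.A i (T.A i (s x₀))⟫ := by
      intro i
      have := hDE i (ContinuousLinearMap.id ℝ _)
      rw [hu']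
      erw [this, hDE]
      rfl
    simp only [e]
    rw [← congrFun (hE.sum J Finset.univ (fun i s => ⟪T.e, T.A i (T.A i (s x₀))⟫) hHS.continuous
      fun i _ => (hC.sm_lin T.e ((T.A i).comp (T.A i)) x₀).continuous) s]
    simp only [T.lap]
    rw [hE.const_mul]
    rfl
  have hbx : ∀ z, ∀ x ∈ cbox G (grid c l z) l, ∀ j,
      (l : ℝ) * z j ≤ G.pos x j - c j ∧ (G.pos x j : ℝ) - c j ≤ l * z j + l := by
    intro z x hx j
    have h1 : ((grid c l z j : ℤ) : ℝ) ≤ G.pos x j := by exact_mod_cast (hx j).1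
    have h2 : (G.pos x j : ℝ) ≤ ((grid c l z j + l : ℤ) : ℝ) := by exact_mod_cast (hx j).2
    simp only [grid] at h1 h2
    push_cast at h1 h2
    constructor <;> linarith
  have hQz : ∀ z ∈ Z, ∀ s, OnS s → Qf T θ (FB G (grid c l z) l) s ≤
      ε / K ^ 2 + if mm (z 0) = mm (z 1) then 6 * β / K ^ 2 else 0 := by
    intro z hz s hs
    have hzb := (mZb z).1 (Finset.mem_sdiff.1 hz).1
    have hzi := (mZi z).not.1 (Finset.mem_sdiff.1 hz).2
    have aff : ∀ p q : Fin 2, mm (z q) < mm (z p) → (∀ j, j = p ∨ j = q) →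
        Qf T θ (FB G (grid c l z) l) s ≤ ε / K ^ 2 := by
      intro p q hpq hall
      set σ : ℝ := if 0 ≤ z p then 1 else -1 with hσ
      have hσ2 : σ ^ 2 = 1 := by rw [hσ]; split_ifs <;> norm_num
      have hK1 : (K : ℤ) ≤ mm (z p) := by
        by_contra h
        apply hzi
        intro j
        have : mm (z j) < K := by rcases hall j with rfl | rfl <;> omega
        unfold mm at this
        split_ifs at this <;> omega
      have hK2 : mm (z p) + 1 ≤ 2 * K := by
        have := hzb p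
        unfold mm
        split_ifs <;> omega
      have hK1' : (K : ℝ) ≤ mm (z p) := by exact_mod_cast hK1
      have hK2' : (mm (z p) : ℝ) + 1 ≤ 2 * K := by exact_mod_cast hK2
      have hpq' : (mm (z q) : ℝ) + 1 ≤ mm (z p) := by exact_mod_cast hpq
      rw [Qf_aff hC T (hX.sm_FB _ _) (hX.loc_FB _ _) (fun i => hX.inv_FB _ _ (T.rot i))
        (lam := fun x => (G.pos x p : ℝ)) (a := 2 + σ * c p / r) (b := -σ / r) ?_ s]
      · have h1 := hS (grid c l z) p s hs
        have e : (-σ / r) ^ 2 = 1 / r ^ 2 := by rw [div_pow, neg_sq, hσ2]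
        rw [e]
        refine (mul_le_mul_of_nonneg_left h1 (by positivity)).trans (le_of_eq ?_)
        rw [hr]; field_simp
      · intro x hx
        obtain ⟨a1, a2, a3⟩ := mm_bd hl0 (hbx z x hx p).1 (hbx z x hx p).2
        obtain ⟨b1, b2, -⟩ := mm_bd hl0 (hbx z x hx q).1 (hbx z x hx q).2
        have e : rho c (G.pos x) = |(G.pos x p : ℝ) - c p| := by
          refine le_antisymm ?_ (le_rho _ _ _)
          have key : ∀ j, |(G.pos x j : ℝ) - c j| ≤ |(G.pos x p : ℝ) - c p| := by
            intro j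
            rcases hall j with rfl | rfl
            · exact le_rfl
            · nlinarith
          exact max_le (key 0) (key 1)
        have h1 : 1 ≤ |(G.pos x p : ℝ) - c p| / r := by
          rw [le_div_iff₀ hr0, hr]; nlinarith
        have h2 : |(G.pos x p : ℝ) - c p| / r ≤ 2 := by
          rw [div_le_iff₀ hr0, hr]; nlinarith
        simp only [hθ]
        rw [e, cl_id (by linarith) (by linarith), a3]
        ring
    split_ifs with h
    · have : Qf T θ (FB G (grid c l z) l) s ≤ 6 * β / K ^ 2 := by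
        simp only [Qf]
        rw [← Finset.sum_neg_distrib]
        refine (Finset.sum_le_card_nsmul _ _ _ fun i _ =>
          hX.energy (grid c l z) l θ (1 / r) (T.rot i) (fun x _ i => ?_) s hs).trans (le_of_eq ?_)
        · refine (cl_lip _ _).trans ?_
          rw [sub_sub_sub_cancel_left, ← sub_div, abs_div, abs_of_pos hr0, abs_sub_comm]
          gcongr
          exact rho_lip c (edge G x i)
        · rw [hr]; simp; field_simp; ring
      have h2 : 0 ≤ ε / (K : ℝ) ^ 2 := by positivity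
      linarith
    · rw [add_zero]
      rcases lt_or_gt_of_ne h with h | h
      · exact aff 1 0 h fun j => by fin_cases j <;> simp
      · exact aff 0 1 h fun j => by fin_cases j <;> simp
  have hQ : ∀ s, OnS s → Qf T θ F s ≤ 16 * ε + 48 * β / K := by
    intro s hs
    have e : Qf T θ F s = ∑ z ∈ Z, Qf T θ (FB G (grid c l z) l) s := by
      have e1 : ∀ i, D θ (T.A i) (D θ (T.A i) F) s =
          ∑ z ∈ Z, D θ (T.A i) (D θ (T.A i) (FB G (grid c l z) l)) s := by
        intro i
        rw [hF, hC.add _ _ hHS hFs2, hDH, hC.sum _ _ Z _ fun z _ => hX.sm_FB _ _]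
        simp only [zero_add]
        rw [hC.sum _ _ Z _ fun z _ => hC.sm _ _ (hX.sm_FB _ _)]
      simp only [Qf, e1]
      rw [Finset.sum_comm, Finset.sum_neg_distrib]
    rw [e]
    refine (Finset.sum_le_sum fun z hz => hQz z hz s hs).trans ?_
    rw [Finset.sum_add_distrib, Finset.sum_const, ← Finset.sum_filter, Finset.sum_const,
      nsmul_eq_mul, nsmul_eq_mul]
    have c1 : (Z.card : ℝ) ≤ 16 * K ^ 2 := by
      have h1 : Z.card ≤ Zb.card := Finset.card_le_card Finset.sdiff_subset
      have h2 : Zb.card = (4 * K) ^ 2 := by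
        rw [hZb, Fintype.card_piFinset]
        simp only [Int.card_Ico, add_sub_cancel_left, Int.toNat_natCast, Finset.prod_const,
          Finset.card_univ, Fintype.card_fin]
      have h3 : (Z.card : ℝ) ≤ ((4 * K) ^ 2 : ℕ) := by exact_mod_cast h1.trans h2.le
      push_cast at h3; linarith
    have c2 : ((Z.filter fun z => mm (z 0) = mm (z 1)).card : ℝ) ≤ 8 * K := by
      have h1 : (Z.filter fun z => mm (z 0) = mm (z 1)).card ≤
          (Finset.Ico (-(2 * K : ℤ)) (2 * K) ×ˢ (Finset.univ : Finset Bool)).card := by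
        refine Finset.card_le_card_of_injOn (fun z => (z 0, decide (0 ≤ z 1))) ?_ ?_
        · intro z hz
          have := (mZb z).1 (Finset.mem_sdiff.1 (Finset.mem_filter.1 hz).1).1 0
          exact Finset.mem_coe.2 (Finset.mem_product.2 ⟨Finset.mem_Ico.2 this, Finset.mem_univ _⟩)
        · intro z hz z' hz' h
          have h2 := (Finset.mem_filter.1 hz).2
          have h3 := (Finset.mem_filter.1 hz').2
          simp only [Prod.mk.injEq, decide_eq_decide] at h
          obtain ⟨h4, h5⟩ := h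
          rw [h4, h3] at h2
          funext j
          fin_cases j
          · exact h4
          · unfold mm at h2
            simp only [Fin.mk_one]
            split_ifs at h2 <;> omega
      have h2 : (2 * (K : ℤ) - -(2 * K)).toNat = 4 * K := by omega
      rw [Finset.card_product, Int.card_Ico, h2, Finset.card_univ, Fintype.card_bool] at h1
      have h3 : ((Z.filter fun z => mm (z 0) = mm (z 1)).card : ℝ) ≤ (4 * K * 2 : ℕ) := by
        exact_mod_cast h1
      push_cast at h3; linarith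
    have d1 := mul_le_mul_of_nonneg_right c1 (by positivity : 0 ≤ ε / (K : ℝ) ^ 2)
    have d2 := mul_le_mul_of_nonneg_right c2 (by positivity : 0 ≤ 6 * β / (K : ℝ) ^ 2)
    have d3 : 16 * (K : ℝ) ^ 2 * (ε / K ^ 2) = 16 * ε := by field_simp
    have d4 : 8 * (K : ℝ) * (6 * β / K ^ 2) = 48 * β / K := by field_simp; ring
    linarith
  rw [hU]
  exact contr hC hE T I θ hFs hus hθ0 (by positivity) hQ (fun s hs => hsm x₀ s hs) hlap hξ

theorem decay {n : ℕ} {β : ℝ} (hB : Basic n β) (hβ : 0 < β) (hS : Soft n β) (hA : Ann n β) :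
    Decay n β := by
  intro T κ hκ
  obtain ⟨l, hl, hst⟩ := hS T (1 / 256) (by norm_num)
  obtain ⟨K₀, hK₀⟩ := exists_nat_gt (768 * β)
  have hK0 : (0 : ℝ) < K₀ := lt_trans (by positivity) hK₀
  have hK0' : 0 < K₀ := by exact_mod_cast hK0
  have key : ∀ (m : ℕ) (Λ : Type) [Fintype Λ] [DecidableEq Λ] (G : Env β Λ),
      Small G T.e (2 ^ m * K₀ * l) ((1 / 8) ^ m) := by
    intro m Λ _ _ G
    obtain ⟨hC, -, hE, -, hX⟩ := hB Λ
    induction m with
    | zero =>
      intro x₀ ξ hξ
      refine hE.abs_le _ ((hX G).sm_H _).continuous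
        (hC.sm_lin T.e (ContinuousLinearMap.id ℝ _) x₀).continuous hξ fun s hs => ?_
      refine (abs_real_inner_le_norm _ _).trans ?_
      rw [T.norm_e, hs x₀]; simp
    | succ m ih =>
      intro x₀ ξ hξ
      have h := hA T Λ G l (2 ^ m * K₀) (1 / 256) _ hl (by positivity) (by norm_num) (hst Λ G) ih
        x₀ ξ hξ
      rw [show 2 * (2 ^ m * K₀ * l) = 2 ^ (m + 1) * K₀ * l by ring] at h
      refine h.trans ?_
      rw [pow_succ' (1 / 8 : ℝ)]
      refine mul_le_mul_of_nonneg_right ?_ (by positivity)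
      have h1 : (K₀ : ℝ) ≤ ((2 ^ m * K₀ : ℕ) : ℝ) := by
        exact_mod_cast Nat.le_mul_of_pos_left _ (by positivity)
      have h2 : 48 * β / ((2 ^ m * K₀ : ℕ) : ℝ) ≤ 1 / 16 := by
        rw [div_le_iff₀ (hK0.trans_le h1)]; linarith
      linarith
  have hl0 : (0 : ℝ) < l := by exact_mod_cast hl
  obtain ⟨m, hm⟩ := exists_pow_lt_of_lt_one (show 0 < κ / ((K₀ : ℝ) * l) ^ 2 by positivity)
    (show (1 / 2 : ℝ) < 1 by norm_num)
  refine ⟨2 ^ m * K₀ * l, (1 / 8) ^ m, by positivity, by positivity, ?_, key m⟩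
  rw [lt_div_iff₀ (by positivity)] at hm
  refine le_of_eq_of_le ?_ hm.le
  push_cast
  rw [show (1 / 2 : ℝ) ^ m = (2 ^ m) ^ 2 * (1 / 8) ^ m by
    rw [← pow_mul, mul_comm m 2, pow_mul, ← mul_pow]; norm_num]
  ring

end

end Crest.Agent.R167
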