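import Crest.Agent.R167.Exp

/-!
# Row 167, task D: boxes
-/

set_option autoImplicit false

open Finset Function MeasureTheory
open scoped ContDiff RealInnerProductSpace

namespace Crest.Agent.R167

noncomputable section

namespace BOX

variable {n : ℕ} {β : ℝ} {Λ : Type} [Fintype Λ] [DecidableEq Λ]

theorem sm_sum2 (S : Finset Λ) (w : Λ → Fin 2 → ℝ) (g : Λ → Fin 2 → (Λ → E n) → ℝ)
    (hg : ∀ x i, Sm (g x i)) : Sm (fun s => ∑ x ∈ S, ∑ i, w x i * g x i s) :=
  ContDiff.sum fun x _ => ContDiff.sum fun i _ => contDiff_const.mul (hg x i)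

theorem D_sum2 (hC : CalcB n Λ) (θ : Λ → ℝ) (A : E n →L[ℝ] E n) (S : Finset Λ)
    (w : Λ → Fin 2 → ℝ) (g : Λ → Fin 2 → (Λ → E n) → ℝ) (hg : ∀ x i, Sm (g x i)) :
    D θ A (fun s => ∑ x ∈ S, ∑ i, w x i * g x i s) =
      fun s => ∑ x ∈ S, ∑ i, w x i * D θ A (g x i) s := by
  rw [hC.sum θ A S (fun x s => ∑ i, w x i * g x i s)
    fun x _ => ContDiff.sum fun i _ => contDiff_const.mul (hg x i)]
  funext s
  refine sum_congr rfl fun x _ => ?_
  rw [hC.sum θ A univ (fun i s => w x i * g x i s) fun i _ => contDiff_const.mul (hg x i)]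
  refine sum_congr rfl fun i _ => ?_
  rw [hC.const_mul θ A _ (hg x i)]

theorem sm_H (hC : CalcB n Λ) (G : Env β Λ) (S : Finset Λ) : Sm (H G S : (Λ → E n) → ℝ) :=
  sm_sum2 S G.J (fun x i s => ⟪s x, s (G.tgt x i)⟫) fun x i =>
    hC.sm_bil (ContinuousLinearMap.id ℝ _) (ContinuousLinearMap.id ℝ _) x (G.tgt x i)

theorem D_H (hC : CalcB n Λ) (G : Env β Λ) (S : Finset Λ) (θ : Λ → ℝ) {A : E n →L[ℝ] E n}
    (hA : Rot A) : D θ A (H G S) = fun s => ∑ x ∈ S, ∑ i,
      (G.J x i * (θ x - θ (G.tgt x i))) * ⟪A (s x), s (G.tgt x i)⟫ := by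
  refine (D_sum2 hC θ A S G.J (fun x i s => ⟪s x, s (G.tgt x i)⟫) fun x i =>
    hC.sm_bil (ContinuousLinearMap.id ℝ _) (ContinuousLinearMap.id ℝ _) x (G.tgt x i)).trans ?_
  funext s
  refine sum_congr rfl fun x _ => sum_congr rfl fun i _ => ?_
  have h := congrFun (hC.D_bil θ A (ContinuousLinearMap.id ℝ _) (ContinuousLinearMap.id ℝ _) x
    (G.tgt x i)) s
  simp only [ContinuousLinearMap.id_apply, ContinuousLinearMap.id_comp] at h
  rw [h, hA.skew]
  ring

theorem DD_H (hC : CalcB n Λ) (G : Env β Λ) (S : Finset Λ) (θ : Λ → ℝ) {A : E n →L[ℝ] E n}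
    (hA : Rot A) : D θ A (D θ A (H G S)) = fun s => ∑ x ∈ S, ∑ i,
      (G.J x i * (θ x - θ (G.tgt x i)) ^ 2) * ⟪A (A (s x)), s (G.tgt x i)⟫ := by
  rw [D_H hC G S θ hA]
  refine (D_sum2 hC θ A S _ (fun x i s => ⟪A (s x), s (G.tgt x i)⟫) fun x i =>
    hC.sm_bil A (ContinuousLinearMap.id ℝ _) x (G.tgt x i)).trans ?_
  funext s
  refine sum_congr rfl fun x _ => sum_congr rfl fun i _ => ?_
  have h := congrFun (hC.D_bil θ A A (ContinuousLinearMap.id ℝ _) x (G.tgt x i)) s
  simp only [ContinuousLinearMap.id_apply, ContinuousLinearMap.id_comp,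
    ContinuousLinearMap.comp_apply] at h
  rw [h, hA.skew (A (s x))]
  ring

theorem card_hbox (G : Env β Λ) (c : Fin 2 → ℤ) (l : ℕ) :
    ((hbox G c l).card : ℝ) ≤ (l : ℝ) ^ 2 := by
  have h : (hbox G c l).card ≤ (Fintype.piFinset fun j => Finset.Ico (c j) (c j + l)).card :=
    card_le_card_of_injOn G.pos (fun x hx => by
      have := (mem_filter.1 hx).2
      exact mem_coe.2 (Fintype.mem_piFinset.2 fun j => mem_Ico.2 (this j))) G.inj.injOn
  rw [Fintype.card_piFinset] at h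
  simp only [Int.card_Ico, add_sub_cancel_left, Int.toNat_natCast, prod_const, card_univ,
    Fintype.card_fin] at h
  exact_mod_cast h

theorem mem_hbox (G : Env β Λ) (c : Fin 2 → ℤ) (l : ℕ) (x : Λ) :
    x ∈ hbox G c l ↔ ∀ j, c j ≤ G.pos x j ∧ G.pos x j < c j + l :=
  mem_filter.trans (and_iff_right (mem_univ _))

theorem inner_le {u v : E n} (hu : ‖u‖ ≤ 1) (hv : ‖v‖ ≤ 1) : |⟪u, v⟫| ≤ 1 :=
  (abs_real_inner_le_norm u v).trans (mul_le_one₀ hu (norm_nonneg _) hv)

theorem bd_cmul (hC : CalcB n Λ) {T : Tri n} {m : ℕ} {B c c' : ℝ} {f : (Λ → E n) → ℝ} (hf : Sm f)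
    (hc : |c| ≤ c') (h : Bd T m B f) : Bd T m (c' * B) (fun s => c * f s) := by
  have h0 : ∀ {g : (Λ → E n) → ℝ}, (∀ s, OnS s → |g s| ≤ B) → ∀ s, OnS s → |c * g s| ≤ c' * B :=
    fun hg s hs => by
      rw [abs_mul]
      exact mul_le_mul hc (hg s hs) (abs_nonneg _) ((abs_nonneg _).trans hc)
  induction m generalizing f with
  | zero => exact h0 h
  | succ m ih =>
    refine ⟨h0 h.1, fun θ i hθ => ?_⟩
    rw [hC.const_mul θ _ c hf]
    exact ih (hC.sm _ _ hf) (h.2 θ i hθ)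

theorem bd_const (hC : CalcB n Λ) (T : Tri n) (m : ℕ) :
    Bd T m 0 (fun _ : Λ → E n => (0 : ℝ)) := by
  induction m with
  | zero => exact fun _ _ => by simp
  | succ m ih =>
    refine ⟨fun _ _ => by simp, fun θ i _ => ?_⟩
    rw [hC.const]
    exact ih

theorem bd_sum (hC : CalcB n Λ) {T : Tri n} {m : ℕ} {ι : Type} (Z : Finset ι) {B : ℝ}
    (f : ι → (Λ → E n) → ℝ) (hf : ∀ z, Sm (f z)) (h : ∀ z, Bd T m B (f z)) :
    Bd T m (Z.card * B) (fun s => ∑ z ∈ Z, f z s) := by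
  classical
  induction Z using Finset.induction_on with
  | empty => simpa using bd_const hC T m
  | insert a Z ha ih =>
    simp only [sum_insert ha, card_insert_of_notMem ha]
    refine EXP.bd_mono (EXP.bd_add hC (hf a) (ContDiff.sum fun z _ => hf z) (h a) ih) (le_of_eq ?_)
    push_cast
    ring

theorem bd_bil (hC : CalcB n Λ) (T : Tri n) (m : ℕ) (x y : Λ) (B C : E n →L[ℝ] E n)
    (hB : ∀ u, ‖B u‖ ≤ ‖u‖) (hC' : ∀ u, ‖C u‖ ≤ ‖u‖) :
    Bd T m (2 ^ m) (fun s : Λ → E n => ⟪B (s x), C (s y)⟫) := by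
  induction m generalizing B C with
  | zero =>
    intro s hs
    rw [pow_zero]
    exact inner_le ((hB _).trans (hs x).le) ((hC' _).trans (hs y).le)
  | succ m ih =>
    refine ⟨fun s hs => (inner_le ((hB _).trans (hs x).le) ((hC' _).trans (hs y).le)).trans
      (one_le_pow₀ one_le_two), fun θ i hθ => ?_⟩
    rw [hC.D_bil]
    have h1 := bd_cmul hC (hC.sm_bil _ _ x y) (hθ x)
      (ih (B.comp (T.A i)) C (fun u => (hB _).trans ((T.rot i).norm_le u)) hC')
    have h2 := bd_cmul hC (hC.sm_bil _ _ x y) (hθ y)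
      (ih B (C.comp (T.A i)) hB fun u => (hC' _).trans ((T.rot i).norm_le u))
    refine EXP.bd_mono (EXP.bd_add hC (contDiff_const.mul (hC.sm_bil _ _ x y))
      (contDiff_const.mul (hC.sm_bil _ _ x y)) h1 h2) (le_of_eq ?_)
    ring

theorem bd_H (hC : CalcB n Λ) (hβ : 0 ≤ β) (G : Env β Λ) (T : Tri n) (c : Fin 2 → ℤ) (l : ℕ) :
    Bd T 4 (32 * β * (l : ℝ) ^ 2) (H G (hbox G c l) : (Λ → E n) → ℝ) := by
  have hs : ∀ x i, Sm (fun s : Λ → E n => G.J x i * ⟪s x, s (G.tgt x i)⟫) := fun x i =>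
    contDiff_const.mul
      (hC.sm_bil (ContinuousLinearMap.id ℝ _) (ContinuousLinearMap.id ℝ _) x (G.tgt x i))
  have h := bd_sum hC (T := T) (m := 4) (hbox G c l)
    (fun x s => ∑ i, G.J x i * ⟪s x, s (G.tgt x i)⟫) (fun x => ContDiff.sum fun i _ => hs x i)
    fun x => bd_sum hC univ (fun i s => G.J x i * ⟪s x, s (G.tgt x i)⟫) (hs x) fun i =>
      bd_cmul hC (c' := β)
        (hC.sm_bil (ContinuousLinearMap.id ℝ _) (ContinuousLinearMap.id ℝ _) x (G.tgt x i))
        (by rw [abs_of_nonneg (G.J_nonneg x i)]; exact G.J_le x i)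
        (bd_bil hC T 4 x (G.tgt x i) (ContinuousLinearMap.id ℝ _) (ContinuousLinearMap.id ℝ _)
          (fun _ => le_rfl) fun _ => le_rfl)
  refine EXP.bd_mono h ?_
  rw [card_univ, Fintype.card_fin]
  have := card_hbox G c l
  push_cast
  nlinarith

theorem loc_H (G : Env β Λ) (c : Fin 2 → ℤ) (l : ℕ) :
    Loc (cbox G c l) (H G (hbox G c l) : (Λ → E n) → ℝ) := by
  intro s s' h
  refine sum_congr rfl fun x hx => sum_congr rfl fun i _ => ?_
  have hx' := (mem_filter.1 hx).2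
  rw [h x fun j => ⟨(hx' j).1, (hx' j).2.le⟩, h (G.tgt x i) fun j =>
    ⟨(hx' j).1.trans (G.le_tgt x i j), by linarith [G.tgt_le x i j, (hx' j).2]⟩]

theorem ind_H (G : Env β Λ) (S : Finset Λ) (c : Fin 2 → ℤ) (l : ℕ)
    (hS : Disjoint S (hbox G c l)) : Ind (obox G c l) (H G S : (Λ → E n) → ℝ) := by
  intro s s' h
  refine sum_congr rfl fun x hx => sum_congr rfl fun i _ => ?_
  have hx' := disjoint_left.1 hS hx
  rw [h x fun hc => hx' ?_, h (G.tgt x i) fun hc => hx' ?_]
  · have := (mem_filter.1 (mem_coe.1 hc)).2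
    exact mem_filter.2 ⟨mem_univ _, fun j =>
      ⟨by linarith [G.tgt_le x i j, (this j).1], (G.le_tgt x i j).trans_lt (this j).2⟩⟩
  · have := (mem_filter.1 (mem_coe.1 hc)).2
    exact mem_filter.2 ⟨mem_univ _, fun j => ⟨(this j).1.le, (this j).2⟩⟩

theorem disj (G : Env β Λ) (c : Fin 2 → ℤ) (l : ℕ) {z z' : Fin 2 → ℤ} (h : z ≠ z') :
    Disjoint (hbox G (grid c l z) l) (hbox G (grid c l z') l) := by
  rw [disjoint_left]
  intro x h1 h2
  apply h
  funext j
  obtain ⟨a, b⟩ := (mem_filter.1 h1).2 j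
  obtain ⟨a', b'⟩ := (mem_filter.1 h2).2 j
  simp only [grid] at a b a' b'
  have hl : (0 : ℤ) ≤ l := Nat.cast_nonneg l
  rcases lt_trichotomy (z j) (z' j) with e | e | e
  · have : (l : ℤ) * (z j + 1) ≤ l * z' j := mul_le_mul_of_nonneg_left e hl
    nlinarith
  · exact e
  · have : (l : ℤ) * (z' j + 1) ≤ l * z j := mul_le_mul_of_nonneg_left e hl
    nlinarith

end BOX

variable {n : ℕ} {β : ℝ} {Λ : Type} [Fintype Λ] [DecidableEq Λ]

theorem boxB (hC : CalcB n Λ) (hE : ExB n Λ) (hβ : 0 ≤ β) (G : Env β Λ) : BoxB n G where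
  sm_H := BOX.sm_H hC G
  inv_H := fun S A hA => by
    rw [BOX.D_H hC G S _ hA]
    funext s
    simp
  loc_H := BOX.loc_H G
  ind_H := BOX.ind_H G
  union_H := fun S S' h => by
    funext s
    exact sum_union h
  sm_FB := fun c l => hE.sm_LZ _ (BOX.sm_H hC G _)
  inv_FB := fun c l A hA => by
    unfold FB
    rw [hE.D_LZ _ _ hA (BOX.sm_H hC G _), BOX.D_H hC G _ _ hA]
    simp only [sub_self, mul_zero, zero_mul, sum_const_zero]
    exact hE.const _ 0 (BOX.sm_H hC G _).continuous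
  loc_FB := fun c l => hE.loc_LZ _ (BOX.loc_H G c l)
  energy := fun c l θ g A hA hθ s hs => by
    have hF := BOX.sm_H (n := n) hC G (hbox G c l)
    have hD := hC.sm θ A hF
    unfold FB
    rw [hE.D_LZ _ _ hA hF, hE.D_Ex _ _ hA hF hD]
    have h1 := hE.sq_le (obox G c l) hF.continuous hD.continuous hs
    have h2 := hE.abs_le (B := 2 * β * (l : ℝ) ^ 2 * g ^ 2) (obox G c l) hF.continuous
      (hC.sm θ A hD).continuous hs fun t ht => by
        rw [BOX.DD_H hC G _ θ hA]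
        refine (abs_sum_le_sum_abs _ _).trans ?_
        calc _ ≤ ∑ _x ∈ hbox G c l, 2 * (β * g ^ 2) := by
              refine sum_le_sum fun x hx => (abs_sum_le_sum_abs _ _).trans ?_
              calc _ ≤ ∑ _i : Fin 2, β * g ^ 2 := by
                    refine sum_le_sum fun i _ => ?_
                    rw [abs_mul, abs_of_nonneg (mul_nonneg (G.J_nonneg x i) (sq_nonneg _))]
                    refine (mul_le_of_le_one_right (mul_nonneg (G.J_nonneg x i) (sq_nonneg _))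
                      (BOX.inner_le (((hA.norm_le _).trans (hA.norm_le _)).trans (ht x).le)
                        (ht _).le)).trans ?_
                    refine mul_le_mul (G.J_le x i) ?_ (sq_nonneg _) hβ
                    rw [← sq_abs]
                    exact pow_le_pow_left₀ (abs_nonneg _) (hθ x hx i) 2
                _ = _ := by simp
          _ = (hbox G c l).card * (2 * (β * g ^ 2)) := by rw [sum_const, nsmul_eq_mul]
          _ ≤ (l : ℝ) ^ 2 * (2 * (β * g ^ 2)) :=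
              mul_le_mul_of_nonneg_right (BOX.card_hbox G c l) (by positivity)
          _ = _ := by ring
    have h3 := (abs_le.1 h2).1
    beta_reduce
    linarith
  crude := fun T c l => by
    have hF := BOX.sm_H (n := n) hC G (hbox G c l)
    refine hE.crude T _ _ _ (hE.sm_LZ _ hF) (hE.loc_LZ _ (BOX.loc_H G c l)) fun θ i hθ => ?_
    unfold FB
    rw [hE.D_LZ _ _ (T.rot i) hF]
    exact hE.bd_ex T 3 _ _ _ _ _ (by positivity) (by positivity) hF (hC.sm _ _ hF)
      (BOX.bd_H hC hβ G T c l) ((BOX.bd_H hC hβ G T c l).2 θ i hθ)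
  cover := fun c l K z₀ hl => by
    have hl' : (0 : ℤ) < l := by exact_mod_cast hl
    ext x
    simp only [mem_biUnion, BOX.mem_hbox, grid, Fintype.mem_piFinset, mem_Ico]
    constructor
    · intro h
      refine ⟨fun j => (G.pos x j - c j) / l, fun j => ⟨?_, ?_⟩, fun j => ⟨?_, ?_⟩⟩
      · exact Int.le_ediv_of_mul_le hl' (by linarith [(h j).1])
      · refine Int.ediv_lt_of_lt_mul hl' ?_
        have := (h j).2
        push_cast at this
        linarith
      · linarith [Int.mul_ediv_self_le (x := G.pos x j - c j) hl'.ne']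
      · linarith [Int.lt_mul_ediv_self_add (x := G.pos x j - c j) hl']
    · rintro ⟨z, h1, h2⟩ j
      have a := mul_le_mul_of_nonneg_left (h1 j).1 hl'.le
      have b : (l : ℤ) * (z j + 1) ≤ l * (z₀ j + K) := mul_le_mul_of_nonneg_left (h1 j).2 hl'.le
      push_cast
      constructor <;> nlinarith [(h2 j).1, (h2 j).2]
  tile := fun c l Z S I _ hI hS => by
    have e : (H G (S ∪ Z.biUnion fun z => hbox G (grid c l z) l) : (Λ → E n) → ℝ) =
        fun s => H G S s + ∑ z ∈ Z, H G (hbox G (grid c l z) l) s := by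
      funext s
      unfold H
      rw [sum_union ((disjoint_biUnion_right _ _ _).2 hS),
        sum_biUnion fun z _ z' _ h => BOX.disj G c l h]
    rw [e]
    exact hE.tile Z (fun z => obox G (grid c l z) l) (H G S)
      (fun z => H G (hbox G (grid c l z) l)) hI (BOX.sm_H hC G _).continuous
      (fun z _ => (BOX.sm_H hC G _).continuous) (fun z hz => BOX.ind_H G _ _ _ (hS z hz))
      fun z _ z' _ h => BOX.ind_H G _ _ _ (BOX.disj G c l h.symm)

end

end Crest.Agent.R167
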