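import Crest.Agent.R167.Defs

/-! Row 167, task A: calculus of `D`. -/

set_option autoImplicit false
set_option linter.unusedSectionVars false

open Finset Function MeasureTheory
open scoped ContDiff RealInnerProductSpace

namespace Crest.Agent.R167

noncomputable section

variable {n : ℕ} {Λ : Type} [Fintype Λ] [DecidableEq Λ]

/-- the linear vector field behind `D` -/
def calcV (θ : Λ → ℝ) (A : E n →L[ℝ] E n) : (Λ → E n) →L[ℝ] (Λ → E n) :=
  ContinuousLinearMap.pi (fun x => θ x • (A.comp (ContinuousLinearMap.proj x)))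

omit [Fintype Λ] [DecidableEq Λ] in
theorem calcV_apply (θ : Λ → ℝ) (A : E n →L[ℝ] E n) (s : Λ → E n) :
    calcV θ A s = fun x => θ x • A (s x) := by
  ext1 x
  simp [calcV]

omit [DecidableEq Λ] in
theorem calc_D_eq (θ : Λ → ℝ) (A : E n →L[ℝ] E n) (f : (Λ → E n) → ℝ) :
    D θ A f = fun s => fderiv ℝ f s (calcV θ A s) := by
  ext s
  simp only [D, calcV_apply]

omit [DecidableEq Λ] in
theorem calc_diff {f : (Λ → E n) → ℝ} (hf : Sm f) : Differentiable ℝ f :=
  hf.differentiable (by simp)

omit [DecidableEq Λ] in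
theorem calc_sm_fderiv {f : (Λ → E n) → ℝ} (hf : Sm f) : ContDiff ℝ ∞ (fderiv ℝ f) :=
  hf.fderiv_right (m := ∞) (by simp)

omit [DecidableEq Λ] in
theorem calc_of_hasFDerivAt (θ : Λ → ℝ) (A : E n →L[ℝ] E n) {f : (Λ → E n) → ℝ}
    {f' : (Λ → E n) → (Λ → E n) →L[ℝ] ℝ} (h : ∀ s, HasFDerivAt f (f' s) s) :
    D θ A f = fun s => f' s (fun x => θ x • A (s x)) := by
  ext s
  simp only [D, (h s).fderiv]

open Classical in
/-- projection on the spins in `S` -/
def calcL (S : Set Λ) : (Λ → E n) →L[ℝ] (Λ → E n) :=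
  ContinuousLinearMap.pi (fun x => if x ∈ S then ContinuousLinearMap.proj x else 0)

open Classical in
omit [Fintype Λ] [DecidableEq Λ] in
theorem calcL_apply (S : Set Λ) (s : Λ → E n) (x : Λ) :
    calcL S s x = if x ∈ S then s x else 0 := by
  simp only [calcL, ContinuousLinearMap.pi_apply]
  split_ifs <;> simp

omit [DecidableEq Λ] in
theorem calc_fderiv_loc {S : Set Λ} {f : (Λ → E n) → ℝ} (hf : Sm f) (hl : Loc S f)
    (s v : Λ → E n) : fderiv ℝ f s v = fderiv ℝ f (calcL S s) (calcL S v) := by
  have h1 : f = f ∘ (calcL S : (Λ → E n) →L[ℝ] (Λ → E n)) := by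
    ext t
    apply hl
    intro x hx
    rw [calcL_apply, if_pos hx]
  have h2 : HasFDerivAt (f ∘ (calcL S : (Λ → E n) →L[ℝ] (Λ → E n)))
      ((fderiv ℝ f (calcL S s)).comp (calcL S)) s :=
    (calc_diff hf (calcL S s)).hasFDerivAt.comp s (calcL S).hasFDerivAt
  rw [← h1] at h2
  rw [h2.fderiv]
  rfl

omit [DecidableEq Λ] in
theorem calc_DD (θ θ' : Λ → ℝ) (A B : E n →L[ℝ] E n) {f : (Λ → E n) → ℝ} (hf : Sm f)
    (s : Λ → E n) :
    D θ A (D θ' B f) s = fderiv ℝ (fderiv ℝ f) s (calcV θ A s) (calcV θ' B s) +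
      fderiv ℝ f s (calcV θ' B (calcV θ A s)) := by
  rw [calc_D_eq θ A, calc_D_eq θ' B]
  have h1 : HasFDerivAt (fderiv ℝ f) (fderiv ℝ (fderiv ℝ f) s) s :=
    ((calc_sm_fderiv hf).differentiable (by simp) s).hasFDerivAt
  have h2 := h1.clm_apply (calcV θ' B).hasFDerivAt
  simp only
  rw [h2.fderiv]
  simp [add_comm]

theorem calcB : CalcB n Λ where
  sm := by
    intro θ A f hf
    rw [calc_D_eq]
    exact (calc_sm_fderiv hf).clm_apply (calcV θ A).contDiff
  const := by
    intro θ A c
    ext s
    simp [D]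
  add := by
    intro θ A f g hf hg
    rw [calc_of_hasFDerivAt θ A (fun s => (calc_diff hf s).hasFDerivAt.fun_add
      (calc_diff hg s).hasFDerivAt)]
    ext s
    simp [D]
  sub := by
    intro θ A f g hf hg
    rw [calc_of_hasFDerivAt θ A (fun s => (calc_diff hf s).hasFDerivAt.fun_sub
      (calc_diff hg s).hasFDerivAt)]
    ext s
    simp [D]
  const_mul := by
    intro θ A c f hf
    rw [calc_of_hasFDerivAt θ A (fun s => (calc_diff hf s).hasFDerivAt.const_mul c)]
    ext s
    simp [D]
  sum := by
    intro θ A ι Z f hf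
    rw [calc_of_hasFDerivAt θ A (fun s => HasFDerivAt.fun_sum
      (fun z hz => (calc_diff (hf z hz) s).hasFDerivAt))]
    ext s
    simp [D]
  mul := by
    intro θ A f g hf hg
    rw [calc_of_hasFDerivAt θ A (fun s => (calc_diff hf s).hasFDerivAt.fun_mul
      (calc_diff hg s).hasFDerivAt)]
    ext s
    simp [D]
    ring
  exp := by
    intro θ A f hf
    rw [calc_of_hasFDerivAt θ A (fun s => (calc_diff hf s).hasFDerivAt.exp)]
    ext s
    simp [D]
    ring
  log := by
    intro θ A f hf hp
    rw [calc_of_hasFDerivAt θ A (fun s => (calc_diff hf s).hasFDerivAt.log (hp s).ne')]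
    ext s
    simp [D]
    ring
  div := by
    intro θ A f g hf hg hp
    have h : ∀ s, HasFDerivAt (fun s => f s / g s)
        ((g s)⁻¹ • fderiv ℝ f s - (f s / g s ^ 2) • fderiv ℝ g s) s := by
      intro s
      have h1 := (hasDerivAt_inv (hp s).ne').comp_hasFDerivAt s (calc_diff hg s).hasFDerivAt
      have h2 := (calc_diff hf s).hasFDerivAt.fun_mul h1
      simp only [div_eq_mul_inv]
      refine h2.congr_fderiv ?_
      ext1 v
      simp only [_root_.add_apply, _root_.sub_apply,
        _root_.smul_apply, smul_eq_mul, Function.comp]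
      ring
    rw [calc_of_hasFDerivAt θ A h]
    ext s
    have := (hp s).ne'
    simp [D]
    field_simp
  lin := by
    intro θ θ' a b A f
    ext s
    simp only [D]
    have : (fun x => (a * θ x + b * θ' x) • A (s x)) =
        a • (fun x => θ x • A (s x)) + b • (fun x => θ' x • A (s x)) := by
      ext1 x
      simp [add_smul, mul_smul]
    rw [this, map_add, map_smul, map_smul, smul_eq_mul, smul_eq_mul]
  smul := by
    intro θ a A f
    ext s
    simp only [D]
    have : (fun x => (a * θ x) • A (s x)) = a • (fun x => θ x • A (s x)) := by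
      ext1 x
      simp [mul_smul]
    rw [this, map_smul, smul_eq_mul]
  zero := by
    intro A f
    ext s
    simp only [D]
    have : (fun x : Λ => (0 : ℝ) • A (s x)) = 0 := by
      ext1 x
      simp
    rw [this, map_zero]
  zeroA := by
    intro θ f
    ext s
    simp only [D]
    have : (fun x : Λ => θ x • (0 : E n →L[ℝ] E n) (s x)) = 0 := by
      ext1 x
      simp
    rw [this, map_zero]
  comm := by
    intro θ θ' A B f hf
    ext s
    rw [calc_DD θ θ' A B hf, calc_DD θ' θ B A hf]
    have hs : IsSymmSndFDerivAt ℝ f s :=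
      hf.contDiffAt.isSymmSndFDerivAt (by
        rw [minSmoothness_of_isRCLikeNormedField]
        exact ENat.natCast_le_of_coe_top_le_withTop le_rfl 2)
    rw [hs.eq (calcV θ A s) (calcV θ' B s), add_assoc]
    congr 1
    simp only [D]
    rw [← map_add]
    congr 1
    ext1 x
    simp only [calcV_apply, Pi.add_apply, map_smul, _root_.sub_apply,
      ContinuousLinearMap.comp_apply, smul_sub, smul_smul]
    rw [mul_comm (θ' x) (θ x)]
    abel
  loc := by
    intro θ A S f hf hl s s' hs
    simp only [D]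
    rw [calc_fderiv_loc hf hl s, calc_fderiv_loc hf hl s']
    have h1 : calcL S s = calcL S s' := by
      ext1 x
      rw [calcL_apply, calcL_apply]
      split_ifs with hx
      · exact hs x hx
      · rfl
    have h2 : calcL S (fun x => θ x • A (s x)) = calcL S (fun x => θ x • A (s' x)) := by
      ext1 x
      rw [calcL_apply, calcL_apply]
      split_ifs with hx
      · rw [hs x hx]
      · rfl
    rw [h1, h2]
  congr := by
    intro θ θ' A S f hf hl hθ
    ext s
    simp only [D]
    rw [calc_fderiv_loc hf hl s, calc_fderiv_loc hf hl s (fun x => θ' x • A (s x))]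
    have h2 : calcL S (fun x => θ x • A (s x)) = calcL S (fun x => θ' x • A (s x)) := by
      ext1 x
      rw [calcL_apply, calcL_apply]
      split_ifs with hx
      · rw [hθ x hx]
      · rfl
    rw [h2]
  sm_lin := by
    intro u B x
    exact contDiff_const.inner ℝ (B.contDiff.comp (contDiff_apply ℝ (E n) x))
  D_lin := by
    intro θ A u B x
    have h : ∀ s : Λ → E n, HasFDerivAt (fun s : Λ → E n => ⟪u, B (s x)⟫)
        ((innerSL ℝ u).comp (B.comp
          (ContinuousLinearMap.proj (R := ℝ) (φ := fun _ : Λ => E n) x))) s := fun s =>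
      ((innerSL ℝ u).comp (B.comp
        (ContinuousLinearMap.proj (R := ℝ) (φ := fun _ : Λ => E n) x))).hasFDerivAt
    rw [calc_of_hasFDerivAt θ A h]
    ext s
    simp
  sm_bil := by
    intro B C x y
    exact (B.contDiff.comp (contDiff_apply ℝ (E n) x)).inner ℝ
      (C.contDiff.comp (contDiff_apply ℝ (E n) y))
  D_bil := by
    intro θ A B C x y
    have h := fun s : Λ → E n =>
      (B.comp (ContinuousLinearMap.proj (R := ℝ) (φ := fun _ : Λ => E n) x)).hasFDerivAt.inner ℝ
        (C.comp (ContinuousLinearMap.proj (R := ℝ) (φ := fun _ : Λ => E n) y)).hasFDerivAt (x := s)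
    have h' := calc_of_hasFDerivAt θ A h
    simp only [ContinuousLinearMap.comp_apply, ContinuousLinearMap.proj_apply] at h'
    rw [h']
    ext s
    simp [inner_smul_right, inner_smul_left]
    ring

end

end Crest.Agent.R167
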