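import Mathlib

/-!
# Row 167 (S0253): exponential decay in the two-dimensional `O(n)` model, `n ≥ 3`

Plan.  `D θ A` is the derivative along the local rotation `s x ↦ exp (t θ x A) s x`.
`Q c ℓ θ = - ∑ᵢ D θ Aᵢ D θ Aᵢ log Z_box` (trace over an `so(3)` triple) is the twist stiffness of a
box with arbitrary boundary spins.  Non-abelian Ward identities give
`a(Kℓ) ≤ a(ℓ) - c a(ℓ)² / β²` (`Ward`, `Gain`), so the stiffness per unit area becomes small;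
one more Ward identity on an annulus contracts `E[⟪e, s x₀⟫ | outside]` (`Ann`), and a Simon-Lieb
inequality for the Wolff clusters gives exponential decay (`FK`).
Every sub-task is a `Prop` below; prove it as `theorem name (hyps) : TheProp` in your own file
`Crest/Agent/R167/<Name>.lean` importing only `Crest.Agent.R167.Defs`.
-/

set_option autoImplicit false

open Finset Function MeasureTheory
open scoped ContDiff RealInnerProductSpace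

namespace Crest.Agent.R167

noncomputable section

abbrev E (n : ℕ) := EuclideanSpace ℝ (Fin n)
abbrev Sph (n : ℕ) := Metric.sphere (0 : E n) 1

/-- normalised sphere measure (a probability measure if `0 < n`) -/
def nu (n : ℕ) : Measure (Sph n) :=
  ((volume : Measure (E n)).toSphere Set.univ)⁻¹ • (volume : Measure (E n)).toSphere

/-- generator of a plane rotation; `id + sin t • A + (1 - cos t) • A²` is a linear isometry with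
derivative `A ∘ (itself)` in `t` -/
structure Rot {n : ℕ} (A : E n →L[ℝ] E n) : Prop where
  skew : ∀ u v, ⟪A u, v⟫ = -⟪u, A v⟫
  cube : ∀ u, A (A (A u)) = -A u
  norm_le : ∀ u, ‖A u‖ ≤ ‖u‖

/-- an `so(3)` triple and a unit vector of the three-space it rotates -/
structure Tri (n : ℕ) where
  A : Fin 3 → E n →L[ℝ] E n
  e : E n
  rot : ∀ i, Rot (A i)
  comm : ∀ i, (A (i + 1)).comp (A i) - (A i).comp (A (i + 1)) = A (i + 2)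
  norm_e : ‖e‖ = 1
  lap : ∀ u, ∑ i, ⟪e, A i (A i u)⟫ = -2 * ⟪e, u⟫

section Generic

variable {n : ℕ} {Λ : Type} [Fintype Λ] [DecidableEq Λ]

abbrev Sm (f : (Λ → E n) → ℝ) : Prop := ContDiff ℝ ∞ f

def OnS (s : Λ → E n) : Prop := ∀ x, ‖s x‖ = 1

/-- `f` depends only on the spins in `S` -/
def Loc (S : Set Λ) (f : (Λ → E n) → ℝ) : Prop := ∀ s s', (∀ x ∈ S, s x = s' x) → f s = f s'

/-- `f` does not depend on the spins in `I` -/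
def Ind (I : Finset Λ) (f : (Λ → E n) → ℝ) : Prop := Loc ((I : Set Λ)ᶜ) f

def D (θ : Λ → ℝ) (A : E n →L[ℝ] E n) (f : (Λ → E n) → ℝ) : (Λ → E n) → ℝ :=
  fun s => fderiv ℝ f s (fun x => θ x • A (s x))

def pw (I : Finset Λ) (s : Λ → Sph n) (ξ : Λ → E n) : Λ → E n :=
  fun x => if x ∈ I then (s x : E n) else ξ x

/-- integrate out the spins in `I` -/
def P (I : Finset Λ) (f : (Λ → E n) → ℝ) : (Λ → E n) → ℝ :=
  fun ξ => ∫ s, f (pw I s ξ) ∂(Measure.pi fun _ : Λ => nu n)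

/-- Gibbs expectation in `I` with weight `exp F` -/
def Ex (I : Finset Λ) (F f : (Λ → E n) → ℝ) : (Λ → E n) → ℝ :=
  fun ξ => P I (fun s => f s * Real.exp (F s)) ξ / P I (fun s => Real.exp (F s)) ξ

def LZ (I : Finset Λ) (F : (Λ → E n) → ℝ) : (Λ → E n) → ℝ :=
  fun ξ => Real.log (P I (fun s => Real.exp (F s)) ξ)

/-- all iterated derivatives of order `≤ m` along unit fields are bounded by `B` on spheres -/
def Bd (T : Tri n) : ℕ → ℝ → ((Λ → E n) → ℝ) → Prop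
  | 0, B, f => ∀ s, OnS s → |f s| ≤ B
  | m + 1, B, f => (∀ s, OnS s → |f s| ≤ B) ∧
      ∀ (θ : Λ → ℝ) (i : Fin 3), (∀ x, |θ x| ≤ 1) → Bd T m B (D θ (T.A i) f)

/-- constants for `bd_ex` -/
def cc (M : ℝ) : ℕ → ℝ
  | 0 => 1
  | m + 1 => cc M m * (1 + 2 ^ m * M + 2 ^ m * cc M m * M)

/-- crude bounds for derivatives of order three and four of a function local to `S` -/
def Crude (T : Tri n) (S : Set Λ) (B : ℝ) (F : (Λ → E n) → ℝ) : Prop :=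
  ∀ (θ₁ θ₂ θ₃ θ₄ : Λ → ℝ) (r₁ r₂ r₃ r₄ : ℝ) (i₁ i₂ i₃ i₄ : Fin 3),
    0 ≤ r₁ → 0 ≤ r₂ → 0 ≤ r₃ → 0 ≤ r₄ →
    (∀ x ∈ S, |θ₁ x| ≤ r₁) → (∀ x ∈ S, |θ₂ x| ≤ r₂) → (∀ x ∈ S, |θ₃ x| ≤ r₃) →
    (∀ x ∈ S, |θ₄ x| ≤ r₄) → ∀ s, OnS s →
    |D θ₁ (T.A i₁) (D θ₂ (T.A i₂) (D θ₃ (T.A i₃) F)) s| ≤ B * (r₁ * r₂ * r₃) ∧
    |D θ₁ (T.A i₁) (D θ₂ (T.A i₂) (D θ₃ (T.A i₃) (D θ₄ (T.A i₄) F))) s| ≤ B * (r₁ * r₂ * r₃ * r₄)

/-- trace of the second twist derivative, with a minus sign -/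
def Qf (T : Tri n) (θ : Λ → ℝ) (F : (Λ → E n) → ℝ) : (Λ → E n) → ℝ :=
  fun s => -∑ i, D θ (T.A i) (D θ (T.A i) F) s

variable (n Λ)

/-- **Task A.** Calculus of `D`.  `comm`: symmetry of the second derivative
(`ContDiffAt.isSymmSndFDerivAt`).  `congr`/`loc`: a local `f` equals `f ∘ L` for the linear
projection `L s x = if x ∈ S then s x else 0`. -/
structure CalcB : Prop where
  sm : ∀ (θ : Λ → ℝ) (A : E n →L[ℝ] E n) {f : (Λ → E n) → ℝ}, Sm f → Sm (D θ A f)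
  const : ∀ (θ : Λ → ℝ) (A : E n →L[ℝ] E n) (c : ℝ), D θ A (fun _ => c) = fun _ => 0
  add : ∀ (θ : Λ → ℝ) (A : E n →L[ℝ] E n) {f g : (Λ → E n) → ℝ}, Sm f → Sm g →
    D θ A (fun s => f s + g s) = fun s => D θ A f s + D θ A g s
  sub : ∀ (θ : Λ → ℝ) (A : E n →L[ℝ] E n) {f g : (Λ → E n) → ℝ}, Sm f → Sm g →
    D θ A (fun s => f s - g s) = fun s => D θ A f s - D θ A g s
  const_mul : ∀ (θ : Λ → ℝ) (A : E n →L[ℝ] E n) (c : ℝ) {f : (Λ → E n) → ℝ}, Sm f →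
    D θ A (fun s => c * f s) = fun s => c * D θ A f s
  sum : ∀ (θ : Λ → ℝ) (A : E n →L[ℝ] E n) {ι : Type} (Z : Finset ι) (f : ι → (Λ → E n) → ℝ),
    (∀ z ∈ Z, Sm (f z)) → D θ A (fun s => ∑ z ∈ Z, f z s) = fun s => ∑ z ∈ Z, D θ A (f z) s
  mul : ∀ (θ : Λ → ℝ) (A : E n →L[ℝ] E n) {f g : (Λ → E n) → ℝ}, Sm f → Sm g →
    D θ A (fun s => f s * g s) = fun s => D θ A f s * g s + f s * D θ A g s
  exp : ∀ (θ : Λ → ℝ) (A : E n →L[ℝ] E n) {f : (Λ → E n) → ℝ}, Sm f →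
    D θ A (fun s => Real.exp (f s)) = fun s => D θ A f s * Real.exp (f s)
  log : ∀ (θ : Λ → ℝ) (A : E n →L[ℝ] E n) {f : (Λ → E n) → ℝ}, Sm f → (∀ s, 0 < f s) →
    D θ A (fun s => Real.log (f s)) = fun s => D θ A f s / f s
  div : ∀ (θ : Λ → ℝ) (A : E n →L[ℝ] E n) {f g : (Λ → E n) → ℝ}, Sm f → Sm g → (∀ s, 0 < g s) →
    D θ A (fun s => f s / g s) = fun s => D θ A f s / g s - f s / g s * (D θ A g s / g s)
  lin : ∀ (θ θ' : Λ → ℝ) (a b : ℝ) (A : E n →L[ℝ] E n) (f : (Λ → E n) → ℝ),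
    D (fun x => a * θ x + b * θ' x) A f = fun s => a * D θ A f s + b * D θ' A f s
  smul : ∀ (θ : Λ → ℝ) (a : ℝ) (A : E n →L[ℝ] E n) (f : (Λ → E n) → ℝ),
    D (fun x => a * θ x) A f = fun s => a * D θ A f s
  zero : ∀ (A : E n →L[ℝ] E n) (f : (Λ → E n) → ℝ), D (fun _ => 0) A f = fun _ => 0
  zeroA : ∀ (θ : Λ → ℝ) (f : (Λ → E n) → ℝ), D θ (0 : E n →L[ℝ] E n) f = fun _ => 0
  comm : ∀ (θ θ' : Λ → ℝ) (A B : E n →L[ℝ] E n) {f : (Λ → E n) → ℝ}, Sm f →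
    D θ A (D θ' B f) = fun s => D θ' B (D θ A f) s +
      D (fun x => θ x * θ' x) (B.comp A - A.comp B) f s
  loc : ∀ (θ : Λ → ℝ) (A : E n →L[ℝ] E n) {S : Set Λ} {f : (Λ → E n) → ℝ}, Sm f → Loc S f →
    Loc S (D θ A f)
  congr : ∀ {θ θ' : Λ → ℝ} (A : E n →L[ℝ] E n) {S : Set Λ} {f : (Λ → E n) → ℝ}, Sm f → Loc S f →
    (∀ x ∈ S, θ x = θ' x) → D θ A f = D θ' A f
  sm_lin : ∀ (u : E n) (B : E n →L[ℝ] E n) (x : Λ), Sm (fun s : Λ → E n => ⟪u, B (s x)⟫)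
  D_lin : ∀ (θ : Λ → ℝ) (A : E n →L[ℝ] E n) (u : E n) (B : E n →L[ℝ] E n) (x : Λ),
    D θ A (fun s => ⟪u, B (s x)⟫) = fun s => θ x * ⟪u, (B.comp A) (s x)⟫
  sm_bil : ∀ (B C : E n →L[ℝ] E n) (x y : Λ), Sm (fun s : Λ → E n => ⟪B (s x), C (s y)⟫)
  D_bil : ∀ (θ : Λ → ℝ) (A B C : E n →L[ℝ] E n) (x y : Λ),
    D θ A (fun s => ⟪B (s x), C (s y)⟫) =
      fun s => θ x * ⟪(B.comp A) (s x), C (s y)⟫ + θ y * ⟪B (s x), (C.comp A) (s y)⟫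

/-- **Task B.** Partial integration (hypothesis `0 < n`).  `sm`: differentiate under the integral
(induction on the order, for Banach-valued `f`; the `s`-space is compact).  `iso`: `nu` is invariant
under linear isometries (`toSphere_apply'`, see `R322/Sphere.lean`), `measurePreserving_pi`.
`D_P`: with `φ t s x = rot (t * θ x) (s x)`, `P I f (φ t ξ) = ∫ f (φ t (pw I s ξ))` by invariance;
differentiate at `t = 0`.  `tower`: Fubini and the measure-preserving shuffle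
`(s, s') ↦ fun x => if x ∈ J then s' x else s x`. -/
structure MargB : Prop where
  cont : ∀ (I : Finset Λ) {f : (Λ → E n) → ℝ}, Continuous f → Continuous (P I f)
  sm : ∀ (I : Finset Λ) {f : (Λ → E n) → ℝ}, Sm f → Sm (P I f)
  D_P : ∀ (I : Finset Λ) (θ : Λ → ℝ) {A : E n →L[ℝ] E n} {f : (Λ → E n) → ℝ}, Rot A → Sm f →
    D θ A (P I f) = P I (D θ A f)
  ind : ∀ (I : Finset Λ) (f : (Λ → E n) → ℝ), Ind I (P I f)
  loc : ∀ (I : Finset Λ) {S : Set Λ} {f : (Λ → E n) → ℝ}, Loc S f → Loc S (P I f)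
  const : ∀ (I : Finset Λ) (c : ℝ), P I (fun _ : Λ → E n => c) = fun _ => c
  add : ∀ (I : Finset Λ) {f g : (Λ → E n) → ℝ}, Continuous f → Continuous g →
    P I (fun s => f s + g s) = fun ξ => P I f ξ + P I g ξ
  const_mul : ∀ (I : Finset Λ) (c : ℝ) (f : (Λ → E n) → ℝ),
    P I (fun s => c * f s) = fun ξ => c * P I f ξ
  sum : ∀ (I : Finset Λ) {ι : Type} (Z : Finset ι) (f : ι → (Λ → E n) → ℝ),
    (∀ z ∈ Z, Continuous (f z)) → P I (fun s => ∑ z ∈ Z, f z s) = fun ξ => ∑ z ∈ Z, P I (f z) ξ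
  pull : ∀ (I : Finset Λ) (f : (Λ → E n) → ℝ) {g : (Λ → E n) → ℝ}, Ind I g →
    P I (fun s => f s * g s) = fun ξ => P I f ξ * g ξ
  tower : ∀ {I J : Finset Λ} {f : (Λ → E n) → ℝ}, J ⊆ I → Continuous f → P I (P J f) = P I f
  mono : ∀ (I : Finset Λ) {f g : (Λ → E n) → ℝ} {ξ : Λ → E n}, Continuous f → Continuous g →
    OnS ξ → (∀ s, OnS s → f s ≤ g s) → P I f ξ ≤ P I g ξ
  pos : ∀ (I : Finset Λ) {f : (Λ → E n) → ℝ} (ξ : Λ → E n), Continuous f → (∀ s, 0 < f s) →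
    0 < P I f ξ
  iso : ∀ {I C : Finset Λ} (R : E n ≃ₗᵢ[ℝ] E n) {f : (Λ → E n) → ℝ}, C ⊆ I → Continuous f →
    P I (fun s => f (fun x => if x ∈ C then R (s x) else s x)) = P I f

/-- **Task C.** Gibbs expectations (from `CalcB`, `MargB`).  `ibp`: `D θ A (P I g) = 0` since
`P I g` is `Ind I` and `θ = 0` off `I` (`congr`, `zero`).  `cond`, `tile`: `tower` and `pull`
(`tile` by induction on `Z`; `LZ (J z) (G z)` is `Ind (J z')` by `loc` or `ind`).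
`bd_ex`: induction on `m` with `D_Ex` and the product rule `Bd m B f → Bd m B' g →
Bd m (2^m B B') (f g)`.  `crude`: replace `θ` by `r • (θ 1_S / r)` (`congr`, `loc`, `smul`). -/
structure ExB : Prop where
  sm : ∀ (I : Finset Λ) {F f : (Λ → E n) → ℝ}, Sm F → Sm f → Sm (Ex I F f)
  cont : ∀ (I : Finset Λ) {F f : (Λ → E n) → ℝ}, Continuous F → Continuous f →
    Continuous (Ex I F f)
  sm_LZ : ∀ (I : Finset Λ) {F : (Λ → E n) → ℝ}, Sm F → Sm (LZ I F)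
  loc : ∀ (I : Finset Λ) {S : Set Λ} {F f : (Λ → E n) → ℝ}, Loc S F → Loc S f → Loc S (Ex I F f)
  loc_LZ : ∀ (I : Finset Λ) {S : Set Λ} {F : (Λ → E n) → ℝ}, Loc S F → Loc S (LZ I F)
  ind : ∀ (I : Finset Λ) (F f : (Λ → E n) → ℝ), Ind I (Ex I F f)
  ind_LZ : ∀ (I : Finset Λ) (F : (Λ → E n) → ℝ), Ind I (LZ I F)
  D_LZ : ∀ (I : Finset Λ) (θ : Λ → ℝ) {A : E n →L[ℝ] E n} {F : (Λ → E n) → ℝ}, Rot A → Sm F →
    D θ A (LZ I F) = Ex I F (D θ A F)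
  D_Ex : ∀ (I : Finset Λ) (θ : Λ → ℝ) {A : E n →L[ℝ] E n} {F f : (Λ → E n) → ℝ}, Rot A → Sm F →
    Sm f → D θ A (Ex I F f) = fun ξ => Ex I F (D θ A f) ξ + Ex I F (fun s => f s * D θ A F s) ξ -
      Ex I F f ξ * Ex I F (D θ A F) ξ
  ibp : ∀ (I : Finset Λ) (θ : Λ → ℝ) {A : E n →L[ℝ] E n} {F f : (Λ → E n) → ℝ}, Rot A → Sm F →
    Sm f → (∀ x, x ∉ I → θ x = 0) →
    Ex I F (D θ A f) = fun ξ => -Ex I F (fun s => f s * D θ A F s) ξ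
  const : ∀ (I : Finset Λ) {F : (Λ → E n) → ℝ} (c : ℝ), Continuous F →
    Ex I F (fun _ => c) = fun _ => c
  add : ∀ (I : Finset Λ) {F f g : (Λ → E n) → ℝ}, Continuous F → Continuous f → Continuous g →
    Ex I F (fun s => f s + g s) = fun ξ => Ex I F f ξ + Ex I F g ξ
  const_mul : ∀ (I : Finset Λ) (F : (Λ → E n) → ℝ) (c : ℝ) (f : (Λ → E n) → ℝ),
    Ex I F (fun s => c * f s) = fun ξ => c * Ex I F f ξ
  sum : ∀ (I : Finset Λ) {F : (Λ → E n) → ℝ} {ι : Type} (Z : Finset ι) (f : ι → (Λ → E n) → ℝ),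
    Continuous F → (∀ z ∈ Z, Continuous (f z)) →
    Ex I F (fun s => ∑ z ∈ Z, f z s) = fun ξ => ∑ z ∈ Z, Ex I F (f z) ξ
  mono : ∀ (I : Finset Λ) {F f g : (Λ → E n) → ℝ} {ξ : Λ → E n}, Continuous F → Continuous f →
    Continuous g → OnS ξ → (∀ s, OnS s → f s ≤ g s) → Ex I F f ξ ≤ Ex I F g ξ
  abs_le : ∀ (I : Finset Λ) {F f : (Λ → E n) → ℝ} {ξ : Λ → E n} {B : ℝ}, Continuous F →
    Continuous f → OnS ξ → (∀ s, OnS s → |f s| ≤ B) → |Ex I F f ξ| ≤ B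
  sq_le : ∀ (I : Finset Λ) {F f : (Λ → E n) → ℝ} {ξ : Λ → E n}, Continuous F → Continuous f →
    OnS ξ → Ex I F f ξ * Ex I F f ξ ≤ Ex I F (fun s => f s * f s) ξ
  cond : ∀ {I J : Finset Λ} {F G f : (Λ → E n) → ℝ}, J ⊆ I → Continuous F → Continuous G →
    Continuous f → Ind J F →
    Ex I (fun s => F s + G s) f = Ex I (fun s => F s + G s) (Ex J G f)
  tile : ∀ {I : Finset Λ} {ι : Type} (Z : Finset ι) (J : ι → Finset Λ) (F : (Λ → E n) → ℝ)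
    (G : ι → (Λ → E n) → ℝ), (∀ z ∈ Z, J z ⊆ I) → Continuous F → (∀ z ∈ Z, Continuous (G z)) →
    (∀ z ∈ Z, Ind (J z) F) → (∀ z ∈ Z, ∀ z' ∈ Z, z ≠ z' → Ind (J z) (G z')) →
    LZ I (fun s => F s + ∑ z ∈ Z, G z s) = LZ I (fun s => F s + ∑ z ∈ Z, LZ (J z) (G z) s) ∧
    ∀ f : (Λ → E n) → ℝ, Continuous f → (∀ z ∈ Z, Ind (J z) f) →
      Ex I (fun s => F s + ∑ z ∈ Z, G z s) f =
        Ex I (fun s => F s + ∑ z ∈ Z, LZ (J z) (G z) s) f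
  bd_ex : ∀ (T : Tri n) (m : ℕ) (M B : ℝ) (I : Finset Λ) (F f : (Λ → E n) → ℝ), 0 ≤ M → 0 ≤ B →
    Sm F → Sm f → Bd T (m + 1) M F → Bd T m B f → Bd T m (cc M m * B) (Ex I F f)
  crude : ∀ (T : Tri n) (S : Set Λ) (B : ℝ) (F : (Λ → E n) → ℝ), Sm F → Loc S F →
    (∀ (θ : Λ → ℝ) (i : Fin 3), (∀ x, |θ x| ≤ 1) → Bd T 3 B (D θ (T.A i) F)) → Crude T S B F

/-- **Task E (helper15).** The abstract non-abelian Ward inequality. -/
def Ward : Prop :=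
  ∀ (T : Tri n) {ι : Type} (Z : Finset ι) (S : ι → Set Λ) (F : ι → (Λ → E n) → ℝ) (I : Finset Λ)
    (θ₁ θ₂ lam : Λ → ℝ) (c₂ c₃ : ι → ℝ) (B l η L C₁ q : ℝ) (ξ : Λ → E n),
    0 ≤ B → 0 ≤ l → 0 ≤ η → 0 < L → 0 ≤ q → OnS ξ →
    (∀ z ∈ Z, Sm (F z) ∧ Loc (S z) (F z) ∧ Crude T (S z) B (F z) ∧
      ∀ i, D (fun _ => 1) (T.A i) (F z) = fun _ => 0) →
    (∀ x, x ∉ I → θ₁ x = 0 ∧ θ₂ x = 0) → (∀ x, |θ₁ x| ≤ 1) →
    (∀ z ∈ Z, 0 ≤ c₂ z ∧ c₂ z ≤ 1 ∧ ∀ x ∈ S z, |lam x - c₃ z| ≤ l ∧ |θ₂ x - c₂ z| ≤ η) →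
    (∀ z ∈ Z, (c₂ z = 0 ∧ ∀ x ∈ S z, θ₂ x = 0) ∨ ∃ c₁, ∀ x ∈ S z, θ₁ x = c₁ + lam x / L) →
    (∀ i s, OnS s → -∑ z ∈ Z, D θ₁ (T.A i) (D θ₁ (T.A i) (F z)) s ≤ C₁ ∧
      -∑ z ∈ Z, D θ₂ (T.A i) (D θ₂ (T.A i) (F z)) s ≤ C₁) →
    (∀ z ∈ Z, ∀ s, OnS s → Qf T lam (F z) s ≤ q) →
    ∃ v : ℝ, 0 ≤ v ∧
      Qf T lam (LZ I (fun s => ∑ z ∈ Z, F z s)) ξ =
        ∑ z ∈ Z, Ex I (fun s => ∑ z ∈ Z, F z s) (Qf T lam (F z)) ξ - v ∧
      ∀ t : ℝ, 0 < t →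
        (∑ z ∈ Z, c₂ z * Ex I (fun s => ∑ z ∈ Z, F z s) (Qf T lam (F z)) ξ) / L ≤
          t / 2 * v + (2 * (Z.card * (q / L ^ 2 + 6 * B * l ^ 2 * η / L ^ 2 +
            3 * B * l * η ^ 2 / L)) + 9 * C₁ ^ 2) / (2 * t) + Z.card * (3 * B * l ^ 2 * η / L)

end Generic

/-! ## Environments and boxes -/

structure Env (β : ℝ) (Λ : Type) where
  pos : Λ → Fin 2 → ℤ
  inj : Injective pos
  tgt : Λ → Fin 2 → Λ
  J : Λ → Fin 2 → ℝ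
  J_nonneg : ∀ x i, 0 ≤ J x i
  J_le : ∀ x i, J x i ≤ β
  le_tgt : ∀ x i j, pos x j ≤ pos (tgt x i) j
  tgt_le : ∀ x i j, pos (tgt x i) j ≤ pos x j + 1

section Box

variable {n : ℕ} {β : ℝ} {Λ : Type} [Fintype Λ] [DecidableEq Λ] (G : Env β Λ)

/-- energy of the edges with source in `S` -/
def H (S : Finset Λ) : (Λ → E n) → ℝ :=
  fun s => ∑ x ∈ S, ∑ i, G.J x i * ⟪s x, s (G.tgt x i)⟫

def hbox (c : Fin 2 → ℤ) (l : ℕ) : Finset Λ :=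
  univ.filter (fun x => ∀ j, c j ≤ G.pos x j ∧ G.pos x j < c j + l)

def obox (c : Fin 2 → ℤ) (l : ℕ) : Finset Λ :=
  univ.filter (fun x => ∀ j, c j < G.pos x j ∧ G.pos x j < c j + l)

def cbox (c : Fin 2 → ℤ) (l : ℕ) : Set Λ := {x | ∀ j, c j ≤ G.pos x j ∧ G.pos x j ≤ c j + l}

/-- log partition function of a box, as a function of its boundary spins -/
def FB (c : Fin 2 → ℤ) (l : ℕ) : (Λ → E n) → ℝ := LZ (obox G c l) (H G (hbox G c l))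

def grid (c : Fin 2 → ℤ) (l : ℕ) (z : Fin 2 → ℤ) : Fin 2 → ℤ := fun j => c j + l * z j

def Stiff (T : Tri n) (l : ℕ) (a : ℝ) : Prop :=
  ∀ (c : Fin 2 → ℤ) (p : Fin 2) (ξ : Λ → E n), OnS ξ →
    Qf T (fun x => (G.pos x p : ℝ)) (FB G c l) ξ ≤ a * (l : ℝ) ^ 2

/-- expectation of `⟪e, s x₀⟫` given the spins at sup-distance `≥ r` -/
def U (e : E n) (x₀ : Λ) (r : ℕ) : (Λ → E n) → ℝ :=
  Ex (obox G (fun j => G.pos x₀ j - r) (2 * r)) (H G (hbox G (fun j => G.pos x₀ j - r) (2 * r)))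
    (fun s => ⟪e, s x₀⟫)

def Small (e : E n) (r : ℕ) (η : ℝ) : Prop :=
  ∀ (x₀ : Λ) (ξ : Λ → E n), OnS ξ → |U G e x₀ r ξ| ≤ η

variable (n)

/-- **Task D.** Boxes (from `CalcB`, `ExB`; `0 ≤ β`).  `D θ A H = ∑ J (θ x - θ y) ⟪A s x, s y⟫`,
`D θ A D θ A H = ∑ J (θ x - θ y)² ⟪A A s x, s y⟫`; `energy`: `D_LZ`, `D_Ex`, `sq_le`, at most
`2 l²` edges (`inj`).  `crude`: `Bd T 4 M (H (hbox))` with `M = 32 β l²`, `D_LZ`, `bd_ex`, `crude`.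
`tile`: an edge touching `obox c l` has its source in `hbox c l`; grid boxes are disjoint. -/
structure BoxB : Prop where
  sm_H : ∀ S : Finset Λ, Sm (H G S : (Λ → E n) → ℝ)
  inv_H : ∀ (S : Finset Λ) {A : E n →L[ℝ] E n}, Rot A → D (fun _ => 1) A (H G S) = fun _ => 0
  loc_H : ∀ c l, Loc (cbox G c l) (H G (hbox G c l) : (Λ → E n) → ℝ)
  ind_H : ∀ (S : Finset Λ) c l, Disjoint S (hbox G c l) → Ind (obox G c l) (H G S : (Λ → E n) → ℝ)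
  union_H : ∀ S S' : Finset Λ, Disjoint S S' →
    (H G (S ∪ S') : (Λ → E n) → ℝ) = fun s => H G S s + H G S' s
  sm_FB : ∀ c l, Sm (FB G c l : (Λ → E n) → ℝ)
  inv_FB : ∀ c l {A : E n →L[ℝ] E n}, Rot A → D (fun _ => 1) A (FB G c l) = fun _ => 0
  loc_FB : ∀ c l, Loc (cbox G c l) (FB G c l : (Λ → E n) → ℝ)
  energy : ∀ c (l : ℕ) (θ : Λ → ℝ) (g : ℝ) {A : E n →L[ℝ] E n}, Rot A →
    (∀ x ∈ hbox G c l, ∀ i, |θ x - θ (G.tgt x i)| ≤ g) → ∀ s, OnS s →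
    -D θ A (D θ A (FB G c l)) s ≤ 2 * β * (l : ℝ) ^ 2 * g ^ 2
  crude : ∀ (T : Tri n) c (l : ℕ),
    Crude T (cbox G c l) (cc (32 * β * (l : ℝ) ^ 2) 3 * (32 * β * (l : ℝ) ^ 2)) (FB G c l)
  cover : ∀ c (l K : ℕ) (z₀ : Fin 2 → ℤ), 0 < l → hbox G (grid c l z₀) (K * l) =
    (Fintype.piFinset fun j => Finset.Ico (z₀ j) (z₀ j + K)).biUnion
      (fun z => hbox G (grid c l z) l)
  tile : ∀ c (l : ℕ) (Z : Finset (Fin 2 → ℤ)) (S I : Finset Λ), 0 < l →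
    (∀ z ∈ Z, obox G (grid c l z) l ⊆ I) → (∀ z ∈ Z, Disjoint S (hbox G (grid c l z) l)) →
    (LZ I (H G (S ∪ Z.biUnion fun z => hbox G (grid c l z) l)) : (Λ → E n) → ℝ) =
      LZ I (fun s => H G S s + ∑ z ∈ Z, FB G (grid c l z) l s) ∧
    ∀ f : (Λ → E n) → ℝ, Continuous f → (∀ z ∈ Z, Ind (obox G (grid c l z) l) f) →
      Ex I (H G (S ∪ Z.biUnion fun z => hbox G (grid c l z) l)) f =
        Ex I (fun s => H G S s + ∑ z ∈ Z, FB G (grid c l z) l s) f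

end Box

/-- everything elementary, for all environments -/
def Basic (n : ℕ) (β : ℝ) : Prop :=
  ∀ (Λ : Type) [Fintype Λ] [DecidableEq Λ],
    CalcB n Λ ∧ MargB n Λ ∧ ExB n Λ ∧ Ward n Λ ∧ ∀ G : Env β Λ, BoxB n G

/-- **Task F.** One renormalisation step (from `Basic n β`, `0 < β`).  Take `K = 8 M`, `L = K l`,
big box with corner `c`, `Z = piFinset (Ico 0 K)` (`cover` with `z₀ = 0`, `tile` with `S = ∅`),
`I = obox c L`, `lam x = pos x p`, `d x = min_j min (pos x j - c j) (c j + L - pos x j)`,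
`θ₂ = max 0 (min 1 (8 d / L - 2))`, `θ₁ = (lam - c p) / L * max 0 (min 1 (8 d / L))`,
`c₂ z` = the same formula as `θ₂` at the corner `grid c l z`, `c₃ z = grid c l z p`, `η = 8 l / L`,
edge gradients `≤ 9 / L`, `C₁ = 162 β` (`energy`), `q = a l²`.  If `θ₂ ≢ 0` on a closed box or
`c₂ z ≠ 0`, then `d ≥ L/4 - l ≥ L/8` on it.  `∑ c₂ ≥ (2M)² = K²/16` (corners `3M ≤ z j < 5M`).
With `G z = q - Ex Q_z ≥ 0`, `Δ L² = ∑ G z`: `Q = a L² - Δ L² - v`; if `Δ ≥ a/32` done, otherwise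
`(∑ c₂ Ex Q_z) / L ≥ a L / 32`; for `M` large the bracket is `≤ C₂ := 2 (6 β + 1) + 9 C₁²` and the
last term (`= 24 B l`) is `≤ ε L / 64`; `t = 64 C₂ / (a L)` gives `v ≥ a² L² / (4096 C₂)`. -/
def Gain (n : ℕ) (β : ℝ) : Prop :=
  ∀ (T : Tri n) (ε : ℝ), 0 < ε → ∃ γ : ℝ, 0 < γ ∧ ∀ l : ℕ, 0 < l → ∃ K : ℕ, 0 < K ∧
    ∀ (Λ : Type) [Fintype Λ] [DecidableEq Λ] (G : Env β Λ) (a : ℝ), ε ≤ a → a ≤ 6 * β →
      Stiff G T l a → Stiff G T (K * l) (a - γ)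

/-- **Task F'.** From `Gain` and `Stiff G T 1 (6 β)` (`energy` with `g = 1`): induction on `N`,
`∃ l > 0, ∀ G, Stiff G T l (max ε (6 β - N γ))` (`Stiff` is monotone in `a`). -/
def Soft (n : ℕ) (β : ℝ) : Prop :=
  ∀ (T : Tri n) (ε : ℝ), 0 < ε → ∃ l : ℕ, 0 < l ∧
    ∀ (Λ : Type) [Fintype Λ] [DecidableEq Λ] (G : Env β Λ), Stiff G T l ε

/-- **Task G.** Annulus contraction (from `Basic n β`, `0 < β`).  `r = K l`, `c = pos x₀`,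
`ρ x = max_j |pos x j - c j|`, `θ = max 0 (min 1 (2 - ρ / r))`, `S` = inner `hbox`,
`Z = piFinset (Ico (-2K) (2K)) \ piFinset (Ico (-K) K)` (`cover` twice).  `U (2r) = Ex big H (U r)`
(`cond`, `union_H`, `ind_H`) `= Ex big F (U r)`, `F = H S + ∑ FB` (`tile`; `U r` is local to the
inner `cbox`).  `θ = 1` on the inner `cbox`, so `D θ A (H S) = 0` and `∑ᵢ D θ Aᵢ D θ Aᵢ (U r) = -2 U r`
(`congr`, `D_Ex`, `inv_H`, `D_lin`, `lap`).  Two `ibp`s: `∑ᵢ Ex (D D u) = Ex (u Φ)`,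
`Φ = ∑ᵢ (D D F + (D F)²) ≥ -ε'`, `Ex Φ = 0`, so `2 |Ex u| ≤ 2 ε' η`.  Put `m j = z j` if `z j ≥ 0`,
else `-z j - 1`; if `m 0 ≠ m 1` then `θ = const ± pos · p / r` on the closed box (`Qf ≤ ε / K²`, by
`lin`, `congr`, `inv_FB`; at most `16 K²` boxes), else use `energy` with `g = 1/r`
(`Qf ≤ 6 β / K²`, at most `8 K` boxes). -/
def Ann (n : ℕ) (β : ℝ) : Prop :=
  ∀ (T : Tri n) (Λ : Type) [Fintype Λ] [DecidableEq Λ] (G : Env β Λ) (l K : ℕ) (ε η : ℝ),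
    0 < l → 0 < K → 0 ≤ ε → Stiff G T l ε → Small G T.e (K * l) η →
    Small G T.e (2 * (K * l)) ((16 * ε + 48 * β / K) * η)

/-- **Task G'.** From `Soft`, `Ann`: `ε = 1/256`, `K₀ ≥ 768 β`, `r = 2^m K₀ l`, `η = 8^{-m}`
(start: `Small G e r 1` by `abs_le`). -/
def Decay (n : ℕ) (β : ℝ) : Prop :=
  ∀ (T : Tri n) (κ : ℝ), 0 < κ → ∃ (r : ℕ) (η : ℝ), 0 < r ∧ 0 ≤ η ∧ (r : ℝ) ^ 2 * η ≤ κ ∧
    ∀ (Λ : Type) [Fintype Λ] [DecidableEq Λ] (G : Env β Λ), Small G T.e r η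

/-- **Task H.** Wolff clusters (from `Basic n β`).  Edges `(x, i) : Λ × Fin 2`, `p x = ⟪e, s x⟫`,
`w₀ = exp (J (⟪s x, s y⟫ - p x p y - |p x p y|))`, `w₁ = exp (J ⟪s x, s y⟫) - w₀ ≥ 0`,
`w₁ ≤ 2 β |p x| |p y| (w₀ + w₁)`, `w₁ ≠ 0 → 0 < p x p y`; `W ω = ∏_{ω} w₁ ∏_{ωᶜ} w₀`,
`∑_ω W ω = exp (H univ)`; `x ↔ y` = `ReflTransGen` of the symmetric adjacency of `ω`.
Flip: for `x` not connected to `w` in `ω`, reflecting the cluster of `x` in `e^⊥` (`iso`) gives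
`P univ (p x p w g W ω) = 0` for reflection-invariant `g`; if connected, `p x p w W = |p x| |p w| W`.
`τ x = P univ (∑_ω |p x| 1[x ↔ y] W ω) / Z ≤ 1`.  If `y ∉ B = {ρ ≤ r}` (centre `x`) and `x ↔ y`, there is
an edge `ε ∈ ω` with ends `w ∈ B`, `w' ∉ B`, `x ↔ w` in `ω \ ε` and `w' ↔ y` using only edges with
both ends outside `B` (strong induction on `ω`).  Finite energy on `ε`, flip, then sum over the
edges with source in `hbox (pos x - r) (2r)` (this gives `exp (H hbox)` times a nonnegative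
continuous `Ind obox` function), `tower`, `pull`, `Small`: `τ x ≤ 2 β η ∑_ε τ w'`, at most
`2 (2r+3)² ≤ 50 r²` edges.  So `τ x ≤ 2⁻ᵏ` if some coordinate distance is `≥ k (r+1)`. -/
def FK (n : ℕ) (β : ℝ) : Prop :=
  ∀ (e : E n), ‖e‖ = 1 → ∀ (Λ : Type) [Fintype Λ] [DecidableEq Λ] (G : Env β Λ) (r : ℕ) (η : ℝ),
    0 < r → 0 ≤ η → 200 * β * ((r : ℝ) ^ 2 * η) ≤ 1 → Small G e r η →
    ∀ (x y : Λ) (ξ : Λ → E n), OnS ξ →
      0 ≤ Ex univ (H G univ) (fun s => ⟪e, s x⟫ * ⟪e, s y⟫) ξ ∧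
      ∀ (k : ℕ) (j : Fin 2), (k * (r + 1) : ℤ) ≤ |G.pos x j - G.pos y j| →
        Ex univ (H G univ) (fun s => ⟪e, s x⟫ * ⟪e, s y⟫) ξ ≤ (1 / 2) ^ k

/-- **Task I.** With an orthonormal triple `f 0 = single a 1, f 1, f 2` of basis vectors put
`A i u = ⟪f (i+1), u⟫ • f (i+2) - ⟪f (i+2), u⟫ • f (i+1)` (or its negative, to get `comm`). -/
def TriEx (n : ℕ) : Prop := ∀ a : Fin n, ∃ T : Tri n, T.e = EuclideanSpace.single a 1

end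

end Crest.Agent.R167
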