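import Crest.Agent.R167.Defs

/-!
# Row 167, task C: Gibbs expectations
-/

set_option autoImplicit false

open Finset Function MeasureTheory
open scoped ContDiff RealInnerProductSpace

namespace Crest.Agent.R167

noncomputable section

namespace EXP

variable {n : ℕ} {Λ : Type} [Fintype Λ] [DecidableEq Λ]

theorem Z_pos (hM : MargB n Λ) (I : Finset Λ) {F : (Λ → E n) → ℝ} (hF : Continuous F)
    (ξ : Λ → E n) : 0 < P I (fun s => Real.exp (F s)) ξ :=
  hM.pos I ξ hF.rexp fun _ => Real.exp_pos _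

theorem sm (hM : MargB n Λ) (I : Finset Λ) {F f : (Λ → E n) → ℝ} (hF : Sm F) (hf : Sm f) :
    Sm (Ex I F f) :=
  (hM.sm I (hf.mul hF.exp)).div (hM.sm I hF.exp) fun ξ => (Z_pos hM I hF.continuous ξ).ne'

theorem cont (hM : MargB n Λ) (I : Finset Λ) {F f : (Λ → E n) → ℝ} (hF : Continuous F)
    (hf : Continuous f) : Continuous (Ex I F f) :=
  (hM.cont I (hf.mul hF.rexp)).div (hM.cont I hF.rexp) fun ξ => (Z_pos hM I hF ξ).ne'

theorem cont_LZ (hM : MargB n Λ) (I : Finset Λ) {F : (Λ → E n) → ℝ} (hF : Continuous F) :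
    Continuous (LZ I F) :=
  (hM.cont I hF.rexp).log fun ξ => (Z_pos hM I hF ξ).ne'

theorem loc (hM : MargB n Λ) (I : Finset Λ) {S : Set Λ} {F f : (Λ → E n) → ℝ} (hF : Loc S F)
    (hf : Loc S f) : Loc S (Ex I F f) := by
  intro s s' h
  have h1 : Loc S (fun s => f s * Real.exp (F s)) := fun a b hab => by
    beta_reduce
    rw [hF a b hab, hf a b hab]
  have h2 : Loc S (fun s => Real.exp (F s)) := fun a b hab => by beta_reduce; rw [hF a b hab]
  unfold Ex
  rw [hM.loc I h1 s s' h, hM.loc I h2 s s' h]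

theorem loc_LZ (hM : MargB n Λ) (I : Finset Λ) {S : Set Λ} {F : (Λ → E n) → ℝ} (hF : Loc S F) :
    Loc S (LZ I F) := by
  intro s s' h
  have h2 : Loc S (fun s => Real.exp (F s)) := fun a b hab => by beta_reduce; rw [hF a b hab]
  unfold LZ
  rw [hM.loc I h2 s s' h]

theorem ind (hM : MargB n Λ) (I : Finset Λ) (F f : (Λ → E n) → ℝ) : Ind I (Ex I F f) := by
  intro s s' h
  unfold Ex
  rw [hM.ind I _ s s' h, hM.ind I (fun s => Real.exp (F s)) s s' h]

theorem D_Z (hC : CalcB n Λ) (hM : MargB n Λ) (I : Finset Λ) (θ : Λ → ℝ) {A : E n →L[ℝ] E n}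
    {F : (Λ → E n) → ℝ} (hA : Rot A) (hF : Sm F) :
    D θ A (P I fun s => Real.exp (F s)) = P I fun s => D θ A F s * Real.exp (F s) := by
  rw [hM.D_P I θ hA hF.exp, hC.exp θ A hF]

theorem D_N (hC : CalcB n Λ) (hM : MargB n Λ) (I : Finset Λ) (θ : Λ → ℝ) {A : E n →L[ℝ] E n}
    {F f : (Λ → E n) → ℝ} (hA : Rot A) (hF : Sm F) (hf : Sm f) :
    D θ A (P I fun s => f s * Real.exp (F s)) = fun ξ =>
      P I (fun s => D θ A f s * Real.exp (F s)) ξ +
        P I (fun s => f s * D θ A F s * Real.exp (F s)) ξ := by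
  rw [hM.D_P I θ hA (hf.mul hF.exp), hC.mul θ A hf hF.exp, hC.exp θ A hF,
    ← hM.add I ((hC.sm θ A hf).mul hF.exp).continuous
      ((hf.mul (hC.sm θ A hF)).mul hF.exp).continuous]
  simp only [mul_assoc]

theorem D_Ex (hC : CalcB n Λ) (hM : MargB n Λ) (I : Finset Λ) (θ : Λ → ℝ) {A : E n →L[ℝ] E n}
    {F f : (Λ → E n) → ℝ} (hA : Rot A) (hF : Sm F) (hf : Sm f) :
    D θ A (Ex I F f) = fun ξ => Ex I F (D θ A f) ξ + Ex I F (fun s => f s * D θ A F s) ξ -
      Ex I F f ξ * Ex I F (D θ A F) ξ := by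
  have h := hC.div θ A (hM.sm I (hf.mul hF.exp)) (hM.sm I hF.exp) (Z_pos hM I hF.continuous)
  rw [D_N hC hM I θ hA hF hf, D_Z hC hM I θ hA hF] at h
  refine h.trans ?_
  funext ξ
  simp only [Ex, add_div]

theorem const (hM : MargB n Λ) (I : Finset Λ) {F : (Λ → E n) → ℝ} (c : ℝ) (hF : Continuous F) :
    Ex I F (fun _ => c) = fun _ => c := by
  funext ξ
  unfold Ex
  rw [hM.const_mul I c]
  exact mul_div_cancel_right₀ _ (Z_pos hM I hF ξ).ne'

theorem add (hM : MargB n Λ) (I : Finset Λ) {F f g : (Λ → E n) → ℝ} (hF : Continuous F)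
    (hf : Continuous f) (hg : Continuous g) :
    Ex I F (fun s => f s + g s) = fun ξ => Ex I F f ξ + Ex I F g ξ := by
  funext ξ
  unfold Ex
  simp only [add_mul]
  rw [hM.add I (hf.fun_mul hF.rexp) (hg.fun_mul hF.rexp), add_div]

theorem const_mul (hM : MargB n Λ) (I : Finset Λ) (F : (Λ → E n) → ℝ) (c : ℝ)
    (f : (Λ → E n) → ℝ) : Ex I F (fun s => c * f s) = fun ξ => c * Ex I F f ξ := by
  funext ξ
  unfold Ex
  simp only [mul_assoc]
  rw [hM.const_mul I c, mul_div_assoc]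

theorem mono (hM : MargB n Λ) (I : Finset Λ) {F f g : (Λ → E n) → ℝ} {ξ : Λ → E n}
    (hF : Continuous F) (hf : Continuous f) (hg : Continuous g) (hξ : OnS ξ)
    (h : ∀ s, OnS s → f s ≤ g s) : Ex I F f ξ ≤ Ex I F g ξ :=
  div_le_div_of_nonneg_right (hM.mono I (hf.mul hF.rexp) (hg.mul hF.rexp) hξ
    fun s hs => mul_le_mul_of_nonneg_right (h s hs) (Real.exp_pos _).le) (Z_pos hM I hF ξ).le

theorem abs_le' (hM : MargB n Λ) (I : Finset Λ) {F f : (Λ → E n) → ℝ} {ξ : Λ → E n} {B : ℝ}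
    (hF : Continuous F) (hf : Continuous f) (hξ : OnS ξ) (h : ∀ s, OnS s → |f s| ≤ B) :
    |Ex I F f ξ| ≤ B := by
  have h1 := mono hM I hF hf (continuous_const (y := B)) hξ fun s hs => (abs_le.1 (h s hs)).2
  have h2 := mono hM I hF (continuous_const (y := -B)) hf hξ fun s hs => (abs_le.1 (h s hs)).1
  rw [const hM I _ hF] at h1 h2
  exact abs_le.2 ⟨h2, h1⟩

theorem step (hM : MargB n Λ) {I J : Finset Λ} {h G : (Λ → E n) → ℝ} (hJ : J ⊆ I)
    (hh : Continuous h) (hG : Continuous G) (hi : Ind J h) :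
    P I (fun s => G s * h s) = P I (fun s => P J G s * h s) := by
  rw [← hM.tower hJ (hG.fun_mul hh), hM.pull J G hi]

theorem tile (hM : MargB n Λ) {I : Finset Λ} {ι : Type} (Z : Finset ι) (J : ι → Finset Λ)
    (F : (Λ → E n) → ℝ) (G : ι → (Λ → E n) → ℝ) (hJ : ∀ z ∈ Z, J z ⊆ I) (hF : Continuous F)
    (hG : ∀ z ∈ Z, Continuous (G z)) (hi : ∀ z ∈ Z, Ind (J z) F)
    (hii : ∀ z ∈ Z, ∀ z' ∈ Z, z ≠ z' → Ind (J z) (G z')) (f : (Λ → E n) → ℝ) (hf : Continuous f)
    (hif : ∀ z ∈ Z, Ind (J z) f) :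
    P I (fun s => f s * Real.exp (F s + ∑ z ∈ Z, G z s)) =
      P I (fun s => f s * Real.exp (F s + ∑ z ∈ Z, LZ (J z) (G z) s)) := by
  classical
  induction Z using Finset.induction_on generalizing F with
  | empty => simp
  | insert a Z ha ih =>
    have hGa := hG a (mem_insert_self _ _)
    have hne : ∀ z ∈ Z, z ≠ a := fun z hz h => ha (h ▸ hz)
    have h1 := ih (fun s => F s + G a s) (fun z hz => hJ z (mem_insert_of_mem hz)) (hF.add hGa)
      (fun z hz => hG z (mem_insert_of_mem hz))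
      (fun z hz s s' h => by
        beta_reduce
        rw [hi z (mem_insert_of_mem hz) s s' h,
          hii z (mem_insert_of_mem hz) a (mem_insert_self _ _) (hne z hz) s s' h])
      (fun z hz z' hz' => hii z (mem_insert_of_mem hz) z' (mem_insert_of_mem hz'))
      (fun z hz => hif z (mem_insert_of_mem hz))
    have h2 := step hM (h := fun s => f s * Real.exp (F s + ∑ z ∈ Z, LZ (J z) (G z) s))
      (hJ a (mem_insert_self _ _))
      (hf.mul (hF.add (continuous_finset_sum _ fun z hz =>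
        cont_LZ hM _ (hG z (mem_insert_of_mem hz)))).rexp) hGa.rexp
      (fun s s' h => by
        beta_reduce
        rw [hif a (mem_insert_self _ _) s s' h, hi a (mem_insert_self _ _) s s' h,
          sum_congr rfl fun z hz => loc_LZ hM (J z)
            (hii a (mem_insert_self _ _) z (mem_insert_of_mem hz) (hne z hz).symm) s s' h])
    simp only [sum_insert ha, ← add_assoc]
    rw [h1]
    refine Eq.trans (congrArg (P I) ?_) (h2.trans (congrArg (P I) ?_))
    · funext s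
      simp only [Real.exp_add]
      ring
    · funext s
      simp only [Real.exp_add, LZ]
      rw [Real.exp_log (Z_pos hM (J a) hGa s)]
      ring

theorem bd_zero {T : Tri n} {m : ℕ} {B : ℝ} {f : (Λ → E n) → ℝ} (h : Bd T m B f) :
    ∀ s, OnS s → |f s| ≤ B := by
  cases m with
  | zero => exact h
  | succ m => exact h.1

theorem bd_pred {T : Tri n} {m : ℕ} {B : ℝ} {f : (Λ → E n) → ℝ} (h : Bd T (m + 1) B f) :
    Bd T m B f := by
  induction m generalizing f with
  | zero => exact h.1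
  | succ m ih => exact ⟨h.1, fun θ i hθ => ih (h.2 θ i hθ)⟩

theorem bd_mono {T : Tri n} {m : ℕ} {B B' : ℝ} {f : (Λ → E n) → ℝ} (h : Bd T m B f)
    (hB : B ≤ B') : Bd T m B' f := by
  induction m generalizing f with
  | zero => exact fun s hs => (h s hs).trans hB
  | succ m ih => exact ⟨fun s hs => (h.1 s hs).trans hB, fun θ i hθ => ih (h.2 θ i hθ)⟩

theorem bd_add (hC : CalcB n Λ) {T : Tri n} {m : ℕ} {B B' : ℝ} {f g : (Λ → E n) → ℝ} (hf : Sm f)
    (hg : Sm g) (h : Bd T m B f) (h' : Bd T m B' g) : Bd T m (B + B') (fun s => f s + g s) := by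
  induction m generalizing f g with
  | zero => exact fun s hs => (abs_add_le _ _).trans (add_le_add (h s hs) (h' s hs))
  | succ m ih =>
    refine ⟨fun s hs => (abs_add_le _ _).trans (add_le_add (h.1 s hs) (h'.1 s hs)),
      fun θ i hθ => ?_⟩
    rw [hC.add θ _ hf hg]
    exact ih (hC.sm _ _ hf) (hC.sm _ _ hg) (h.2 θ i hθ) (h'.2 θ i hθ)

theorem bd_sub (hC : CalcB n Λ) {T : Tri n} {m : ℕ} {B B' : ℝ} {f g : (Λ → E n) → ℝ} (hf : Sm f)
    (hg : Sm g) (h : Bd T m B f) (h' : Bd T m B' g) : Bd T m (B + B') (fun s => f s - g s) := by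
  induction m generalizing f g with
  | zero => exact fun s hs => (abs_sub _ _).trans (add_le_add (h s hs) (h' s hs))
  | succ m ih =>
    refine ⟨fun s hs => (abs_sub _ _).trans (add_le_add (h.1 s hs) (h'.1 s hs)),
      fun θ i hθ => ?_⟩
    rw [hC.sub θ _ hf hg]
    exact ih (hC.sm _ _ hf) (hC.sm _ _ hg) (h.2 θ i hθ) (h'.2 θ i hθ)

theorem bd_mul (hC : CalcB n Λ) {T : Tri n} {m : ℕ} {B B' : ℝ} {f g : (Λ → E n) → ℝ} (hB : 0 ≤ B)
    (hB' : 0 ≤ B') (hf : Sm f) (hg : Sm g) (h : Bd T m B f) (h' : Bd T m B' g) :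
    Bd T m (2 ^ m * (B * B')) (fun s => f s * g s) := by
  have h0 : ∀ s, OnS s → |f s * g s| ≤ B * B' := fun s hs => by
    rw [abs_mul]
    exact mul_le_mul (bd_zero h s hs) (bd_zero h' s hs) (abs_nonneg _) hB
  induction m generalizing f g with
  | zero => exact fun s hs => by rw [pow_zero, one_mul]; exact h0 s hs
  | succ m ih =>
    refine ⟨fun s hs => (h0 s hs).trans
      (le_mul_of_one_le_left (mul_nonneg hB hB') (one_le_pow₀ one_le_two)), fun θ i hθ => ?_⟩
    rw [hC.mul θ _ hf hg]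
    have a := h.2 θ i hθ
    have b := h'.2 θ i hθ
    have h1 := ih (hC.sm θ (T.A i) hf) hg a (bd_pred h') fun s hs => by
      rw [abs_mul]
      exact mul_le_mul (bd_zero a s hs) (h'.1 s hs) (abs_nonneg _) hB
    have h2 := ih hf (hC.sm θ (T.A i) hg) (bd_pred h) b fun s hs => by
      rw [abs_mul]
      exact mul_le_mul (h.1 s hs) (bd_zero b s hs) (abs_nonneg _) hB
    refine bd_mono (bd_add hC ((hC.sm θ (T.A i) hf).mul hg) (hf.mul (hC.sm θ (T.A i) hg)) h1 h2)
      (le_of_eq ?_)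
    ring

theorem one_le_cc {M : ℝ} (hM : 0 ≤ M) (m : ℕ) : 1 ≤ cc M m := by
  induction m with
  | zero => exact le_rfl
  | succ m ih =>
    have : 0 ≤ cc M m := by linarith
    refine one_le_mul_of_one_le_of_one_le ih ?_
    have h1 : 0 ≤ 2 ^ m * M := by positivity
    have h2 : 0 ≤ 2 ^ m * cc M m * M := by positivity
    linarith

theorem bd_ex (hC : CalcB n Λ) (hM : MargB n Λ) (T : Tri n) (m : ℕ) (M B : ℝ) (I : Finset Λ)
    (F f : (Λ → E n) → ℝ) (hM0 : 0 ≤ M) (hB : 0 ≤ B) (hF : Sm F) (hf : Sm f)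
    (h : Bd T (m + 1) M F) (h' : Bd T m B f) : Bd T m (cc M m * B) (Ex I F f) := by
  induction m generalizing B f with
  | zero =>
    intro s hs
    rw [cc, one_mul]
    exact abs_le' hM I hF.continuous hf.continuous hs h'
  | succ m ih =>
    refine ⟨fun s hs => (abs_le' hM I hF.continuous hf.continuous hs h'.1).trans
      (le_mul_of_one_le_left hB (one_le_cc hM0 _)), fun θ i hθ => ?_⟩
    rw [D_Ex hC hM I θ (T.rot i) hF hf]
    have hDF := hC.sm θ (T.A i) hF
    have hDf := hC.sm θ (T.A i) hf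
    have a := bd_pred (h.2 θ i hθ)
    have hc : 0 ≤ cc M m := zero_le_one.trans (one_le_cc hM0 m)
    have h1 := ih B _ hB hDf (bd_pred h) (h'.2 θ i hθ)
    have h2 := ih _ _ (by positivity) (hf.mul hDF) (bd_pred h)
      (bd_mul hC hB hM0 hf hDF (bd_pred h') a)
    have h3 := bd_mul hC (by positivity) (by positivity) (sm hM I hF hf) (sm hM I hF hDF)
      (ih B _ hB hf (bd_pred h) (bd_pred h')) (ih M _ hM0 hDF (bd_pred h) a)
    refine bd_mono (bd_sub hC ((sm hM I hF hDf).add (sm hM I hF (hf.mul hDF)))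
      ((sm hM I hF hf).mul (sm hM I hF hDF))
      (bd_add hC (sm hM I hF hDf) (sm hM I hF (hf.mul hDF)) h1 h2) h3) (le_of_eq ?_)
    rw [cc]
    ring

theorem normal (hC : CalcB n Λ) (S : Set Λ) (θ : Λ → ℝ) (r : ℝ) (hr : 0 ≤ r)
    (h : ∀ x ∈ S, |θ x| ≤ r) : ∃ θ' : Λ → ℝ, (∀ x, |θ' x| ≤ 1) ∧
      ∀ (A : E n →L[ℝ] E n) (c : ℝ) (g : (Λ → E n) → ℝ), Sm g → Loc S g →
        D θ A (fun s => c * g s) = fun s => (c * r) * D θ' A g s := by
  classical
  refine ⟨fun x => if x ∈ S then θ x / r else 0, fun x => ?_, fun A c g hg hl => ?_⟩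
  · by_cases hx : x ∈ S
    · simp only [hx, if_true]
      rw [abs_div, abs_of_nonneg hr]
      exact div_le_one_of_le₀ (h x hx) hr
    · simp [hx]
  · rw [hC.const_mul θ A c hg, hC.congr (θ' := fun x => r * if x ∈ S then θ x / r else 0) A hg hl,
      hC.smul]
    · funext s
      ring
    · intro x hx
      simp only [hx, if_true]
      rcases hr.eq_or_lt with h0 | h0
      · have := h x hx
        rw [← h0] at this ⊢
        rw [zero_mul]
        exact abs_nonpos_iff.1 this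
      · field_simp

theorem crude (hC : CalcB n Λ) (T : Tri n) (S : Set Λ) (B : ℝ) (F : (Λ → E n) → ℝ) (hF : Sm F)
    (hl : Loc S F) (h : ∀ (θ : Λ → ℝ) (i : Fin 3), (∀ x, |θ x| ≤ 1) → Bd T 3 B (D θ (T.A i) F)) :
    Crude T S B F := by
  intro θ₁ θ₂ θ₃ θ₄ r₁ r₂ r₃ r₄ i₁ i₂ i₃ i₄ h₁ h₂ h₃ h₄ b₁ b₂ b₃ b₄ s hs
  obtain ⟨φ₁, a₁, e₁⟩ := normal hC S θ₁ r₁ h₁ b₁
  obtain ⟨φ₂, a₂, e₂⟩ := normal hC S θ₂ r₂ h₂ b₂
  obtain ⟨φ₃, a₃, e₃⟩ := normal hC S θ₃ r₃ h₃ b₃
  obtain ⟨φ₄, a₄, e₄⟩ := normal hC S θ₄ r₄ h₄ b₄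
  have hF1 : F = fun s => 1 * F s := by funext s; rw [one_mul]
  constructor
  · have s3 := hC.sm φ₃ (T.A i₃) hF
    have l3 := hC.loc φ₃ (T.A i₃) hF hl
    have s2 := hC.sm φ₂ (T.A i₂) s3
    have l2 := hC.loc φ₂ (T.A i₂) s3 l3
    rw [hF1, e₃ _ _ _ hF hl, e₂ _ _ _ s3 l3, e₁ _ _ _ s2 l2, abs_mul,
      abs_of_nonneg (by positivity)]
    have := (((h φ₃ i₃ a₃).2 φ₂ i₂ a₂).2 φ₁ i₁ a₁).1 s hs
    calc _ ≤ 1 * r₃ * r₂ * r₁ * B := mul_le_mul_of_nonneg_left this (by positivity)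
      _ = _ := by ring
  · have s4 := hC.sm φ₄ (T.A i₄) hF
    have l4 := hC.loc φ₄ (T.A i₄) hF hl
    have s3 := hC.sm φ₃ (T.A i₃) s4
    have l3 := hC.loc φ₃ (T.A i₃) s4 l4
    have s2 := hC.sm φ₂ (T.A i₂) s3
    have l2 := hC.loc φ₂ (T.A i₂) s3 l3
    rw [hF1, e₄ _ _ _ hF hl, e₃ _ _ _ s4 l4, e₂ _ _ _ s3 l3, e₁ _ _ _ s2 l2, abs_mul,
      abs_of_nonneg (by positivity)]
    have := (((h φ₄ i₄ a₄).2 φ₃ i₃ a₃).2 φ₂ i₂ a₂).2 φ₁ i₁ a₁ s hs
    calc _ ≤ 1 * r₄ * r₃ * r₂ * r₁ * B := mul_le_mul_of_nonneg_left this (by positivity)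
      _ = _ := by ring

end EXP

variable {n : ℕ} {Λ : Type} [Fintype Λ] [DecidableEq Λ]

theorem exB (hC : CalcB n Λ) (hM : MargB n Λ) : ExB n Λ where
  sm := EXP.sm hM
  cont := EXP.cont hM
  sm_LZ := fun I _ hF => (hM.sm I hF.exp).log fun ξ => (EXP.Z_pos hM I hF.continuous ξ).ne'
  loc := EXP.loc hM
  loc_LZ := EXP.loc_LZ hM
  ind := EXP.ind hM
  ind_LZ := fun I F s s' h => by
    unfold LZ
    rw [hM.ind I _ s s' h]
  D_LZ := fun I θ A F hA hF => by
    have h := hC.log θ A (hM.sm I hF.exp) (EXP.Z_pos hM I hF.continuous)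
    rw [EXP.D_Z hC hM I θ hA hF] at h
    exact h
  D_Ex := EXP.D_Ex hC hM
  ibp := fun I θ A F f hA hF hf hθ => by
    have h := EXP.D_N hC hM I θ hA hF hf
    rw [hC.congr (θ' := fun _ => 0) A (hM.sm I (hf.mul hF.exp)) (hM.ind I _)
      (fun x hx => hθ x hx), hC.zero] at h
    funext ξ
    have h' := congrFun h ξ
    unfold Ex
    rw [← neg_div]
    congr 1
    linarith
  const := EXP.const hM
  add := EXP.add hM
  const_mul := EXP.const_mul hM
  sum := fun I F ι Z f hF hf => by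
    funext ξ
    unfold Ex
    simp only [sum_mul]
    rw [hM.sum I Z _ fun z hz => (hf z hz).fun_mul hF.rexp, sum_div]
  mono := EXP.mono hM
  abs_le := EXP.abs_le' hM
  sq_le := fun I F f ξ hF hf hξ => by
    set m := Ex I F f ξ with hm
    have h := EXP.mono hM I (f := fun s => 2 * m * f s + -(m * m)) (g := fun s => f s * f s) hF
      ((continuous_const.mul hf).add continuous_const) (hf.mul hf) hξ
      fun s _ => by nlinarith [sq_nonneg (f s - m)]
    rw [EXP.add hM I hF (continuous_const.fun_mul hf) continuous_const, EXP.const_mul hM,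
      EXP.const hM I _ hF] at h
    simp only [← hm] at h
    linarith
  cond := fun {I J F G f} hJ hF hG hf hi => by
    have hiF : Ind J (fun s => Real.exp (F s)) := fun a b h => by beta_reduce; rw [hi a b h]
    have h1 := EXP.step hM hJ hF.rexp (hf.fun_mul hG.rexp) hiF
    have h2 := EXP.step hM (h := fun s => Ex J G f s * Real.exp (F s)) hJ
      ((EXP.cont hM J hG hf).mul hF.rexp) hG.rexp
      (fun a b h => by beta_reduce; rw [hi a b h, EXP.ind hM J G f a b h])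
    have h3 : P I (fun s => f s * Real.exp (F s + G s)) =
        P I (fun s => Ex J G f s * Real.exp (F s + G s)) := by
      refine (congrArg (P I) ?_).trans (h1.trans ((congrArg (P I) ?_).trans
        (h2.symm.trans (congrArg (P I) ?_))))
      · funext s
        rw [Real.exp_add]
        ring
      · funext s
        have := (EXP.Z_pos hM J hG s).ne'
        unfold Ex
        field_simp
      · funext s
        rw [Real.exp_add]
        ring
    funext ξ
    unfold Ex at h3 ⊢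
    rw [h3]
  tile := fun {I ι} Z J F G hJ hF hG hi hii => by
    have h1 := EXP.tile hM Z J F G hJ hF hG hi hii (fun _ => 1) continuous_const
      fun _ _ _ _ _ => rfl
    simp only [one_mul] at h1
    refine ⟨?_, fun f hf hif => ?_⟩
    · funext ξ
      unfold LZ at h1 ⊢
      rw [h1]
    · funext ξ
      have h2 := EXP.tile hM Z J F G hJ hF hG hi hii f hf hif
      unfold Ex
      rw [h1, h2]
  bd_ex := EXP.bd_ex hC hM
  crude := EXP.crude hC

end

end Crest.Agent.R167
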