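import Mathlib

/-!
# Row 167, task H: combinatorics of edge configurations (last exit, finite energy)
-/

set_option autoImplicit false

open Finset

namespace Crest.Agent.R167.FKc

noncomputable section

variable {Λ Ed : Type} (u v : Ed → Λ)

def Ends (ε : Ed) (a b : Λ) : Prop := (u ε = a ∧ v ε = b) ∨ (u ε = b ∧ v ε = a)

def Adj (ω : Finset Ed) (a b : Λ) : Prop := ∃ ε ∈ ω, Ends u v ε a b

def Conn (ω : Finset Ed) : Λ → Λ → Prop := Relation.ReflTransGen (Adj u v ω)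

open Classical in
/-- the edges of `ω` with both ends outside `B` -/
def outE (B : Set Λ) (ω : Finset Ed) : Finset Ed := ω.filter (fun ε => u ε ∉ B ∧ v ε ∉ B)

open Classical in
/-- inner end -/
def wi (B : Set Λ) (ε : Ed) : Λ := if u ε ∈ B then u ε else v ε

open Classical in
/-- outer end -/
def wo (B : Set Λ) (ε : Ed) : Λ := if u ε ∈ B then v ε else u ε

open Classical in
def ind (p : Prop) : ℝ := if p then 1 else 0

theorem ind_nonneg (p : Prop) : 0 ≤ ind p := by unfold ind; split_ifs <;> norm_num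

theorem ind_le_one (p : Prop) : ind p ≤ 1 := by unfold ind; split_ifs <;> norm_num

theorem ind_mono {p q : Prop} (h : p → q) : ind p ≤ ind q := by
  unfold ind; split_ifs with h1 h2 <;> simp_all

theorem ind_pos {p : Prop} (h : p) : ind p = 1 := by unfold ind; rw [if_pos h]

theorem ind_neg {p : Prop} (h : ¬ p) : ind p = 0 := by unfold ind; rw [if_neg h]

theorem ind_and (p q : Prop) : ind (p ∧ q) = ind p * ind q := by
  by_cases hp : p <;> by_cases hq : q <;> simp [ind, hp, hq]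

variable {u v}

theorem Ends.symm {ε : Ed} {a b : Λ} (h : Ends u v ε a b) : Ends u v ε b a := Or.symm h

theorem ends_wi_wo (B : Set Λ) (ε : Ed) : Ends u v ε (wi u v B ε) (wo u v B ε) := by
  unfold Ends wi wo; split_ifs <;> simp

theorem wi_eq {B : Set Λ} {ε : Ed} {w w' : Λ} (h : Ends u v ε w w') (hw : w ∈ B) (hw' : w' ∉ B) :
    wi u v B ε = w ∧ wo u v B ε = w' := by
  unfold wi wo
  rcases h with ⟨rfl, rfl⟩ | ⟨rfl, rfl⟩
  · simp [hw]
  · simp [hw']

theorem Conn.mono {ω ω' : Finset Ed} (h : ω ⊆ ω') {a b : Λ} (hc : Conn u v ω a b) :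
    Conn u v ω' a b := by
  induction hc with
  | refl => exact Relation.ReflTransGen.refl
  | tail _ hbc ih =>
    obtain ⟨ε, hε, he⟩ := hbc
    exact Relation.ReflTransGen.tail ih ⟨ε, h hε, he⟩

theorem outE_subset (B : Set Λ) (ω : Finset Ed) : outE u v B ω ⊆ ω := by
  classical
  unfold outE; exact filter_subset _ _

theorem mem_outE {B : Set Λ} {ω : Finset Ed} {ε : Ed} :
    ε ∈ outE u v B ω ↔ ε ∈ ω ∧ u ε ∉ B ∧ v ε ∉ B := by
  unfold outE; simp

theorem outE_mono (B : Set Λ) {ω ω' : Finset Ed} (h : ω ⊆ ω') : outE u v B ω ⊆ outE u v B ω' := by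
  intro ε hε
  rw [mem_outE] at hε ⊢
  exact ⟨h hε.1, hε.2⟩

theorem last_exit (B : Set Λ) (ω : Finset Ed) {y : Λ} (hy : y ∉ B) {a : Λ}
    (h : Conn u v ω a y) : (a ∉ B ∧ Conn u v (outE u v B ω) a y) ∨
      ∃ ε ∈ ω, ∃ w w', Ends u v ε w w' ∧ w ∈ B ∧ w' ∉ B ∧ Conn u v ω a w ∧
        Conn u v (outE u v B ω) w' y := by
  induction h using Relation.ReflTransGen.head_induction_on with
  | refl => exact Or.inl ⟨hy, Relation.ReflTransGen.refl⟩
  | @head a c hac _ ih =>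
    rcases ih with ⟨hc, hcy⟩ | ⟨ε, hε, w, w', he, hw, hw', hcw, hwy⟩
    · obtain ⟨ε, hε, he⟩ := hac
      by_cases ha : a ∈ B
      · exact Or.inr ⟨ε, hε, a, c, he, ha, hc, Relation.ReflTransGen.refl, hcy⟩
      · refine Or.inl ⟨ha, Relation.ReflTransGen.head ⟨ε, ?_, he⟩ hcy⟩
        rw [mem_outE]
        rcases he with ⟨rfl, rfl⟩ | ⟨rfl, rfl⟩
        · exact ⟨hε, ha, hc⟩
        · exact ⟨hε, hc, ha⟩
    · exact Or.inr ⟨ε, hε, w, w', he, hw, hw', Relation.ReflTransGen.head hac hcw, hwy⟩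

variable [DecidableEq Ed]

theorem first_use (ω : Finset Ed) {ε : Ed} {w w' : Λ} (he : Ends u v ε w w') {x a : Λ}
    (h : Conn u v ω x a) : Conn u v (ω.erase ε) x a ∨ Conn u v (ω.erase ε) x w ∨
      Conn u v (ω.erase ε) x w' := by
  induction h with
  | refl => exact Or.inl Relation.ReflTransGen.refl
  | @tail b c _ hbc ih =>
    rcases ih with h1 | h1
    · obtain ⟨ε', hε', he'⟩ := hbc
      by_cases hh : ε' = ε
      · subst hh
        right
        rcases he with ⟨rfl, rfl⟩ | ⟨rfl, rfl⟩ <;> rcases he' with ⟨rfl, rfl⟩ | ⟨rfl, rfl⟩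
        · exact Or.inl h1
        · exact Or.inr h1
        · exact Or.inr h1
        · exact Or.inl h1
      · exact Or.inl (Relation.ReflTransGen.tail h1 ⟨ε', mem_erase.2 ⟨hh, hε'⟩, he'⟩)
    · exact Or.inr h1

theorem exit (B : Set Λ) {x y : Λ} (hx : x ∈ B) (hy : y ∉ B) (ω : Finset Ed) :
    Conn u v ω x y → ∃ ε ∈ ω, wi u v B ε ∈ B ∧ wo u v B ε ∉ B ∧
      Conn u v (ω.erase ε) x (wi u v B ε) ∧ Conn u v (outE u v B ω) (wo u v B ε) y := by
  induction ω using Finset.strongInduction with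
  | H ω ih =>
    intro h
    rcases last_exit B ω hy h with ⟨h1, -⟩ | ⟨ε, hε, w, w', he, hw, hw', hxw, hwy⟩
    · exact absurd hx h1
    obtain ⟨e1, e2⟩ := wi_eq he hw hw'
    have hgood : Conn u v (ω.erase ε) x w → ∃ ε ∈ ω, wi u v B ε ∈ B ∧ wo u v B ε ∉ B ∧
        Conn u v (ω.erase ε) x (wi u v B ε) ∧ Conn u v (outE u v B ω) (wo u v B ε) y :=
      fun h1 => ⟨ε, hε, e1 ▸ hw, e2 ▸ hw', e1 ▸ h1, e2 ▸ hwy⟩
    rcases first_use ω he hxw with h1 | h1 | h1
    · exact hgood h1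
    · exact hgood h1
    · have hsub : outE u v B ω ⊆ ω.erase ε := by
        intro ε' hε'
        rw [mem_outE] at hε'
        refine mem_erase.2 ⟨?_, hε'.1⟩
        rintro rfl
        rcases he with ⟨rfl, rfl⟩ | ⟨rfl, rfl⟩
        · exact hε'.2.1 hw
        · exact hε'.2.2 hw
      obtain ⟨ε', hε', a1, a2, a3, a4⟩ :=
        ih (ω.erase ε) (erase_ssubset hε) (Relation.ReflTransGen.trans h1 (hwy.mono hsub))
      exact ⟨ε', mem_of_mem_erase hε', a1, a2,
        a3.mono (erase_subset_erase _ (erase_subset _ _)), a4.mono (outE_mono B (erase_subset _ _))⟩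

theorem outE_insert {B : Set Λ} {ε : Ed} (h : u ε ∈ B ∨ v ε ∈ B) (ω : Finset Ed) :
    outE u v B (insert ε ω) = outE u v B ω := by
  ext ε'
  simp only [mem_outE, mem_insert]
  constructor
  · rintro ⟨rfl | h1, h2⟩
    · tauto
    · exact ⟨h1, h2⟩
  · rintro ⟨h1, h2⟩; exact ⟨Or.inr h1, h2⟩

/-! ### weights -/

/-- weight of a configuration on the edge set `T` -/
def WS (a0 a1 : Ed → ℝ) (T ω : Finset Ed) : ℝ := ∏ ε ∈ T, if ε ∈ ω then a1 ε else a0 ε

/-- weighted sum over the configurations on `T` -/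
def SM (a0 a1 : Ed → ℝ) (T : Finset Ed) (F : Finset Ed → ℝ) : ℝ :=
  ∑ ω ∈ T.powerset, F ω * WS a0 a1 T ω

variable {a0 a1 : Ed → ℝ}

theorem WS_nonneg (h0 : ∀ ε, 0 ≤ a0 ε) (h1 : ∀ ε, 0 ≤ a1 ε) (T ω : Finset Ed) :
    0 ≤ WS a0 a1 T ω :=
  prod_nonneg fun ε _ => by split_ifs; exacts [h1 ε, h0 ε]

theorem SM_mono (h0 : ∀ ε, 0 ≤ a0 ε) (h1 : ∀ ε, 0 ≤ a1 ε) (T : Finset Ed) {F F' : Finset Ed → ℝ}
    (h : ∀ ω, F ω ≤ F' ω) : SM a0 a1 T F ≤ SM a0 a1 T F' :=
  sum_le_sum fun ω _ => mul_le_mul_of_nonneg_right (h ω) (WS_nonneg h0 h1 T ω)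

theorem SM_nonneg (h0 : ∀ ε, 0 ≤ a0 ε) (h1 : ∀ ε, 0 ≤ a1 ε) (T : Finset Ed) {F : Finset Ed → ℝ}
    (h : ∀ ω, 0 ≤ F ω) : 0 ≤ SM a0 a1 T F :=
  sum_nonneg fun ω _ => mul_nonneg (h ω) (WS_nonneg h0 h1 T ω)

theorem SM_insert {T : Finset Ed} {ε : Ed} (hε : ε ∉ T) (F : Finset Ed → ℝ) :
    SM a0 a1 (insert ε T) F =
      ∑ ω ∈ T.powerset, (F ω * a0 ε + F (insert ε ω) * a1 ε) * WS a0 a1 T ω := by
  unfold SM
  rw [sum_powerset_insert hε, ← sum_add_distrib]
  refine sum_congr rfl fun ω hω => ?_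
  have hn : ε ∉ ω := fun h => hε (mem_powerset.1 hω h)
  have e1 : WS a0 a1 (insert ε T) ω = a0 ε * WS a0 a1 T ω := by
    unfold WS; rw [prod_insert hε, if_neg hn]
  have e2 : WS a0 a1 (insert ε T) (insert ε ω) = a1 ε * WS a0 a1 T ω := by
    unfold WS; rw [prod_insert hε, if_pos (mem_insert_self _ _)]
    congr 1
    refine prod_congr rfl fun ε' hε' => ?_
    have : ε' ≠ ε := fun h => hε (h ▸ hε')
    simp [this]
  rw [e1, e2]; ring

theorem SM_union (S T : Finset Ed) (hST : Disjoint S T) (F : Finset Ed → ℝ)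
    (hF : ∀ ε ∈ S, ∀ ω, F (insert ε ω) = F ω) :
    SM a0 a1 (S ∪ T) F = (∏ ε ∈ S, (a0 ε + a1 ε)) * SM a0 a1 T F := by
  induction S using Finset.induction_on with
  | empty => simp
  | @insert ε S hε ih =>
    have hT : ε ∉ T := disjoint_left.1 hST (mem_insert_self _ _)
    have hn : ε ∉ S ∪ T := by simp [hε, hT]
    rw [insert_union, SM_insert hn, prod_insert hε, mul_assoc,
      ← ih (hST.mono_left (subset_insert _ _)) fun ε' h => hF ε' (mem_insert_of_mem h)]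
    unfold SM
    rw [mul_sum]
    refine sum_congr rfl fun ω _ => ?_
    rw [hF ε (mem_insert_self _ _)]; ring

theorem SM_one (S : Finset Ed) : SM a0 a1 S (fun _ => 1) = ∏ ε ∈ S, (a0 ε + a1 ε) := by
  have := SM_union (a0 := a0) (a1 := a1) S ∅ (disjoint_empty_right _) (fun _ => 1)
    (fun _ _ _ => rfl)
  rw [union_empty] at this
  rw [this]; simp [SM, WS]

theorem SM_sum {ι : Type} (Z : Finset ι) (T : Finset Ed) (F : ι → Finset Ed → ℝ) :
    SM a0 a1 T (fun ω => ∑ z ∈ Z, F z ω) = ∑ z ∈ Z, SM a0 a1 T (F z) := by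
  unfold SM
  rw [sum_comm]
  exact sum_congr rfl fun ω _ => sum_mul _ _ _

variable [Fintype Ed]

theorem finite_energy (h0 : ∀ ε, 0 ≤ a0 ε) (h1 : ∀ ε, 0 ≤ a1 ε) (ε : Ed) {c : ℝ} (hc : 0 ≤ c)
    (hε : a1 ε ≤ c * (a0 ε + a1 ε)) (x w : Λ) (A : Finset Ed → Prop)
    (hA : ∀ ω, A (insert ε ω) ↔ A ω) :
    SM a0 a1 univ (fun ω => ind (ε ∈ ω ∧ Conn u v (ω.erase ε) x w ∧ A ω)) ≤
      c * SM a0 a1 univ (fun ω => ind (Conn u v ω x w ∧ A ω)) := by
  have hu : (univ : Finset Ed) = insert ε (univ.erase ε) := (insert_erase (mem_univ ε)).symm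
  rw [hu, SM_insert (notMem_erase ε _), SM_insert (notMem_erase ε _), mul_sum]
  refine sum_le_sum fun ω hω => ?_
  have hn : ε ∉ ω := fun h => notMem_erase ε _ (mem_powerset.1 hω h)
  rw [← mul_assoc]
  refine mul_le_mul_of_nonneg_right ?_ (WS_nonneg h0 h1 _ _)
  rw [ind_neg (p := ε ∈ ω ∧ _) (fun h => hn h.1), erase_insert hn]
  by_cases hh : Conn u v ω x w ∧ A ω
  · rw [ind_pos hh, ind_pos (p := Conn u v (insert ε ω) x w ∧ _)
      ⟨hh.1.mono (subset_insert _ _), (hA ω).2 hh.2⟩]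
    have := ind_le_one (ε ∈ insert ε ω ∧ Conn u v ω x w ∧ A (insert ε ω))
    have := h1 ε
    nlinarith
  · rw [ind_neg (p := ε ∈ insert ε ω ∧ _) (fun h => hh ⟨h.2.1, (hA ω).1 h.2.2⟩)]
    have := ind_nonneg (Conn u v ω x w ∧ A ω)
    have := ind_nonneg (Conn u v (insert ε ω) x w ∧ A (insert ε ω))
    have := h0 ε
    have := h1 ε
    simp only [zero_mul, add_zero]
    positivity

open Classical in
/-- the boundary edges of `B` -/
def bdry (u v : Ed → Λ) (B : Set Λ) : Finset Ed :=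
  univ.filter (fun ε => wi u v B ε ∈ B ∧ wo u v B ε ∉ B)

omit [DecidableEq Ed] in
theorem mem_bdry {B : Set Λ} {ε : Ed} : ε ∈ bdry u v B ↔ wi u v B ε ∈ B ∧ wo u v B ε ∉ B := by
  unfold bdry; simp

/-- the pointwise Simon-Lieb inequality -/
theorem simon_pt (h0 : ∀ ε, 0 ≤ a0 ε) (h1 : ∀ ε, 0 ≤ a1 ε) (c : Ed → ℝ) (hc : ∀ ε, 0 ≤ c ε)
    (hε : ∀ ε, a1 ε ≤ c ε * (a0 ε + a1 ε)) (B : Set Λ) {x y : Λ} (hx : x ∈ B) (hy : y ∉ B) :
    SM a0 a1 univ (fun ω => ind (Conn u v ω x y)) ≤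
      ∑ ε ∈ bdry u v B, c ε * SM a0 a1 univ (fun ω =>
        ind (Conn u v ω x (wi u v B ε) ∧ Conn u v (outE u v B ω) (wo u v B ε) y)) := by
  calc SM a0 a1 univ (fun ω => ind (Conn u v ω x y))
      ≤ SM a0 a1 univ (fun ω => ∑ ε ∈ bdry u v B, ind (ε ∈ ω ∧ Conn u v (ω.erase ε) x (wi u v B ε) ∧
          Conn u v (outE u v B ω) (wo u v B ε) y)) := by
        refine SM_mono h0 h1 _ fun ω => ?_
        by_cases h : Conn u v ω x y
        · obtain ⟨ε, hε, b1, b2, b3, b4⟩ := exit B hx hy ω h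
          rw [ind_pos h]
          refine le_trans (le_of_eq (ind_pos ⟨hε, b3, b4⟩).symm)
            (single_le_sum (f := fun ε => ind (ε ∈ ω ∧ Conn u v (ω.erase ε) x (wi u v B ε) ∧
              Conn u v (outE u v B ω) (wo u v B ε) y)) (fun _ _ => ind_nonneg _)
              (mem_bdry.2 ⟨b1, b2⟩))
        · rw [ind_neg h]; exact sum_nonneg fun _ _ => ind_nonneg _
    _ ≤ _ := by
        rw [SM_sum]
        refine sum_le_sum fun ε hε' => finite_energy h0 h1 ε (hc ε) (hε ε) _ _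
          (fun ω => Conn u v (outE u v B ω) (wo u v B ε) y) fun ω => ?_
        rw [outE_insert]
        have hb := (mem_bdry.1 hε').1
        rcases ends_wi_wo (u := u) (v := v) B ε with ⟨e1, -⟩ | ⟨-, e1⟩
        · exact Or.inl (e1 ▸ hb)
        · exact Or.inr (e1 ▸ hb)

end

end Crest.Agent.R167.FKc
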