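import Crest.Agent.R167.Defs
import Crest.Agent.R167.FKComb

/-!
# Row 167, task H: Wolff clusters and the Simon-Lieb inequality
-/

set_option autoImplicit false
set_option linter.unusedSectionVars false

open Finset Function MeasureTheory
open scoped RealInnerProductSpace

namespace Crest.Agent.R167

namespace FKa

open FKc

noncomputable section

variable {n : ℕ} {β : ℝ} {Λ : Type} (G : Env β Λ) (e : E n)

def ev (ε : Λ × Fin 2) : Λ := G.tgt ε.1 ε.2

def pp (x : Λ) (s : Λ → E n) : ℝ := ⟪e, s x⟫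

def wt (ε : Λ × Fin 2) (s : Λ → E n) : ℝ := Real.exp (G.J ε.1 ε.2 * ⟪s ε.1, s (ev G ε)⟫)

def w0 (ε : Λ × Fin 2) (s : Λ → E n) : ℝ :=
  Real.exp (G.J ε.1 ε.2 * (⟪s ε.1, s (ev G ε)⟫ - pp e ε.1 s * pp e (ev G ε) s -
    |pp e ε.1 s| * |pp e (ev G ε) s|))

def w1 (ε : Λ × Fin 2) (s : Λ → E n) : ℝ := wt G ε s - w0 G e ε s

theorem cont_pp (x : Λ) : Continuous (pp e x) := by unfold pp; fun_prop

theorem cont_wt (ε : Λ × Fin 2) : Continuous (wt (n := n) G ε) := by unfold wt; fun_prop

theorem cont_w0 (ε : Λ × Fin 2) : Continuous (w0 G e ε) := by unfold w0 pp; fun_prop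

theorem cont_w1 (ε : Λ × Fin 2) : Continuous (w1 G e ε) := (cont_wt G ε).sub (cont_w0 G e ε)

theorem w0_nonneg (ε : Λ × Fin 2) (s : Λ → E n) : 0 ≤ w0 G e ε s := (Real.exp_pos _).le

theorem w0_eq (ε : Λ × Fin 2) (s : Λ → E n) : w0 G e ε s = wt G ε s *
    Real.exp (-(G.J ε.1 ε.2 * (pp e ε.1 s * pp e (ev G ε) s +
      |pp e ε.1 s| * |pp e (ev G ε) s|))) := by
  unfold w0 wt; rw [← Real.exp_add]; congr 1; ring

theorem w1_nonneg (ε : Λ × Fin 2) (s : Λ → E n) : 0 ≤ w1 G e ε s := by
  unfold w1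
  rw [w0_eq, sub_nonneg]
  refine mul_le_of_le_one_right (Real.exp_pos _).le (Real.exp_le_one_iff.2 ?_)
  have h1 := neg_abs_le (pp e ε.1 s * pp e (ev G ε) s)
  rw [abs_mul] at h1
  have h2 := G.J_nonneg ε.1 ε.2
  have : 0 ≤ G.J ε.1 ε.2 * (pp e ε.1 s * pp e (ev G ε) s + |pp e ε.1 s| * |pp e (ev G ε) s|) :=
    mul_nonneg h2 (by linarith)
  linarith

theorem w0_add_w1 (ε : Λ × Fin 2) (s : Λ → E n) : w0 G e ε s + w1 G e ε s = wt G ε s := by
  unfold w1; ring

theorem w1_le (ε : Λ × Fin 2) (s : Λ → E n) : w1 G e ε s ≤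
    (2 * β * (|pp e ε.1 s| * |pp e (ev G ε) s|)) * (w0 G e ε s + w1 G e ε s) := by
  rw [w0_add_w1]
  unfold w1
  rw [w0_eq]
  have h1 := le_abs_self (pp e ε.1 s * pp e (ev G ε) s)
  have h1' := neg_abs_le (pp e ε.1 s * pp e (ev G ε) s)
  rw [abs_mul] at h1 h1'
  have h2 := G.J_nonneg ε.1 ε.2
  have h3 := G.J_le ε.1 ε.2
  set a := pp e ε.1 s * pp e (ev G ε) s
  set b := |pp e ε.1 s| * |pp e (ev G ε) s|
  have hb : 0 ≤ b := by positivity
  have h4 := Real.add_one_le_exp (-(G.J ε.1 ε.2 * (a + b)))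
  have h5 : G.J ε.1 ε.2 * (a + b) ≤ β * (2 * b) :=
    mul_le_mul h3 (by linarith) (by linarith) (h2.trans h3)
  have h6 : 0 < wt G ε s := Real.exp_pos _
  nlinarith

theorem w1_sign (ε : Λ × Fin 2) (s : Λ → E n) (h : w1 G e ε s ≠ 0) :
    0 < pp e ε.1 s * pp e (ev G ε) s := by
  by_contra hc
  apply h
  unfold w1
  rw [w0_eq, ← abs_mul, abs_of_nonpos (not_lt.1 hc)]
  simp

/-! ### reflections -/

/-- reflection in `e^⊥` -/
def refl (e : E n) : E n ≃ₗᵢ[ℝ] E n := (ℝ ∙ e)ᗮ.reflection

theorem refl_apply (he : ‖e‖ = 1) (a : E n) : refl e a = a - (2 * ⟪e, a⟫) • e := by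
  unfold refl
  rw [Submodule.reflection_orthogonal_apply, Submodule.reflection_singleton_apply, he]
  simp [two_smul, two_mul, add_smul]

theorem inner_e_refl (he : ‖e‖ = 1) (a : E n) : ⟪e, refl e a⟫ = -⟪e, a⟫ := by
  rw [refl_apply e he, inner_sub_right, inner_smul_right, real_inner_self_eq_norm_sq, he]; ring

theorem inner_refl_left (he : ‖e‖ = 1) (a b : E n) :
    ⟪refl e a, b⟫ = ⟪a, b⟫ - 2 * (⟪e, a⟫ * ⟪e, b⟫) := by
  rw [refl_apply e he, inner_sub_left, real_inner_smul_left]; ring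

theorem inner_refl_right (he : ‖e‖ = 1) (a b : E n) :
    ⟪a, refl e b⟫ = ⟪a, b⟫ - 2 * (⟪e, a⟫ * ⟪e, b⟫) := by
  rw [real_inner_comm, inner_refl_left e he, real_inner_comm]; ring

variable [DecidableEq Λ]

/-- reflect the spins in `C` -/
def flip (C : Finset Λ) (s : Λ → E n) : Λ → E n := fun x => if x ∈ C then refl e (s x) else s x

theorem pp_flip (he : ‖e‖ = 1) (C : Finset Λ) (x : Λ) (s : Λ → E n) :
    pp e x (flip e C s) = if x ∈ C then -pp e x s else pp e x s := by
  unfold pp flip; split_ifs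
  · exact inner_e_refl e he _
  · rfl

theorem abs_pp_flip (he : ‖e‖ = 1) (C : Finset Λ) (x : Λ) (s : Λ → E n) :
    |pp e x (flip e C s)| = |pp e x s| := by
  rw [pp_flip e he]; split_ifs
  · exact abs_neg _
  · rfl

theorem w0_flip (he : ‖e‖ = 1) (C : Finset Λ) (ε : Λ × Fin 2) (s : Λ → E n) :
    w0 G e ε (flip e C s) = w0 G e ε s := by
  unfold w0
  rw [abs_pp_flip e he, abs_pp_flip e he, pp_flip e he, pp_flip e he]
  congr 3
  unfold flip pp
  split_ifs
  · rw [LinearIsometryEquiv.inner_map_map]; ring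
  · rw [inner_refl_left e he]; ring
  · rw [inner_refl_right e he]; ring
  · rfl

theorem w1_flip (he : ‖e‖ = 1) (C : Finset Λ) (ε : Λ × Fin 2) (s : Λ → E n)
    (h : ε.1 ∈ C ↔ ev G ε ∈ C) : w1 G e ε (flip e C s) = w1 G e ε s := by
  unfold w1
  rw [w0_flip G e he]
  congr 1
  unfold wt flip
  by_cases h1 : ε.1 ∈ C
  · rw [if_pos h1, if_pos (h.1 h1), LinearIsometryEquiv.inner_map_map]
  · rw [if_neg h1, if_neg (fun h2 => h1 (h.2 h2))]

/-! ### configuration weights -/

def Wt (T ω : Finset (Λ × Fin 2)) (s : Λ → E n) : ℝ :=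
  WS (fun ε => w0 G e ε s) (fun ε => w1 G e ε s) T ω

def St (T : Finset (Λ × Fin 2)) (F : Finset (Λ × Fin 2) → ℝ) (s : Λ → E n) : ℝ :=
  SM (fun ε => w0 G e ε s) (fun ε => w1 G e ε s) T F

theorem St_eq (T : Finset (Λ × Fin 2)) (F : Finset (Λ × Fin 2) → ℝ) (s : Λ → E n) :
    St G e T F s = ∑ ω ∈ T.powerset, F ω * Wt G e T ω s := rfl

theorem cont_Wt (T ω : Finset (Λ × Fin 2)) : Continuous (Wt G e T ω) := by
  unfold Wt WS
  refine continuous_finsetProd _ fun ε _ => ?_
  split_ifs
  · exact cont_w1 G e ε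
  · exact cont_w0 G e ε

theorem cont_St (T : Finset (Λ × Fin 2)) (F : Finset (Λ × Fin 2) → ℝ) :
    Continuous (St G e T F) :=
  continuous_finsetSum _ fun ω _ => continuous_const.mul (cont_Wt G e T ω)

theorem St_nonneg (T : Finset (Λ × Fin 2)) {F : Finset (Λ × Fin 2) → ℝ} (hF : ∀ ω, 0 ≤ F ω)
    (s : Λ → E n) : 0 ≤ St G e T F s :=
  SM_nonneg (fun ε => w0_nonneg G e ε s) (fun ε => w1_nonneg G e ε s) T hF

theorem St_mono (T : Finset (Λ × Fin 2)) {F F' : Finset (Λ × Fin 2) → ℝ} (hF : ∀ ω, F ω ≤ F' ω)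
    (s : Λ → E n) : St G e T F s ≤ St G e T F' s :=
  SM_mono (fun ε => w0_nonneg G e ε s) (fun ε => w1_nonneg G e ε s) T hF

theorem loc_St (T : Finset (Λ × Fin 2)) (F : Finset (Λ × Fin 2) → ℝ) (S : Set Λ)
    (hT : ∀ ε ∈ T, ε.1 ∈ S ∧ ev G ε ∈ S) : Loc S (St G e T F) := by
  intro s s' h
  unfold St SM WS
  refine sum_congr rfl fun ω _ => ?_
  congr 1
  refine prod_congr rfl fun ε hε => ?_
  have e1 := h _ (hT ε hε).1
  have e2 := h _ (hT ε hε).2
  simp only [w1, w0, wt, pp, e1, e2]

theorem sign_conn (ω : Finset (Λ × Fin 2)) (s : Λ → E n)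
    (h : ∀ ε ∈ ω, 0 < pp e ε.1 s * pp e (ev G ε) s) {x w : Λ}
    (hc : Conn Prod.fst (ev G) ω x w) : 0 ≤ pp e x s * pp e w s := by
  induction hc with
  | refl => exact mul_self_nonneg _
  | @tail b c _ hbc ih =>
    obtain ⟨ε, hε, he⟩ := hbc
    have h1 : 0 < pp e b s * pp e c s := by
      have := h ε hε
      rcases he with ⟨rfl, rfl⟩ | ⟨rfl, rfl⟩
      · exact this
      · rwa [mul_comm]
    by_contra hn
    have hb : pp e b s ≠ 0 := fun h0 => by simp [h0] at h1
    have h2 : 0 < pp e b s * pp e b s := mul_self_pos.2 hb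
    have h3 := mul_nonneg ih h1.le
    have h4 := mul_neg_of_neg_of_pos (not_le.1 hn) h2
    nlinarith

variable [Fintype Λ]

theorem prod_wt (S : Finset Λ) (s : Λ → E n) :
    ∏ ε ∈ S ×ˢ (univ : Finset (Fin 2)), (w0 G e ε s + w1 G e ε s) = Real.exp (H G S s) := by
  simp only [w0_add_w1]
  unfold H
  rw [prod_product, Real.exp_sum]
  refine prod_congr rfl fun x _ => ?_
  rw [Real.exp_sum]; rfl

theorem St_one (s : Λ → E n) : St G e univ (fun _ => 1) s = Real.exp (H G univ s) := by
  unfold St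
  rw [SM_one, ← prod_wt G e, univ_product_univ]

theorem cont_H (S : Finset Λ) : Continuous (H G S : (Λ → E n) → ℝ) := by
  unfold H; fun_prop

theorem abs_pp_le (he : ‖e‖ = 1) (x : Λ) {s : Λ → E n} (hs : OnS s) : |pp e x s| ≤ 1 := by
  have := abs_real_inner_le_norm e (s x)
  rwa [he, hs x, one_mul] at this

/-- the flip identity for one configuration -/
theorem flip_one (M : MargB n Λ) (he : ‖e‖ = 1) (ω : Finset (Λ × Fin 2)) (x w : Λ)
    {g : (Λ → E n) → ℝ} (hg : Continuous g) (hgf : ∀ C s, g (flip e C s) = g s) (ξ : Λ → E n) :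
    P univ (fun s => pp e x s * pp e w s * g s * Wt G e univ ω s) ξ =
      ind (Conn Prod.fst (ev G) ω x w) *
        P univ (fun s => |pp e x s| * |pp e w s| * g s * Wt G e univ ω s) ξ := by
  classical
  by_cases hc : Conn Prod.fst (ev G) ω x w
  · rw [ind_pos hc, one_mul]
    congr 1
    funext s
    by_cases h0 : Wt G e univ ω s = 0
    · simp [h0]
    · have h1 : ∀ ε ∈ ω, 0 < pp e ε.1 s * pp e (ev G ε) s := by
        intro ε hε
        apply w1_sign
        have := prod_ne_zero_iff.1 h0 ε (mem_univ ε)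
        simpa [hε] using this
      rw [← abs_mul, abs_of_nonneg (sign_conn G e ω s h1 hc)]
  · rw [ind_neg hc, zero_mul]
    set C : Finset Λ := univ.filter (fun a => Conn Prod.fst (ev G) ω x a) with hC
    have hmem : ∀ a, a ∈ C ↔ Conn Prod.fst (ev G) ω x a := fun a => by simp [hC]
    set f : (Λ → E n) → ℝ := fun s => pp e x s * pp e w s * g s * Wt G e univ ω s with hf
    have hfc : Continuous f :=
      (((cont_pp e x).mul (cont_pp e w)).mul hg).mul (cont_Wt G e univ ω)
    have h1 := M.iso (I := univ) (C := C) (refl e) (subset_univ _) hfc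
    have h2 : (fun s => f (fun x => if x ∈ C then refl e (s x) else s x)) =
        fun s => (-1) * f s := by
      funext s
      show f (flip e C s) = _
      have hW : Wt G e univ ω (flip e C s) = Wt G e univ ω s := by
        unfold Wt WS
        refine prod_congr rfl fun ε _ => ?_
        split_ifs with hε
        · refine w1_flip G e he C ε s ?_
          rw [hmem, hmem]
          exact ⟨fun h => Relation.ReflTransGen.tail h ⟨ε, hε, Or.inl ⟨rfl, rfl⟩⟩,
            fun h => Relation.ReflTransGen.tail h ⟨ε, hε, Or.inr ⟨rfl, rfl⟩⟩⟩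
        · exact w0_flip G e he C ε s
      simp only [hf]
      rw [hW, hgf, pp_flip e he, pp_flip e he, if_pos ((hmem x).2 Relation.ReflTransGen.refl),
        if_neg (fun h => hc ((hmem w).1 h))]
      ring
    rw [h2, M.const_mul] at h1
    have h3 := congrFun h1 ξ
    linarith

theorem P_St (M : MargB n Λ) {k : (Λ → E n) → ℝ} (hk : Continuous k)
    (F : Finset (Λ × Fin 2) → ℝ) (ξ : Λ → E n) :
    P univ (fun s => k s * St G e univ F s) ξ =
      ∑ ω ∈ (univ : Finset (Λ × Fin 2)).powerset,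
        F ω * P univ (fun s => k s * Wt G e univ ω s) ξ := by
  have h1 : (fun s => k s * St G e univ F s) = fun s =>
      ∑ ω ∈ (univ : Finset (Λ × Fin 2)).powerset, F ω * (k s * Wt G e univ ω s) := by
    funext s
    rw [St_eq, mul_sum]
    exact sum_congr rfl fun ω _ => by ring
  rw [h1, M.sum univ _ (fun ω s => F ω * (k s * Wt G e univ ω s))
    fun ω _ => continuous_const.mul (hk.mul (cont_Wt G e univ ω))]
  refine sum_congr rfl fun ω _ => ?_
  rw [M.const_mul]

/-- the flip identity -/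
theorem flip_sum (M : MargB n Λ) (he : ‖e‖ = 1) (F : Finset (Λ × Fin 2) → ℝ) (x w : Λ)
    {g : (Λ → E n) → ℝ} (hg : Continuous g) (hgf : ∀ C s, g (flip e C s) = g s) (ξ : Λ → E n) :
    P univ (fun s => pp e x s * pp e w s * g s * St G e univ F s) ξ =
      P univ (fun s => |pp e x s| * |pp e w s| * g s *
        St G e univ (fun ω => ind (Conn Prod.fst (ev G) ω x w) * F ω) s) ξ := by
  rw [P_St G e M (k := fun s => pp e x s * pp e w s * g s)
      (((cont_pp e x).mul (cont_pp e w)).mul hg),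
    P_St G e M (k := fun s => |pp e x s| * |pp e w s| * g s)
      (((cont_pp e x).abs.mul (cont_pp e w).abs).mul hg)]
  refine sum_congr rfl fun ω _ => ?_
  have := flip_one G e M he ω x w hg hgf ξ
  rw [this]; ring

/-- the connectivity function (not normalised) -/
def tau (y : Λ) (ξ : Λ → E n) (x : Λ) : ℝ :=
  P univ (fun s => |pp e x s| * St G e univ (fun ω => ind (Conn Prod.fst (ev G) ω x y)) s) ξ

theorem tau_le (M : MargB n Λ) (he : ‖e‖ = 1) (y : Λ) {ξ : Λ → E n} (hξ : OnS ξ) (x : Λ) :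
    tau G e y ξ x ≤ P univ (fun s => Real.exp (H G univ s)) ξ := by
  refine M.mono univ ((cont_pp e x).abs.mul (cont_St G e _ _)) (cont_H G univ).rexp hξ
    fun s hs => ?_
  rw [← St_one G e]
  refine (mul_le_of_le_one_left (St_nonneg G e _ (fun _ => ind_nonneg _) s)
    (abs_pp_le e he x hs)).trans (St_mono G e _ (fun _ => ind_le_one _) s)

theorem corr (M : MargB n Λ) (he : ‖e‖ = 1) (x y : Λ) {ξ : Λ → E n} (hξ : OnS ξ) :
    0 ≤ P univ (fun s => ⟪e, s x⟫ * ⟪e, s y⟫ * Real.exp (H G univ s)) ξ ∧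
    P univ (fun s => ⟪e, s x⟫ * ⟪e, s y⟫ * Real.exp (H G univ s)) ξ ≤ tau G e y ξ x := by
  have h1 : (fun s => ⟪e, s x⟫ * ⟪e, s y⟫ * Real.exp (H G univ s)) =
      fun s => pp e x s * pp e y s * (fun _ => (1 : ℝ)) s * St G e univ (fun _ => 1) s := by
    funext s; rw [St_one]; simp [pp]
  rw [h1, flip_sum G e M he _ x y continuous_const (fun _ _ => rfl)]
  have hc : Continuous fun s => |pp e x s| * |pp e y s| * (fun _ => (1 : ℝ)) s *
      St G e univ (fun ω => ind (Conn Prod.fst (ev G) ω x y) * 1) s :=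
    (((cont_pp e x).abs.mul (cont_pp e y).abs).mul continuous_const).mul (cont_St G e _ _)
  constructor
  · refine le_trans (le_of_eq (congrFun (M.const univ 0) ξ).symm)
      (M.mono univ continuous_const hc hξ fun s _ => ?_)
    have := St_nonneg G e univ (F := fun ω => ind (Conn Prod.fst (ev G) ω x y) * 1)
      (fun ω => by rw [mul_one]; exact ind_nonneg _) s
    positivity
  · refine M.mono univ hc ((cont_pp e x).abs.mul (cont_St G e _ _)) hξ fun s hs => ?_
    simp only [mul_one]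
    refine mul_le_mul_of_nonneg_right ?_ (St_nonneg G e _ (fun _ => ind_nonneg _) s)
    exact mul_le_of_le_one_right (abs_nonneg _) (abs_pp_le e he y hs)

/-- use of the smallness hypothesis -/
theorem inner_le (M : MargB n Λ) (he : ‖e‖ = 1) {r : ℕ} {η : ℝ} (hη : 0 ≤ η)
    (hS : Small G e r η) (x y w w' : Λ) {ξ : Λ → E n} (hξ : OnS ξ)
    (hw : w ∉ obox G (fun j => G.pos x j - r) (2 * r))
    (hw' : w' ∉ obox G (fun j => G.pos x j - r) (2 * r)) :
    P univ (fun s => pp e x s * pp e w s * |pp e w' s| * St G e univ (fun ω => ind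
      (Conn Prod.fst (ev G) (outE Prod.fst (ev G) (cbox G (fun j => G.pos x j - r) (2 * r)) ω)
        w' y)) s) ξ ≤ η * tau G e y ξ w' := by
  set c : Fin 2 → ℤ := fun j => G.pos x j - r with hc
  set O := obox G c (2 * r) with hO
  set Hb := hbox G c (2 * r) with hHb
  set F : Finset (Λ × Fin 2) → ℝ := fun ω => ind
    (Conn Prod.fst (ev G) (outE Prod.fst (ev G) (cbox G c (2 * r)) ω) w' y) with hF
  set T : Finset (Λ × Fin 2) := univ \ (Hb ×ˢ univ) with hT
  have hfac : ∀ s, St G e univ F s = Real.exp (H G Hb s) * St G e T F s := by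
    intro s
    have h1 : (univ : Finset (Λ × Fin 2)) = (Hb ×ˢ univ) ∪ T := by
      rw [hT, union_sdiff_of_subset (subset_univ _)]
    rw [← prod_wt G e]
    unfold St
    rw [← SM_union _ T disjoint_sdiff F, ← h1]
    intro ε hε ω
    simp only [hF]
    rw [outE_insert]
    left
    have h2 := (mem_product.1 hε).1
    simp only [hHb, hbox, mem_filter, mem_univ, true_and] at h2
    exact fun j => ⟨(h2 j).1, (h2 j).2.le⟩
  have hind : Ind O (St G e T F) := by
    refine loc_St G e T F _ fun ε hε => ?_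
    have h1 : ε.1 ∉ Hb := by
      intro h
      exact (mem_sdiff.1 hε).2 (mem_product.2 ⟨h, mem_univ _⟩)
    simp only [hHb, hbox, mem_filter, mem_univ, true_and] at h1
    simp only [Set.mem_compl_iff, mem_coe, hO, obox, mem_filter, mem_univ, true_and]
    refine ⟨fun h => h1 fun j => ⟨(h j).1.le, (h j).2⟩, fun h => h1 fun j => ?_⟩
    have a1 := G.le_tgt ε.1 ε.2 j
    have a2 := G.tgt_le ε.1 ε.2 j
    have a3 := h j
    unfold ev at a3
    constructor <;> omega
  have hpw : ∀ {a : Λ}, a ∉ O → ∀ s s' : Λ → E n, (∀ z ∈ ((O : Set Λ)ᶜ), s z = s' z) →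
      pp e a s = pp e a s' := fun {a} ha s s' h => by
    unfold pp; rw [h a (by simpa using ha)]
  have hi1 : Ind O (fun s => pp e w s * |pp e w' s| * St G e T F s) := fun s s' h => by
    simp only [hpw hw s s' h, hpw hw' s s' h, hind s s' h]
  have hi2 : Ind O (fun s => |pp e w' s| * St G e T F s) := fun s s' h => by
    simp only [hpw hw' s s' h, hind s s' h]
  have hcH : Continuous fun s : Λ → E n => Real.exp (H G Hb s) := (cont_H G Hb).rexp
  have hc1 : Continuous fun s => pp e w s * |pp e w' s| * St G e T F s :=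
    ((cont_pp e w).mul (cont_pp e w').abs).mul (cont_St G e T F)
  have hc2 : Continuous fun s => |pp e w' s| * St G e T F s :=
    (cont_pp e w').abs.mul (cont_St G e T F)
  have hc3 : Continuous fun s => pp e x s * Real.exp (H G Hb s) := (cont_pp e x).mul hcH
  have hF0 : ∀ ω, 0 ≤ F ω := fun _ => ind_nonneg _
  calc P univ (fun s => pp e x s * pp e w s * |pp e w' s| * St G e univ F s) ξ
      = P univ (fun s => (pp e x s * Real.exp (H G Hb s)) *
          (pp e w s * |pp e w' s| * St G e T F s)) ξ := by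
        congr 1; funext s; rw [hfac]; ring
    _ = P univ (fun s => P O (fun s => pp e x s * Real.exp (H G Hb s)) s *
          (pp e w s * |pp e w' s| * St G e T F s)) ξ := by
        rw [← M.pull O _ hi1, M.tower (f := fun s => (pp e x s * Real.exp (H G Hb s)) *
          (pp e w s * |pp e w' s| * St G e T F s)) (subset_univ O) (hc3.mul hc1)]
    _ ≤ P univ (fun s => η * (P O (fun s => Real.exp (H G Hb s)) s *
          (|pp e w' s| * St G e T F s))) ξ := by
        refine M.mono univ ((M.cont O hc3).mul hc1)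
          (continuous_const.mul ((M.cont O hcH).mul hc2)) hξ fun s hs => ?_
        have hZ : 0 < P O (fun s => Real.exp (H G Hb s)) s := M.pos O s hcH fun _ => Real.exp_pos _
        have hU : P O (fun s => pp e x s * Real.exp (H G Hb s)) s =
            U G e x r s * P O (fun s => Real.exp (H G Hb s)) s := by
          unfold U Ex
          rw [div_mul_cancel₀ _ hZ.ne']
          rfl
        have h1 := hS x s hs
        have h2 := abs_pp_le e he w hs
        have h3 : 0 ≤ |pp e w' s| * St G e T F s :=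
          mul_nonneg (abs_nonneg _) (St_nonneg G e T hF0 s)
        have h4 : U G e x r s * pp e w s ≤ η := by
          refine (le_abs_self _).trans ?_
          rw [abs_mul]
          exact (mul_le_mul h1 h2 (abs_nonneg _) hη).trans (le_of_eq (mul_one _))
        rw [hU]
        calc _ = (U G e x r s * pp e w s) * (P O (fun s => Real.exp (H G Hb s)) s *
              (|pp e w' s| * St G e T F s)) := by ring
          _ ≤ _ := mul_le_mul_of_nonneg_right h4 (mul_nonneg hZ.le h3)
    _ = η * P univ (fun s => Real.exp (H G Hb s) * (|pp e w' s| * St G e T F s)) ξ := by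
        rw [M.const_mul, ← M.pull O _ hi2, M.tower
          (f := fun s => Real.exp (H G Hb s) * (|pp e w' s| * St G e T F s)) (subset_univ O)
          (hcH.mul hc2)]
    _ ≤ η * tau G e y ξ w' := by
        refine mul_le_mul_of_nonneg_left ?_ hη
        refine M.mono univ (hcH.mul hc2) ((cont_pp e w').abs.mul (cont_St G e _ _)) hξ
          fun s _ => ?_
        rw [mul_left_comm, ← hfac]
        refine mul_le_mul_of_nonneg_left (St_mono G e _ (fun ω => ind_mono fun h => ?_) s)
          (abs_nonneg _)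
        exact h.mono (outE_subset _ _)

omit [DecidableEq Λ] [Fintype Λ] in
theorem ends_near {ε : Λ × Fin 2} {a b : Λ} (h : Ends Prod.fst (ev G) ε a b) (j : Fin 2) :
    G.pos a j ≤ G.pos b j + 1 ∧ G.pos b j ≤ G.pos a j + 1 := by
  have a1 := G.le_tgt ε.1 ε.2 j
  have a2 := G.tgt_le ε.1 ε.2 j
  rcases h with ⟨rfl, rfl⟩ | ⟨rfl, rfl⟩ <;> unfold ev <;> constructor <;> omega

/-- the Simon-Lieb inequality -/
theorem simon (M : MargB n Λ) (he : ‖e‖ = 1) (hβ : 0 ≤ β) {r : ℕ} {η : ℝ} (hη : 0 ≤ η)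
    (hS : Small G e r η) (x y : Λ) {ξ : Λ → E n} (hξ : OnS ξ)
    (hy : y ∉ cbox G (fun j => G.pos x j - r) (2 * r)) :
    tau G e y ξ x ≤ ∑ ε ∈ bdry Prod.fst (ev G) (cbox G (fun j => G.pos x j - r) (2 * r)),
      2 * β * (η * tau G e y ξ (wo Prod.fst (ev G) (cbox G (fun j => G.pos x j - r) (2 * r)) ε)) := by
  set B := cbox G (fun j => G.pos x j - r) (2 * r) with hB
  have hx : x ∈ B := fun j => by push_cast; constructor <;> omega
  set f : Λ × Fin 2 → (Λ → E n) → ℝ := fun ε s =>
    |pp e x s| * |pp e (wi Prod.fst (ev G) B ε) s| * |pp e (wo Prod.fst (ev G) B ε) s| *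
      St G e univ (fun ω => ind (Conn Prod.fst (ev G) ω x (wi Prod.fst (ev G) B ε)) *
        ind (Conn Prod.fst (ev G) (outE Prod.fst (ev G) B ω) (wo Prod.fst (ev G) B ε) y)) s with hf
  have hfc : ∀ ε, Continuous (f ε) := fun ε =>
    (((cont_pp e x).abs.mul (cont_pp e _).abs).mul (cont_pp e _).abs).mul (cont_St G e _ _)
  calc tau G e y ξ x
      ≤ P univ (fun s => ∑ ε ∈ bdry Prod.fst (ev G) B, 2 * β * f ε s) ξ := by
        refine M.mono univ ((cont_pp e x).abs.mul (cont_St G e _ _))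
          (continuous_finsetSum _ fun ε _ => continuous_const.mul (hfc ε)) hξ fun s _ => ?_
        have h1 := simon_pt (u := Prod.fst) (v := ev G) (fun ε => w0_nonneg G e ε s)
          (fun ε => w1_nonneg G e ε s) (fun ε => 2 * β * (|pp e ε.1 s| * |pp e (ev G ε) s|))
          (fun ε => by positivity) (fun ε => w1_le G e ε s) B hx hy
        refine (mul_le_mul_of_nonneg_left h1 (abs_nonneg _)).trans (le_of_eq ?_)
        rw [mul_sum]
        refine sum_congr rfl fun ε _ => ?_
        have h2 : |pp e ε.1 s| * |pp e (ev G ε) s| =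
            |pp e (wi Prod.fst (ev G) B ε) s| * |pp e (wo Prod.fst (ev G) B ε) s| := by
          rcases ends_wi_wo (u := Prod.fst) (v := ev G) B ε with ⟨e1, e2⟩ | ⟨e1, e2⟩
          · rw [← e1, ← e2]
          · rw [← e1, ← e2, mul_comm]
        simp only [hf, ind_and, St]
        rw [h2]; ring
    _ = ∑ ε ∈ bdry Prod.fst (ev G) B, 2 * β * P univ (f ε) ξ := by
        rw [M.sum univ _ (fun ε s => 2 * β * f ε s) fun ε _ => continuous_const.mul (hfc ε)]
        refine sum_congr rfl fun ε _ => ?_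
        rw [M.const_mul]
    _ ≤ _ := by
        refine sum_le_sum fun ε hε => mul_le_mul_of_nonneg_left ?_ (by positivity)
        obtain ⟨b1, b2⟩ := mem_bdry.1 hε
        have hn := ends_near G (ends_wi_wo (u := Prod.fst) (v := ev G) B ε)
        simp only [hf]
        rw [← flip_sum G e M he _ x _ (cont_pp e _).abs (fun C s => abs_pp_flip e he C _ s)]
        refine inner_le G e M he hη hS x y _ _ hξ ?_ ?_
        · intro h
          simp only [obox, mem_filter, mem_univ, true_and] at h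
          refine b2 fun j => ?_
          have := h j; have := hn j
          beta_reduce
          constructor <;> omega
        · intro h
          simp only [obox, mem_filter, mem_univ, true_and] at h
          exact b2 fun j => ⟨(h j).1.le, (h j).2.le⟩

theorem card_hbox (c : Fin 2 → ℤ) (l : ℕ) : (hbox G c l).card ≤ l ^ 2 := by
  have h1 : (hbox G c l).card ≤ (Fintype.piFinset fun j => Finset.Ico (c j) (c j + l)).card := by
    refine card_le_card_of_injOn G.pos (fun x hx => ?_) G.inj.injOn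
    simp only [hbox, coe_filter, mem_univ, true_and, Set.mem_ofPred_eq] at hx
    simp only [mem_coe, Fintype.mem_piFinset, mem_Ico]
    exact hx
  rw [Fintype.card_piFinset] at h1
  simpa using h1

theorem card_bdry (x : Λ) {r : ℕ} (hr : 0 < r) :
    ((bdry Prod.fst (ev G) (cbox G (fun j => G.pos x j - r) (2 * r))).card : ℝ) ≤
      50 * (r : ℝ) ^ 2 := by
  set B := cbox G (fun j => G.pos x j - r) (2 * r) with hB
  have h1 : bdry Prod.fst (ev G) B ⊆
      hbox G (fun j => G.pos x j - (r + 1)) (2 * r + 3) ×ˢ (univ : Finset (Fin 2)) := by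
    intro ε hε
    obtain ⟨b1, -⟩ := mem_bdry.1 hε
    have he := ends_wi_wo (u := Prod.fst) (v := ev G) B ε
    have hn := ends_near G he
    refine mem_product.2 ⟨?_, mem_univ _⟩
    simp only [hbox, mem_filter, mem_univ, true_and]
    intro j
    have a1 := b1 j
    have a2 := hn j
    push_cast at a1 ⊢
    rcases he with ⟨e1, -⟩ | ⟨e1, -⟩ <;> rw [e1] <;> constructor <;> omega
  have h2 := (card_le_card h1).trans (le_of_eq (card_product _ _))
  have h3 := card_hbox G (fun j => G.pos x j - (r + 1)) (2 * r + 3)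
  rw [card_univ, Fintype.card_fin] at h2
  have h4 : (bdry Prod.fst (ev G) B).card ≤ 50 * r ^ 2 := by nlinarith
  exact_mod_cast h4

theorem tau_decay (M : MargB n Λ) (he : ‖e‖ = 1) (hβ : 0 ≤ β) {r : ℕ} {η : ℝ} (hr : 0 < r)
    (hη : 0 ≤ η) (hsm : 200 * β * ((r : ℝ) ^ 2 * η) ≤ 1) (hS : Small G e r η) (y : Λ)
    {ξ : Λ → E n} (hξ : OnS ξ) (j : Fin 2) (k : ℕ) : ∀ x : Λ,
    (k * (r + 1) : ℤ) ≤ |G.pos x j - G.pos y j| →
      tau G e y ξ x ≤ (1 / 2) ^ k * P univ (fun s => Real.exp (H G univ s)) ξ := by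
  have hZ : 0 < P univ (fun s => Real.exp (H G univ s)) ξ :=
    M.pos univ ξ (cont_H G univ).rexp fun _ => Real.exp_pos _
  induction k with
  | zero => intro x _; simpa using tau_le G e M he y hξ x
  | succ k ih =>
    intro x hx
    have hk : (0 : ℤ) ≤ k * (r + 1) := by positivity
    push_cast at hx
    rw [add_mul, one_mul] at hx
    have hy : y ∉ cbox G (fun j => G.pos x j - r) (2 * r) := by
      intro h
      have := h j
      push_cast at this
      rcases abs_cases (G.pos x j - G.pos y j) with h1 | h1 <;> omega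
    refine (simon G e M he hβ hη hS x y hξ hy).trans ?_
    set B := cbox G (fun j => G.pos x j - r) (2 * r) with hB
    have h1 : ∀ ε ∈ bdry Prod.fst (ev G) B, 2 * β * (η * tau G e y ξ (wo Prod.fst (ev G) B ε)) ≤
        2 * β * (η * ((1 / 2) ^ k * P univ (fun s => Real.exp (H G univ s)) ξ)) := by
      intro ε hε
      gcongr
      apply ih
      obtain ⟨b1, -⟩ := mem_bdry.1 hε
      have a1 := b1 j
      have a2 := ends_near G (ends_wi_wo (u := Prod.fst) (v := ev G) B ε) j
      push_cast at a1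
      rcases abs_cases (G.pos x j - G.pos y j) with h1 | h1 <;>
        rcases abs_cases (G.pos (wo Prod.fst (ev G) B ε) j - G.pos y j) with h2 | h2 <;> omega
    refine (sum_le_card_nsmul _ _ _ h1).trans ?_
    rw [nsmul_eq_mul]
    have h2 := card_bdry G x hr
    set X := (1 / 2 : ℝ) ^ k * P univ (fun s => Real.exp (H G univ s)) ξ with hX
    have hX0 : 0 ≤ X := by positivity
    calc ((bdry Prod.fst (ev G) B).card : ℝ) * (2 * β * (η * X))
        ≤ 50 * (r : ℝ) ^ 2 * (2 * β * (η * X)) := by gcongr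
      _ = (200 * β * ((r : ℝ) ^ 2 * η)) * (X / 2) := by ring
      _ ≤ 1 * (X / 2) := by gcongr
      _ = _ := by rw [hX]; ring

end

end FKa

theorem fk {n : ℕ} {β : ℝ} (hB : Basic n β) : FK n β := by
  intro e he Λ _ _ G r η hr hη hsm hS x y ξ hξ
  have M : MargB n Λ := (hB Λ).2.1
  have hβ : 0 ≤ β := (G.J_nonneg x 0).trans (G.J_le x 0)
  have hZ : 0 < P univ (fun s => Real.exp (H G univ s)) ξ :=
    M.pos univ ξ (FKa.cont_H G univ).rexp fun _ => Real.exp_pos _
  obtain ⟨h1, h2⟩ := FKa.corr G e M he x y hξ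
  refine ⟨div_nonneg h1 hZ.le, fun k j hk => ?_⟩
  unfold Ex
  rw [div_le_iff₀ hZ]
  exact h2.trans (FKa.tau_decay G e M he hβ hr hη hsm hS y hξ j k x hk)

end Crest.Agent.R167
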