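import Crest.Agent.R167.Defs
import Crest.Prelude.Def_SpinON

set_option autoImplicit false
set_option linter.unusedSectionVars false

open Finset Function MeasureTheory
open scoped ContDiff RealInnerProductSpace ENNReal

namespace Crest.Agent.R167

open Crest.ProbabilityR.SpinModel

namespace FN

/-- the environment of a finite piece of the square lattice -/
noncomputable def env {β : ℝ} (hβ : 0 ≤ β) (V : Finset (ℤ × ℤ)) (b : ℤ × ℤ → Fin 2 → ℝ)
    (hb : ∀ u i, 0 ≤ b u i ∧ b u i ≤ β) : Env β V where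
  pos x := ![x.1.1, x.1.2]
  inj := by
    intro x y h
    have h0 := congrFun h 0
    have h1 := congrFun h 1
    simp only [Matrix.cons_val_zero, Matrix.cons_val_one] at h0 h1
    exact Subtype.ext (Prod.ext h0 h1)
  tgt x i := if h : (x : ℤ × ℤ) + latticeDir i ∈ V then ⟨_, h⟩ else x
  J x i := if (x : ℤ × ℤ) + latticeDir i ∈ V then b x i else 0
  J_nonneg x i := by
    split_ifs
    · exact (hb _ _).1
    · exact le_rfl
  J_le x i := by
    split_ifs
    · exact (hb _ _).2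
    · exact hβ
  le_tgt x i j := by
    split_ifs
    · fin_cases i <;> fin_cases j <;> simp [latticeDir]
    · exact le_rfl
  tgt_le x i j := by
    split_ifs
    · fin_cases i <;> fin_cases j <;> simp [latticeDir]
    · exact Int.le_add_one le_rfl

theorem H_eq {n : ℕ} {β : ℝ} (hβ : 0 ≤ β) (V : Finset (ℤ × ℤ)) (b : ℤ × ℤ → Fin 2 → ℝ)
    (hb : ∀ u i, 0 ≤ b u i ∧ b u i ≤ β) (σ : SpinConfig n V) :
    H (env hβ V b hb) univ (fun x => (σ x : E n)) = interaction n V b σ := by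
  unfold H interaction
  refine Finset.sum_congr rfl (fun x _ => Finset.sum_congr rfl (fun i _ => ?_))
  simp only [env]
  split_ifs <;> simp

theorem pi_nu (n : ℕ) (hn : 0 < n) (V : Finset (ℤ × ℤ)) : ∃ c : ℝ≥0∞, c ≠ 0 ∧ c ≠ ⊤ ∧
    (Measure.pi fun _ : V => nu n) = c • referenceLaw n V := by
  set a : ℝ≥0∞ := ((volume : Measure (E n)).toSphere Set.univ)⁻¹ with ha
  have h0 : a ≠ 0 := ENNReal.inv_ne_zero.2 (measure_ne_top _ _)
  have h1 : a ≠ ⊤ := by
    refine ENNReal.inv_ne_top.2 ?_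
    rw [Measure.toSphere_apply_univ, finrank_euclideanSpace_fin]
    exact mul_ne_zero (by simpa using hn.ne') (Metric.measure_ball_pos _ _ one_pos).ne'
  have hf : IsFiniteMeasure (nu n) := by
    constructor
    rw [nu, Measure.smul_apply, smul_eq_mul]
    exact ENNReal.mul_lt_top h1.lt_top (measure_lt_top _ _)
  refine ⟨a ^ Fintype.card V, pow_ne_zero _ h0, ENNReal.pow_ne_top h1, ?_⟩
  refine Measure.pi_eq (fun t _ => ?_)
  rw [Measure.smul_apply, referenceLaw, Measure.pi_pi, smul_eq_mul]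
  simp only [nu, Measure.smul_apply, smul_eq_mul]
  rw [Finset.prod_mul_distrib, Finset.prod_const, Finset.card_univ]

theorem two_eq {n : ℕ} (hn : 0 < n) {β : ℝ} (hβ : 0 ≤ β) (V : Finset (ℤ × ℤ))
    (b : ℤ × ℤ → Fin 2 → ℝ) (hb : ∀ u i, 0 ≤ b u i ∧ b u i ≤ β) (x y : V) (ξ : V → E n) :
    twoPoint n V b x y = Ex univ (H (env hβ V b hb) univ) (fun s => ⟪s x, s y⟫) ξ := by
  obtain ⟨c, h0, h1, hc⟩ := pi_nu n hn V
  have hp : ∀ s : V → Sph n, pw univ s ξ = fun x => (s x : E n) := by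
    intro s; funext x; simp [pw]
  unfold Ex P twoPoint partitionFn
  simp only [hp, H_eq]
  rw [hc, integral_smul_measure, integral_smul_measure, smul_eq_mul, smul_eq_mul,
    mul_div_mul_left _ _ (ENNReal.toReal_ne_zero.2 ⟨h0, h1⟩)]

end FN

open FN in
theorem final (n : ℕ) (hn : 3 ≤ n) (β : ℝ) (hβ : 0 < β) (hB : Basic n β) (hD : Decay n β)
    (hF : FK n β) (hT : TriEx n) :
    ∃ A m : ℝ, 0 < m ∧
      ∀ (V : Finset (ℤ × ℤ)) (b : ℤ × ℤ → Fin 2 → ℝ),
        (∀ u i, 0 ≤ b u i ∧ b u i ≤ β) →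
        ∀ x y : V,
          0 ≤ twoPoint n V b x y ∧
          twoPoint n V b x y ≤
            A * Real.exp (-m * Real.sqrt ((((x : ℤ × ℤ).1 - (y : ℤ × ℤ).1 : ℤ) : ℝ) ^ 2 +
              (((x : ℤ × ℤ).2 - (y : ℤ × ℤ).2 : ℤ) : ℝ) ^ 2)) := by
  have hn0 : 0 < n := by omega
  choose T hT using hT
  choose r η hr hη hκ hS using fun a => hD (T a) (1 / (200 * β)) (by positivity)
  set R : ℕ := ∑ a, (r a + 1) + 1 with hR
  have hR0 : 0 < R := Nat.succ_pos _
  have hRr : (0 : ℝ) < R := by exact_mod_cast hR0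
  have hle : ∀ a, r a + 1 ≤ R := fun a =>
    (Finset.single_le_sum (f := fun a => r a + 1) (fun _ _ => Nat.zero_le _) (mem_univ a)).trans
      (Nat.le_succ _)
  have hl2 : 0 < Real.log 2 := Real.log_pos one_lt_two
  refine ⟨2 * n, Real.log 2 / (2 * R), by positivity, fun V b hb x y => ?_⟩
  set G := env hβ.le V b hb with hG
  obtain ⟨-, -, hE, -, hBox⟩ := hB V
  set ξ : V → E n := fun _ => (T ⟨0, hn0⟩).e
  have hξ : OnS ξ := fun _ => (T ⟨0, hn0⟩).norm_e
  have e1 : twoPoint n V b x y =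
      ∑ a, Ex univ (H G univ) (fun s => ⟪(T a).e, s x⟫ * ⟪(T a).e, s y⟫) ξ := by
    rw [two_eq hn0 hβ.le V b hb x y ξ]
    have := congrFun (hE.sum univ (F := H G univ) univ
      (fun a (s : V → E n) => ⟪(T a).e, s x⟫ * ⟪(T a).e, s y⟫) ((hBox G).sm_H univ).continuous
      (fun a _ => by fun_prop)) ξ
    rw [← this]
    congr 1
    funext s
    simp only [hT, EuclideanSpace.inner_single_left, map_one, one_mul]
    rw [PiLp.inner_apply]
    refine Finset.sum_congr rfl (fun a _ => ?_)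
    simp [mul_comm]
  have key := fun a => hF (T a).e (T a).norm_e V G (r a) (η a) (hr a) (hη a)
    (by
      have := mul_le_mul_of_nonneg_left (hκ a) (by positivity : (0 : ℝ) ≤ 200 * β)
      rwa [mul_one_div_cancel (by positivity)] at this) (hS a V G) x y ξ hξ
  rw [e1]
  refine ⟨Finset.sum_nonneg (fun a _ => (key a).1), ?_⟩
  obtain ⟨j, hj⟩ : ∃ j : Fin 2, ∀ i, |G.pos x i - G.pos y i| ≤ |G.pos x j - G.pos y j| := by
    obtain ⟨j, -, hj⟩ := Finset.exists_max_image univ (fun i => |G.pos x i - G.pos y i|)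
      univ_nonempty
    exact ⟨j, fun i => hj i (mem_univ i)⟩
  set d : ℕ := (G.pos x j - G.pos y j).natAbs with hd
  have hdz : (d : ℤ) = |G.pos x j - G.pos y j| := Int.natCast_natAbs _
  set k : ℕ := d / R with hk
  have h1 : ∀ a, Ex univ (H G univ) (fun s => ⟪(T a).e, s x⟫ * ⟪(T a).e, s y⟫) ξ ≤ (1 / 2) ^ k := by
    intro a
    refine (key a).2 k j ?_
    rw [← hdz]
    have : k * (r a + 1) ≤ d := (Nat.mul_le_mul_left k (hle a)).trans (Nat.div_mul_le_self d R)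
    exact_mod_cast this
  have h2 : Real.sqrt ((((x : ℤ × ℤ).1 - (y : ℤ × ℤ).1 : ℤ) : ℝ) ^ 2 +
      (((x : ℤ × ℤ).2 - (y : ℤ × ℤ).2 : ℤ) : ℝ) ^ 2) ≤ 2 * d := by
    have a0 : |(x : ℤ × ℤ).1 - (y : ℤ × ℤ).1| ≤ d := by rw [hdz]; exact hj 0
    have a1 : |(x : ℤ × ℤ).2 - (y : ℤ × ℤ).2| ≤ d := by rw [hdz]; exact hj 1
    have b0 : |(((x : ℤ × ℤ).1 - (y : ℤ × ℤ).1 : ℤ) : ℝ)| ≤ d := by exact_mod_cast a0
    have b1 : |(((x : ℤ × ℤ).2 - (y : ℤ × ℤ).2 : ℤ) : ℝ)| ≤ d := by exact_mod_cast a1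
    have c0 := sq_le_sq' (abs_le.1 b0).1 (abs_le.1 b0).2
    have c1 := sq_le_sq' (abs_le.1 b1).1 (abs_le.1 b1).2
    refine Real.sqrt_le_iff.2 ⟨by positivity, ?_⟩
    nlinarith [sq_nonneg (d : ℝ)]
  have h3 : (d : ℝ) ≤ (k + 1) * R := by
    have : d < (k + 1) * R := by
      rw [hk, Nat.add_mul, one_mul]
      have := Nat.div_add_mod' d R
      have := Nat.mod_lt d hR0
      omega
    exact_mod_cast this.le
  have h4 : (1 / 2 : ℝ) ^ k = 2 * Real.exp (-(Real.log 2 * (k + 1))) := by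
    rw [Real.exp_neg, mul_add, mul_one, Real.exp_add, Real.exp_log two_pos, mul_comm (Real.log 2),
      Real.exp_nat_mul, Real.exp_log two_pos, one_div, inv_pow]
    field_simp
  have h5 : Real.exp (-(Real.log 2 * (k + 1))) ≤ Real.exp (-(Real.log 2 / (2 * R)) *
      Real.sqrt ((((x : ℤ × ℤ).1 - (y : ℤ × ℤ).1 : ℤ) : ℝ) ^ 2 +
      (((x : ℤ × ℤ).2 - (y : ℤ × ℤ).2 : ℤ) : ℝ) ^ 2)) := by
    refine Real.exp_le_exp.2 ?_
    have a1 := mul_le_mul_of_nonneg_left (h2.trans (by linarith : (2 : ℝ) * d ≤ 2 * ((k + 1) * R)))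
      (by positivity : 0 ≤ Real.log 2 / (2 * R))
    have a2 : Real.log 2 / (2 * R) * (2 * ((k + 1) * R)) = Real.log 2 * (k + 1) := by
      field_simp
    linarith
  calc ∑ a, Ex univ (H G univ) (fun s => ⟪(T a).e, s x⟫ * ⟪(T a).e, s y⟫) ξ
      ≤ ∑ _a : Fin n, (1 / 2 : ℝ) ^ k := Finset.sum_le_sum (fun a _ => h1 a)
    _ = 2 * n * Real.exp (-(Real.log 2 * (k + 1))) := by
        rw [Finset.sum_const, card_univ, Fintype.card_fin, nsmul_eq_mul, h4]; ring
    _ ≤ _ := mul_le_mul_of_nonneg_left h5 (by positivity)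

end Crest.Agent.R167
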