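import Crest.Agent.R167.Defs

/-!
# R167-F: one renormalisation step (`gain`) and the soft induction on scales (`soft`).
-/

set_option autoImplicit false
set_option linter.unusedSectionVars false
set_option linter.unusedVariables false

open Finset Function MeasureTheory
open scoped ContDiff RealInnerProductSpace

namespace Crest.Agent.R167

noncomputable section

namespace GA

/-- clamp to `[0,1]` -/
def cl (a : ℝ) : ℝ := max 0 (min 1 a)

theorem cl_nonneg (a : ℝ) : 0 ≤ cl a := le_max_left _ _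

theorem cl_le (a : ℝ) : cl a ≤ 1 := max_le zero_le_one (min_le_left _ _)

theorem cl_lip (a b : ℝ) : |cl a - cl b| ≤ |a - b| := by
  refine (abs_max_sub_max_le_max _ _ _ _).trans (max_le (by simp) ?_)
  exact (abs_min_sub_min_le_max _ _ _ _).trans (max_le (by simp) le_rfl)

theorem cl_zero {a : ℝ} (h : a ≤ 0) : cl a = 0 := max_eq_left ((min_le_right _ _).trans h)

theorem cl_one {a : ℝ} (h : 1 ≤ a) : cl a = 1 := by
  rw [cl, min_eq_left h, max_eq_right zero_le_one]

theorem cl_id {a : ℝ} (h0 : 0 ≤ a) (h1 : a ≤ 1) : cl a = a := by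
  rw [cl, min_eq_right h1, max_eq_right h0]

theorem pos_of_cl_ne {a : ℝ} (h : cl a ≠ 0) : 0 < a := by
  by_contra h'
  exact h (cl_zero (not_lt.1 h'))

/-- distance to the boundary of the big box -/
def dd (c : Fin 2 → ℤ) (L : ℝ) (y : Fin 2 → ℤ) : ℝ :=
  min (min ((y 0 : ℝ) - c 0) (c 0 + L - y 0)) (min ((y 1 : ℝ) - c 1) (c 1 + L - y 1))

theorem dd_lip (c : Fin 2 → ℤ) (L : ℝ) {y y' : Fin 2 → ℤ} {r : ℝ}
    (h : ∀ j, |(y j : ℝ) - y' j| ≤ r) : |dd c L y - dd c L y'| ≤ r := by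
  have key : ∀ j, |min ((y j : ℝ) - c j) (c j + L - y j) - min ((y' j : ℝ) - c j) (c j + L - y' j)| ≤ r := by
    intro j
    refine (abs_min_sub_min_le_max _ _ _ _).trans (max_le ?_ ?_)
    · rw [sub_sub_sub_cancel_right]; exact h j
    · rw [sub_sub_sub_cancel_left, abs_sub_comm]; exact h j
  exact (abs_min_sub_min_le_max _ _ _ _).trans (max_le (key 0) (key 1))

theorem dd_le (c : Fin 2 → ℤ) (L : ℝ) (y : Fin 2 → ℤ) (j : Fin 2) :
    dd c L y ≤ (y j : ℝ) - c j ∧ dd c L y ≤ c j + L - y j := by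
  fin_cases j
  · exact ⟨(min_le_left _ _).trans (min_le_left _ _), (min_le_left _ _).trans (min_le_right _ _)⟩
  · exact ⟨(min_le_right _ _).trans (min_le_left _ _), (min_le_right _ _).trans (min_le_right _ _)⟩

theorem le_dd (c : Fin 2 → ℤ) (L : ℝ) (y : Fin 2 → ℤ) {r : ℝ}
    (h : ∀ j, r ≤ (y j : ℝ) - c j ∧ r ≤ c j + L - y j) : r ≤ dd c L y :=
  le_min (le_min (h 0).1 (h 0).2) (le_min (h 1).1 (h 1).2)

theorem cc_nonneg {M : ℝ} (hM : 0 ≤ M) (m : ℕ) : 0 ≤ cc M m := by
  induction m with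
  | zero => exact zero_le_one
  | succ m ih => unfold cc; positivity

variable {n : ℕ} {Λ : Type} [Fintype Λ] [DecidableEq Λ]

theorem cont_Qf (hC : CalcB n Λ) (T : Tri n) (θ : Λ → ℝ) {F : (Λ → E n) → ℝ} (hF : Sm F) :
    Continuous (Qf T θ F) :=
  (continuous_finsetSum _ fun i _ => (hC.sm _ _ (hC.sm _ _ hF)).continuous).neg

theorem edge {β : ℝ} (G : Env β Λ) (x : Λ) (i j : Fin 2) :
    |(G.pos x j : ℝ) - G.pos (G.tgt x i) j| ≤ 1 := by
  have h1 : (G.pos x j : ℝ) ≤ G.pos (G.tgt x i) j := by exact_mod_cast G.le_tgt x i j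
  have h2 : (G.pos (G.tgt x i) j : ℝ) ≤ G.pos x j + 1 := by exact_mod_cast G.tgt_le x i j
  rw [abs_le]; constructor <;> linarith

theorem scal {L r a b : ℝ} (hL : 0 < L) (h : |a - b| ≤ r) : |8 * a / L - 8 * b / L| ≤ 8 * r / L := by
  rw [← sub_div, ← mul_sub, abs_div, abs_mul, abs_of_pos hL, abs_of_pos (by norm_num : (0 : ℝ) < 8)]
  gcongr

/-- the arithmetic of the step -/
theorem arith {a ε β B l M v X Y C₂ γ : ℝ} (hε : 0 < ε) (hεa : ε ≤ a) (ha : a ≤ 6 * β) (hB : 0 ≤ B)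
    (hl : 0 < l) (hM : 0 < M) (hM1 : 30 * B ≤ M) (hM2 : 192 * B ≤ ε * M)
    (hC : C₂ = 2 * (6 * β + 1) + 9 * (162 * β) ^ 2) (hγ : γ ≤ ε ^ 2 / (4096 * C₂))
    (hX : a * (8 * M * l) ^ 2 / 32 ≤ X)
    (hW : ∀ t : ℝ, 0 < t → X / (8 * M * l) ≤ t / 2 * v +
      (2 * ((8 * M) ^ 2 * (a * l ^ 2 / (8 * M * l) ^ 2 + 6 * B * l ^ 2 * (1 / M) / (8 * M * l) ^ 2 +
        3 * B * l * (1 / M) ^ 2 / (8 * M * l))) + 9 * (162 * β) ^ 2) / (2 * t) +
      (8 * M) ^ 2 * (3 * B * l ^ 2 * (1 / M) / (8 * M * l)))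
    (hY : Y ≤ a * (8 * M * l) ^ 2) : Y - v ≤ (a - γ) * (8 * M * l) ^ 2 := by
  have ha0 : 0 < a := hε.trans_le hεa
  have hβ : 0 < β := by linarith
  have hC0 : 0 < C₂ := by rw [hC]; positivity
  set L := 8 * M * l with hL
  have hL0 : 0 < L := by positivity
  have h1 := hW (64 * C₂ / (a * L)) (by positivity)
  have e1 : (8 * M) ^ 2 * (a * l ^ 2 / L ^ 2 + 6 * B * l ^ 2 * (1 / M) / L ^ 2 +
        3 * B * l * (1 / M) ^ 2 / L) = a + 30 * B / M := by
    rw [hL]; field_simp; ring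
  have e2 : (8 * M) ^ 2 * (3 * B * l ^ 2 * (1 / M) / L) = 24 * B * l := by
    rw [hL]; field_simp; ring
  rw [e1, e2] at h1
  have h2 : 30 * B / M ≤ 1 := (div_le_one hM).2 hM1
  have h3 : (2 * (a + 30 * B / M) + 9 * (162 * β) ^ 2) / (2 * (64 * C₂ / (a * L))) ≤ a * L / 128 := by
    rw [div_le_iff₀ (by positivity)]
    have : a * L / 128 * (2 * (64 * C₂ / (a * L))) = C₂ := by field_simp; ring
    rw [this, hC]; linarith
  have h4 : 24 * B * l ≤ a * L / 64 := by
    have : ε * M ≤ a * M := by gcongr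
    rw [hL]; nlinarith
  have h5 : a * L / 32 ≤ X / L := by
    rw [le_div_iff₀ hL0]; linarith
  have h6 : a * L / 128 ≤ 64 * C₂ / (a * L) / 2 * v := by linarith
  have h7 : a ^ 2 * L ^ 2 / (4096 * C₂) ≤ v := by
    have e : a ^ 2 * L ^ 2 / (4096 * C₂) = (a * L / 128) / (64 * C₂ / (a * L) / 2) := by
      field_simp; ring
    rw [e, div_le_iff₀ (by positivity)]; linarith
  have h8 : γ * L ^ 2 ≤ a ^ 2 * L ^ 2 / (4096 * C₂) := by
    rw [mul_div_right_comm]
    refine mul_le_mul_of_nonneg_right (hγ.trans ?_) (by positivity)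
    gcongr
  linarith

end GA

open GA

theorem gain {n : ℕ} {β : ℝ} (hB : Basic n β) (hβ : 0 < β) : Gain n β := by
  intro T ε hε
  set C₂ : ℝ := 2 * (6 * β + 1) + 9 * (162 * β) ^ 2 with hC₂
  have hC0 : 0 < C₂ := by positivity
  refine ⟨min (ε / 32) (ε ^ 2 / (4096 * C₂)), by positivity, fun l hl => ?_⟩
  set B : ℝ := cc (32 * β * (l : ℝ) ^ 2) 3 * (32 * β * (l : ℝ) ^ 2) with hBdef
  have hB0 : 0 ≤ B := mul_nonneg (cc_nonneg (by positivity) _) (by positivity)
  obtain ⟨M, hM⟩ := exists_nat_gt (max (30 * B) (192 * B / ε))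
  have hM1 : 30 * B ≤ M := (le_max_left _ _).trans hM.le
  have hM2 : 192 * B ≤ ε * M := by
    have := (le_max_right _ _).trans hM.le
    rw [div_le_iff₀ hε] at this; linarith
  have hM0 : (0 : ℝ) < M := (le_max_of_le_left (by positivity)).trans_lt hM
  have hM0' : 0 < M := by exact_mod_cast hM0
  have hM3 : (1 : ℝ) ≤ M := by exact_mod_cast hM0'
  have hl0 : (0 : ℝ) < l := by exact_mod_cast hl
  refine ⟨8 * M, by omega, fun Λ _ _ G a hεa ha hS c p ξ hξ => ?_⟩
  obtain ⟨hC, -, hE, hW, hX⟩ := hB Λ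
  have hX := hX G
  have ha0 : 0 < a := hε.trans_le hεa
  set L : ℝ := 8 * M * l with hL
  have hL0 : 0 < L := by positivity
  have hLc : (((8 * M * l : ℕ) : ℤ) : ℝ) = L := by push_cast; rfl
  set Z : Finset (Fin 2 → ℤ) := Fintype.piFinset fun _ => Finset.Ico (0 : ℤ) (0 + (8 * M : ℕ)) with hZ
  have hZm : ∀ z ∈ Z, ∀ j, (0 : ℝ) ≤ z j ∧ (z j : ℝ) + 1 ≤ 8 * M := by
    intro z hz j
    have := Finset.mem_Ico.1 (Fintype.mem_piFinset.1 hz j)
    constructor
    · exact_mod_cast this.1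
    · have h2 : z j + 1 ≤ 8 * M := by have := this.2; push_cast at this; omega
      exact_mod_cast h2
  have hZc : (Z.card : ℝ) = (8 * M) ^ 2 := by
    rw [hZ, Fintype.card_piFinset]
    simp only [zero_add, Int.card_Ico, sub_zero, Int.toNat_natCast, Finset.prod_const,
      Finset.card_univ, Fintype.card_fin]
    push_cast; ring
  set I := obox G c (8 * M * l) with hI
  have hgrid : ∀ z j, (grid c l z j : ℝ) = c j + l * z j := by intro z j; simp [grid]
  have hsub : ∀ z ∈ Z, obox G (grid c l z) l ⊆ I := by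
    intro z hz x hx
    simp only [hI, obox, Finset.mem_filter, Finset.mem_univ, true_and] at hx ⊢
    intro j
    obtain ⟨h1, h2⟩ := hZm z hz j
    have h3 : (grid c l z j : ℝ) < G.pos x j := by exact_mod_cast (hx j).1
    have h4 : (G.pos x j : ℝ) < grid c l z j + l := by exact_mod_cast (hx j).2
    rw [hgrid] at h3 h4
    constructor
    · have : (c j : ℝ) < G.pos x j := by nlinarith
      exact_mod_cast this
    · have : (G.pos x j : ℝ) < c j + ((8 * M * l : ℕ) : ℤ) := by rw [hLc, hL]; nlinarith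
      exact_mod_cast this
  have hFB : (FB G c (8 * M * l) : (Λ → E n) → ℝ) =
      LZ I (fun s => ∑ z ∈ Z, FB G (grid c l z) l s) := by
    have h1 := hX.cover c l (8 * M) (fun _ => 0) hl
    have h0 : grid c l (fun _ => 0) = c := by funext j; simp [grid]
    rw [h0] at h1
    have h2 := (hX.tile c l Z ∅ I hl hsub (fun _ _ => Finset.disjoint_empty_left _)).1
    rw [Finset.empty_union] at h2
    rw [FB, h1, h2]
    simp [H]
  set lam : Λ → ℝ := fun x => (G.pos x p : ℝ) with hlam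
  set θ₂ : Λ → ℝ := fun x => cl (8 * dd c L (G.pos x) / L - 2) with hθ₂
  set θ₁ : Λ → ℝ := fun x => (lam x - c p) / L * cl (8 * dd c L (G.pos x) / L) with hθ₁
  set c₂ : (Fin 2 → ℤ) → ℝ := fun z => cl (8 * dd c L (grid c l z) / L - 2) with hc₂
  have hbox : ∀ z, ∀ x ∈ cbox G (grid c l z) l, ∀ j,
      (grid c l z j : ℝ) ≤ G.pos x j ∧ (G.pos x j : ℝ) ≤ grid c l z j + l := by
    intro z x hx j
    exact ⟨by exact_mod_cast (hx j).1, by exact_mod_cast (hx j).2⟩
  have hη : 8 * (l : ℝ) / L = 1 / M := by rw [hL]; field_simp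
  have hen : ∀ (θ : Λ → ℝ), (∀ z ∈ Z, ∀ x ∈ Crest.Agent.R167.hbox G (grid c l z) l, ∀ i,
      |θ x - θ (G.tgt x i)| ≤ 9 / L) → ∀ i s, OnS s →
      -∑ z ∈ Z, D θ (T.A i) (D θ (T.A i) (FB G (grid c l z) l)) s ≤ 162 * β := by
    intro θ hθ i s hs
    rw [← Finset.sum_neg_distrib]
    refine (Finset.sum_le_card_nsmul _ _ _ fun z hz =>
      hX.energy (grid c l z) l θ (9 / L) (T.rot i) (hθ z hz) s hs).trans (le_of_eq ?_)
    rw [nsmul_eq_mul, hZc, hL]; field_simp; ring
  obtain ⟨v, hv0, hv1, hv2⟩ := hW T Z (fun z => cbox G (grid c l z) l)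
    (fun z => FB G (grid c l z) l) I θ₁ θ₂ lam c₂ (fun z => grid c l z p) B l (1 / M) L (162 * β)
    (a * l ^ 2) ξ hB0 hl0.le (by positivity) hL0 (by positivity) hξ
    (fun z _ => ⟨hX.sm_FB _ _, hX.loc_FB _ _, hX.crude T _ _, fun i => hX.inv_FB _ _ (T.rot i)⟩)
    (by
      intro x hx
      have hd : dd c L (G.pos x) ≤ 0 := by
        by_contra hd
        apply hx
        simp only [hI, obox, Finset.mem_filter, Finset.mem_univ, true_and]
        intro j
        obtain ⟨h1, h2⟩ := dd_le c L (G.pos x) j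
        constructor
        · have : (c j : ℝ) < G.pos x j := by linarith
          exact_mod_cast this
        · have : (G.pos x j : ℝ) < c j + ((8 * M * l : ℕ) : ℤ) := by rw [hLc]; linarith
          exact_mod_cast this
      have h8 : 8 * dd c L (G.pos x) / L ≤ 0 := div_nonpos_of_nonpos_of_nonneg (by linarith) hL0.le
      exact ⟨by simp only [hθ₁]; rw [cl_zero h8, mul_zero], cl_zero (by linarith)⟩)
    (by
      intro x
      simp only [hθ₁]
      by_cases h0 : cl (8 * dd c L (G.pos x) / L) = 0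
      · rw [h0, mul_zero, abs_zero]; exact zero_le_one
      · have h1 := pos_of_cl_ne h0
        have h2 : 0 < dd c L (G.pos x) := by
          have := (div_pos_iff_of_pos_right hL0).1 h1; linarith
        obtain ⟨h3, h4⟩ := dd_le c L (G.pos x) p
        rw [abs_mul, abs_of_nonneg (cl_nonneg _)]
        refine mul_le_one₀ ?_ (cl_nonneg _) (cl_le _)
        rw [abs_div, abs_of_pos hL0, div_le_one hL0, abs_le]
        simp only [hlam]
        constructor <;> linarith)
    (by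
      intro z _
      refine ⟨cl_nonneg _, cl_le _, fun x hx => ⟨?_, ?_⟩⟩
      · obtain ⟨h1, h2⟩ := hbox z x hx p
        simp only [hlam]
        rw [abs_le]; constructor <;> linarith
      · refine (cl_lip _ _).trans ?_
        rw [sub_sub_sub_cancel_right, ← hη]
        refine scal hL0 (dd_lip c L fun j => ?_)
        obtain ⟨h1, h2⟩ := hbox z x hx j
        rw [abs_le]; constructor <;> linarith)
    (by
      intro z _
      by_cases h0 : c₂ z = 0 ∧ ∀ x ∈ cbox G (grid c l z) l, θ₂ x = 0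
      · exact Or.inl h0
      refine Or.inr ⟨-c p / L, fun x hx => ?_⟩
      have : ∃ y : Fin 2 → ℤ, (∀ j, (grid c l z j : ℝ) ≤ y j ∧ (y j : ℝ) ≤ grid c l z j + l) ∧
          cl (8 * dd c L y / L - 2) ≠ 0 := by
        by_cases h1 : c₂ z = 0
        · have h2 : ¬ ∀ x ∈ cbox G (grid c l z) l, θ₂ x = 0 := fun h => h0 ⟨h1, h⟩
          push Not at h2
          obtain ⟨x', hx', h3⟩ := h2
          exact ⟨G.pos x', hbox z x' hx', h3⟩
        · exact ⟨grid c l z, fun j => ⟨le_rfl, by linarith⟩, h1⟩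
      obtain ⟨y, hy, h3⟩ := this
      have h4 := pos_of_cl_ne h3
      rw [sub_pos, lt_div_iff₀ hL0] at h4
      have h5 : |dd c L (G.pos x) - dd c L y| ≤ l := dd_lip c L fun j => by
        obtain ⟨h1, h2⟩ := hbox z x hx j
        obtain ⟨h6, h7⟩ := hy j
        rw [abs_le]; constructor <;> linarith
      have h6 : 8 * (l : ℝ) ≤ L := by rw [hL]; nlinarith
      have h7 : 1 ≤ 8 * dd c L (G.pos x) / L := by
        rw [le_div_iff₀ hL0]; have := (abs_le.1 h5).1; linarith
      simp only [hθ₁]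
      rw [cl_one h7]; ring)
    (by
      intro i s hs
      have h89 : 8 * (1 : ℝ) / L ≤ 9 / L := by gcongr; norm_num
      refine ⟨hen θ₁ (fun z hz x hx i => ?_) i s hs, hen θ₂ (fun z hz x hx i => ?_) i s hs⟩
      · simp only [Crest.Agent.R167.hbox, Finset.mem_filter, Finset.mem_univ, true_and] at hx
        have h3 : (grid c l z p : ℝ) ≤ G.pos x p := by exact_mod_cast (hx p).1
        have h4 : (G.pos x p : ℝ) < grid c l z p + l := by exact_mod_cast (hx p).2
        rw [hgrid] at h3 h4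
        obtain ⟨h1, h2⟩ := hZm z hz p
        have h5 : |(lam x - c p) / L| ≤ 1 := by
          rw [abs_div, abs_of_pos hL0, div_le_one hL0, abs_le]
          simp only [hlam, hL]
          constructor <;> nlinarith
        have h6 := (cl_lip _ _).trans (scal hL0 (dd_lip c L (edge G x i)))
        have h7 : |(lam x - c p) / L - (lam (G.tgt x i) - c p) / L| ≤ 1 / L := by
          rw [← sub_div, sub_sub_sub_cancel_right, abs_div, abs_of_pos hL0]
          gcongr
          exact edge G x i p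
        have e : θ₁ x - θ₁ (G.tgt x i) = (lam x - c p) / L *
            (cl (8 * dd c L (G.pos x) / L) - cl (8 * dd c L (G.pos (G.tgt x i)) / L)) +
            ((lam x - c p) / L - (lam (G.tgt x i) - c p) / L) *
              cl (8 * dd c L (G.pos (G.tgt x i)) / L) := by
          simp only [hθ₁]; ring
        rw [e]
        refine (abs_add_le _ _).trans ?_
        rw [abs_mul, abs_mul, abs_of_nonneg (cl_nonneg (8 * dd c L (G.pos (G.tgt x i)) / L))]
        have h8 := mul_le_mul h5 h6 (abs_nonneg _) zero_le_one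
        have h9 := mul_le_mul h7 (cl_le (8 * dd c L (G.pos (G.tgt x i)) / L)) (cl_nonneg _)
          (by positivity)
        have : 1 * (8 * 1 / L) + 1 / L * 1 = 9 / L := by ring
        linarith
      · refine (cl_lip _ _).trans ?_
        rw [sub_sub_sub_cancel_right]
        exact (scal hL0 (dd_lip c L (edge G x i))).trans h89)
    (fun z _ s hs => hS _ p s hs)
  rw [hFB, hv1]
  set e : (Fin 2 → ℤ) → ℝ := fun z => Ex I (fun s => ∑ z ∈ Z, FB G (grid c l z) l s)
    (Qf T lam (FB G (grid c l z) l)) ξ with he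
  have hcF : Continuous (fun s : Λ → E n => ∑ z ∈ Z, FB G (grid c l z) l s) :=
    continuous_finsetSum _ fun z _ => (hX.sm_FB _ _).continuous
  have heq : ∀ z, e z ≤ a * l ^ 2 := by
    intro z
    have h1 := hE.mono I hcF (cont_Qf hC T lam (hX.sm_FB (grid c l z) l)) continuous_const hξ
      (fun s hs => hS (grid c l z) p s hs)
    rwa [hE.const I _ hcF] at h1
  have hLn : ((8 * M * l : ℕ) : ℝ) = L := by push_cast; rfl
  rw [hLn]
  have hsum : ∑ z ∈ Z, e z ≤ a * L ^ 2 := by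
    refine (Finset.sum_le_card_nsmul _ _ _ fun z _ => heq z).trans (le_of_eq ?_)
    rw [nsmul_eq_mul, hZc, hL]; ring
  by_cases hΔ : ∑ z ∈ Z, e z ≤ a * L ^ 2 - a * L ^ 2 / 32
  · have h1 : min (ε / 32) (ε ^ 2 / (4096 * C₂)) * L ^ 2 ≤ a / 32 * L ^ 2 :=
      mul_le_mul_of_nonneg_right ((min_le_left _ _).trans (by linarith)) (by positivity)
    change ∑ z ∈ Z, e z - v ≤ _
    linarith
  rw [not_le] at hΔ
  have hc : 4 * (M : ℝ) ^ 2 ≤ ∑ z ∈ Z, c₂ z := by
    set Z' : Finset (Fin 2 → ℤ) := Fintype.piFinset fun _ => Finset.Ico (3 * M : ℤ) (5 * M) with hZ'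
    have h1 : Z' ⊆ Z := Fintype.piFinset_subset _ _ fun _ =>
      Finset.Ico_subset_Ico (by positivity) (by push_cast; omega)
    have h2 : (Z'.card : ℝ) = 4 * (M : ℝ) ^ 2 := by
      rw [hZ', Fintype.card_piFinset]
      have : (5 * (M : ℤ) - 3 * M).toNat = 2 * M := by omega
      simp only [Int.card_Ico, this, Finset.prod_const, Finset.card_univ, Fintype.card_fin]
      push_cast; ring
    refine le_trans ?_ (Finset.sum_le_sum_of_subset_of_nonneg h1 fun z _ _ => cl_nonneg _)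
    rw [← h2, ← mul_one (Z'.card : ℝ), ← nsmul_eq_mul]
    refine Finset.card_nsmul_le_sum _ _ _ fun z hz => le_of_eq (cl_one ?_).symm
    have h3 : 3 * M * (l : ℝ) ≤ dd c L (grid c l z) := by
      refine le_dd _ _ _ fun j => ?_
      have := Finset.mem_Ico.1 (Fintype.mem_piFinset.1 hz j)
      have h4 : 3 * (M : ℝ) ≤ z j := by exact_mod_cast this.1
      have h5 : (z j : ℝ) ≤ 5 * M := by exact_mod_cast this.2.le
      rw [hgrid, hL]
      constructor <;> nlinarith
    rw [le_sub_iff_add_le, le_div_iff₀ hL0, hL]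
    linarith
  have hXl : a * L ^ 2 / 32 ≤ ∑ z ∈ Z, c₂ z * e z := by
    have h1 : ∑ z ∈ Z, (a * l ^ 2 * c₂ z - (a * l ^ 2 - e z)) ≤ ∑ z ∈ Z, c₂ z * e z := by
      refine Finset.sum_le_sum fun z _ => ?_
      have h2 := heq z
      have h3 : c₂ z ≤ 1 := cl_le _
      nlinarith
    rw [Finset.sum_sub_distrib, Finset.sum_sub_distrib, ← Finset.mul_sum, Finset.sum_const,
      nsmul_eq_mul, hZc] at h1
    have h2 : a * l ^ 2 * (4 * (M : ℝ) ^ 2) ≤ a * l ^ 2 * ∑ z ∈ Z, c₂ z := by gcongr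
    have h3 : a * L ^ 2 = (8 * M) ^ 2 * (a * l ^ 2) := by rw [hL]; ring
    have h4 : a * l ^ 2 * (4 * (M : ℝ) ^ 2) = a * L ^ 2 / 16 := by rw [hL]; ring
    linarith
  rw [hZc] at hv2
  exact arith hε hεa ha hB0 hl0 hM0 hM1 hM2 hC₂ (min_le_right _ _) hXl hv2 hsum

theorem soft {n : ℕ} {β : ℝ} (hB : Basic n β) (hβ : 0 < β) (hG : Gain n β) : Soft n β := by
  intro T ε hε
  have mono : ∀ (Λ : Type) [Fintype Λ] [DecidableEq Λ] (G : Env β Λ) (l : ℕ) (a b : ℝ), a ≤ b →
      Stiff G T l a → Stiff G T l b := fun Λ _ _ G l a b hab h c p ξ hξ =>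
    (h c p ξ hξ).trans (mul_le_mul_of_nonneg_right hab (by positivity))
  have start : ∀ (Λ : Type) [Fintype Λ] [DecidableEq Λ] (G : Env β Λ), Stiff G T 1 (6 * β) := by
    intro Λ _ _ G c p ξ hξ
    obtain ⟨-, -, -, -, hX⟩ := hB Λ
    have hX := hX G
    simp only [Qf]
    rw [← Finset.sum_neg_distrib]
    refine (Finset.sum_le_card_nsmul _ _ _ fun i _ =>
      hX.energy c 1 _ 1 (T.rot i) (fun x _ i => edge G x i p) ξ hξ).trans (le_of_eq ?_)
    simp; ring
  by_cases h6 : 6 * β ≤ ε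
  · exact ⟨1, one_pos, fun Λ _ _ G => mono Λ G 1 _ _ h6 (start Λ G)⟩
  rw [not_le] at h6
  obtain ⟨γ, hγ, hg⟩ := hG T ε hε
  have key : ∀ N : ℕ, ∃ l : ℕ, 0 < l ∧ ∀ (Λ : Type) [Fintype Λ] [DecidableEq Λ] (G : Env β Λ),
      Stiff G T l (max ε (6 * β - N * γ)) := by
    intro N
    induction N with
    | zero => exact ⟨1, one_pos, fun Λ _ _ G => mono Λ G 1 _ _ (by simp) (start Λ G)⟩
    | succ N ih =>
      obtain ⟨l, hl, h⟩ := ih
      obtain ⟨K, hK, h2⟩ := hg l hl
      refine ⟨K * l, Nat.mul_pos hK hl, fun Λ _ _ G => mono Λ G _ _ _ ?_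
        (h2 Λ G _ (le_max_left _ _) (max_le h6.le ?_) (h Λ G))⟩
      · rw [sub_le_iff_le_add]
        refine max_le ((le_max_left _ _).trans (by linarith)) ?_
        have := le_max_right ε (6 * β - ((N + 1 : ℕ) : ℝ) * γ)
        push_cast at this ⊢
        linarith
      · have : 0 ≤ (N : ℝ) * γ := by positivity
        linarith
  obtain ⟨N, hN⟩ := exists_nat_gt (6 * β / γ)
  obtain ⟨l, hl, h⟩ := key N
  refine ⟨l, hl, fun Λ _ _ G => mono Λ G _ _ _ (max_le le_rfl ?_) (h Λ G)⟩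
  rw [div_lt_iff₀ hγ] at hN
  linarith

end

end Crest.Agent.R167
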