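import Crest.Agent.R167.Defs

set_option autoImplicit false
set_option linter.unusedSectionVars false

open Finset Function MeasureTheory Filter Topology
open scoped ContDiff RealInnerProductSpace Pointwise ENNReal

namespace Crest.Agent.R167

namespace MG

section Param

variable {K : Type} [TopologicalSpace K] [CompactSpace K] [MeasurableSpace K] [BorelSpace K]
  [SecondCountableTopology K] (μ : Measure K) [IsFiniteMeasure μ]

theorem itg {W : Type} [NormedAddCommGroup W] {g : K → W} (hg : Continuous g) : Integrable g μ :=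
  hg.integrable_of_hasCompactSupport (HasCompactSupport.of_compactSpace g)

theorem bdd {Y W : Type} [NormedAddCommGroup Y] [ProperSpace Y] [NormedAddCommGroup W]
    {F : Y → K → W} (hF : Continuous (uncurry F)) (y : Y) :
    ∃ C : ℝ, ∀ s, ∀ y' ∈ Metric.ball y 1, ‖F y' s‖ ≤ C := by
  obtain ⟨C, hC⟩ := ((isCompact_closedBall y 1).prod (isCompact_univ (X := K))).exists_bound_of_continuousOn
    hF.continuousOn
  exact ⟨C, fun s y' hy' => hC (y', s) ⟨Metric.ball_subset_closedBall hy', Set.mem_univ _⟩⟩

theorem fder {Y W : Type} [NormedAddCommGroup Y] [NormedSpace ℝ Y] [ProperSpace Y]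
    [NormedAddCommGroup W] [NormedSpace ℝ W] {F : Y → K → W} {F' : Y → K → Y →L[ℝ] W}
    (hF : Continuous (uncurry F)) (hF' : Continuous (uncurry F'))
    (hd : ∀ s y, HasFDerivAt (fun y => F y s) (F' y s) y) (y : Y) :
    HasFDerivAt (fun y => ∫ s, F y s ∂μ) (∫ s, F' y s ∂μ) y := by
  obtain ⟨C, hC⟩ := bdd hF' y
  refine hasFDerivAt_integral_of_dominated_of_fderiv_le (bound := fun _ => C)
    (Metric.ball_mem_nhds y one_pos)
    (Eventually.of_forall fun y' => (hF.uncurry_left y').aestronglyMeasurable)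
    (itg μ (hF.uncurry_left y)) (hF'.uncurry_left y).aestronglyMeasurable
    (Eventually.of_forall hC) (integrable_const C)
    (Eventually.of_forall fun s y' _ => hd s y')

theorem der {F F' : ℝ → K → ℝ}
    (hF : Continuous (uncurry F)) (hF' : Continuous (uncurry F'))
    (hd : ∀ s y, HasDerivAt (fun y => F y s) (F' y s) y) (y : ℝ) :
    HasDerivAt (fun y => ∫ s, F y s ∂μ) (∫ s, F' y s ∂μ) y := by
  obtain ⟨C, hC⟩ := bdd hF' y
  exact (hasDerivAt_integral_of_dominated_loc_of_deriv_le (bound := fun _ => C)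
    (Metric.ball_mem_nhds y one_pos)
    (Eventually.of_forall fun y' => (hF.uncurry_left y').aestronglyMeasurable)
    (itg μ (hF.uncurry_left y)) (hF'.uncurry_left y).aestronglyMeasurable
    (Eventually.of_forall hC) (integrable_const C)
    (Eventually.of_forall fun s y' _ => hd s y')).2

theorem cont {Y W : Type} [NormedAddCommGroup Y] [ProperSpace Y] [NormedAddCommGroup W]
    [NormedSpace ℝ W] {F : Y → K → W} (hF : Continuous (uncurry F)) :
    Continuous (fun y => ∫ s, F y s ∂μ) := by
  have := continuous_parametric_integral_of_continuous (μ := μ) hF isCompact_univ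
  simpa using this

variable {X : Type} [NormedAddCommGroup X] [NormedSpace ℝ X] [ProperSpace X] {a : K → X}
  (ha : Continuous a) (L : X →L[ℝ] X)
include ha

theorem fder2 {W : Type} [NormedAddCommGroup W] [NormedSpace ℝ W] {f : X → W}
    (hf : ContDiff ℝ 1 f) (y : X) :
    HasFDerivAt (fun y => ∫ s, f (a s + L y) ∂μ)
      (∫ s, (fderiv ℝ f (a s + L y)).comp L ∂μ) y := by
  have c0 : Continuous (fun p : X × K => a p.2 + L p.1) := by fun_prop
  refine fder μ (F := fun y s => f (a s + L y)) (F' := fun y s => (fderiv ℝ f (a s + L y)).comp L)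
    (hf.continuous.comp c0)
    (((hf.continuous_fderiv one_ne_zero).comp c0).clm_comp continuous_const) (fun s y => ?_) y
  exact (hf.differentiable one_ne_zero _).hasFDerivAt.comp y (L.hasFDerivAt.const_add (a s))

theorem smooth (m : ℕ) : ∀ (W : Type) [NormedAddCommGroup W] [NormedSpace ℝ W] (f : X → W),
    ContDiff ℝ m f → ContDiff ℝ m (fun y => ∫ s, f (a s + L y) ∂μ) := by
  induction m with
  | zero =>
    intro W _ _ f hf
    rw [Nat.cast_zero, contDiff_zero] at hf ⊢
    exact cont μ (F := fun y s => f (a s + L y)) (hf.comp (by fun_prop))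
  | succ m ih =>
    intro W _ _ f hf
    have h1 : ContDiff ℝ 1 f := hf.of_le (by exact_mod_cast Nat.succ_le_succ (Nat.zero_le m))
    rw [Nat.cast_succ, contDiff_succ_iff_fderiv] at hf ⊢
    refine ⟨fun y => (fder2 μ ha L h1 y).differentiableAt, by simp, ?_⟩
    have : fderiv ℝ (fun y => ∫ s, f (a s + L y) ∂μ) =
        fun y => ∫ s, (fun x => (fderiv ℝ f x).comp L) (a s + L y) ∂μ := by
      funext y; exact (fder2 μ ha L h1 y).fderiv
    rw [this]
    exact ih _ _ (hf.2.2.clm_comp contDiff_const)

end Param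

variable {n : ℕ}

theorem nu_prob (hn : 0 < n) : IsProbabilityMeasure (nu n) := by
  constructor
  rw [nu, Measure.smul_apply, smul_eq_mul]
  refine ENNReal.inv_mul_cancel ?_ (measure_ne_top _ _)
  rw [Measure.toSphere_apply_univ, finrank_euclideanSpace_fin]
  exact mul_ne_zero (by simpa using hn.ne') (Metric.measure_ball_pos _ _ one_pos).ne'

/-- an isometry acting on the sphere -/
noncomputable def sm (R : E n ≃ₗᵢ[ℝ] E n) (u : Sph n) : Sph n :=
  ⟨R u, by simp⟩

theorem sm_cont (R : E n ≃ₗᵢ[ℝ] E n) : Continuous (sm R) :=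
  Continuous.subtype_mk (R.continuous.comp continuous_subtype_val) _

theorem sm_mp (R : E n ≃ₗᵢ[ℝ] E n) : MeasurePreserving (sm R) (nu n) (nu n) := by
  have mf : Measurable (sm R) := (sm_cont R).measurable
  refine ⟨mf, Measure.ext fun A hA => ?_⟩
  rw [Measure.map_apply mf hA, nu, Measure.smul_apply, Measure.smul_apply,
    Measure.toSphere_apply' _ hA, Measure.toSphere_apply' _ (mf hA)]
  congr 2
  rw [← R.measurePreserving.measure_preimage_emb R.toHomeomorph.measurableEmbedding
    (Set.Ioo (0 : ℝ) 1 • ((↑) '' A : Set (E n)))]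
  congr 1
  ext x
  simp only [Set.mem_preimage, Set.mem_smul, Set.mem_image]
  constructor
  · rintro ⟨t, ht, y, ⟨u, hu, rfl⟩, rfl⟩
    exact ⟨t, ht, R u, ⟨sm R u, hu, rfl⟩, by rw [map_smul]⟩
  · rintro ⟨t, ht, y, ⟨u, hu, rfl⟩, h3⟩
    refine ⟨t, ht, R.symm u, ⟨sm R.symm u, ?_, rfl⟩, ?_⟩
    · have : sm R (sm R.symm u) = u := Subtype.ext (by simp [sm])
      rwa [this]
    · rw [← map_smul, h3, R.symm_apply_apply]

/-- the rotation flow -/
noncomputable def rotL (A : E n →L[ℝ] E n) (t : ℝ) : E n →L[ℝ] E n :=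
  ContinuousLinearMap.id ℝ _ + Real.sin t • A + (1 - Real.cos t) • A.comp A

theorem rotL_apply (A : E n →L[ℝ] E n) (t : ℝ) (u : E n) :
    rotL A t u = u + Real.sin t • A u + (1 - Real.cos t) • A (A u) := rfl

theorem rotL_norm {A : E n →L[ℝ] E n} (hA : Rot A) (t : ℝ) (u : E n) : ‖rotL A t u‖ = ‖u‖ := by
  have h1 : ⟪u, A u⟫ = 0 := by
    have := hA.skew u u
    rw [real_inner_comm] at this
    linarith
  have h2 : ⟪u, A (A u)⟫ = -⟪A u, A u⟫ := by
    have := hA.skew u (A u); linarith
  have h3 : ⟪A u, A (A u)⟫ = 0 := by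
    have := hA.skew (A u) (A u)
    rw [real_inner_comm] at this
    linarith
  have h4 : ⟪A (A u), A (A u)⟫ = ⟪A u, A u⟫ := by
    rw [hA.skew (A u), hA.cube, inner_neg_right, neg_neg]
  have h5 : ⟪rotL A t u, rotL A t u⟫ = ⟪u, u⟫ := by
    rw [rotL_apply]
    simp only [inner_add_left, inner_add_right, real_inner_smul_left, real_inner_smul_right]
    rw [real_inner_comm u (A u), real_inner_comm u (A (A u)), real_inner_comm (A u) (A (A u)),
      h1, h2, h3, h4]
    have := Real.sin_sq_add_cos_sq t
    linear_combination (⟪A u, A u⟫) * this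
  rw [real_inner_self_eq_norm_sq, real_inner_self_eq_norm_sq] at h5
  exact (pow_left_inj₀ (norm_nonneg _) (norm_nonneg _) two_ne_zero).1 h5

/-- the rotation flow as an isometry -/
noncomputable def rotE {A : E n →L[ℝ] E n} (hA : Rot A) (t : ℝ) : E n ≃ₗᵢ[ℝ] E n :=
  LinearIsometry.toLinearIsometryEquiv ⟨(rotL A t).toLinearMap, rotL_norm hA t⟩ rfl

theorem rotE_apply {A : E n →L[ℝ] E n} (hA : Rot A) (t : ℝ) (u : E n) :
    rotE hA t u = rotL A t u := rfl

variable {Λ : Type} [Fintype Λ] [DecidableEq Λ]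

/-- the inner part -/
def aa (I : Finset Λ) (s : Λ → Sph n) : Λ → E n := fun x => if x ∈ I then (s x : E n) else 0

/-- the outer part -/
noncomputable def LL (I : Finset Λ) : (Λ → E n) →L[ℝ] (Λ → E n) :=
  ContinuousLinearMap.pi (fun x => if x ∈ I then 0 else ContinuousLinearMap.proj x)

theorem LL_apply (I : Finset Λ) (ξ : Λ → E n) (x : Λ) :
    LL I ξ x = if x ∈ I then 0 else ξ x := by
  simp only [LL, ContinuousLinearMap.pi_apply]
  split_ifs <;> rfl

theorem pw_eq (I : Finset Λ) (s : Λ → Sph n) (ξ : Λ → E n) : pw I s ξ = aa I s + LL I ξ := by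
  funext x
  simp only [pw, aa, Pi.add_apply, LL_apply]
  split_ifs <;> simp

theorem aa_cont (I : Finset Λ) : Continuous (aa I : (Λ → Sph n) → Λ → E n) := by
  refine continuous_pi (fun x => ?_)
  unfold aa
  split_ifs
  · fun_prop
  · fun_prop

theorem pw_cont (I : Finset Λ) : Continuous (fun p : (Λ → E n) × (Λ → Sph n) => pw I p.2 p.1) := by
  simp only [pw_eq]
  have := aa_cont (n := n) I
  fun_prop

theorem pw_cont' (I : Finset Λ) (ξ : Λ → E n) : Continuous (fun s : Λ → Sph n => pw I s ξ) :=
  (pw_cont I).comp (Continuous.prodMk_right ξ)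

theorem pw_onS (I : Finset Λ) (s : Λ → Sph n) {ξ : Λ → E n} (h : OnS ξ) : OnS (pw I s ξ) := by
  intro x
  unfold pw
  split_ifs
  · exact mem_sphere_zero_iff_norm.1 (s x).2
  · exact h x

theorem inv (hn : 0 < n) (R : Λ → E n ≃ₗᵢ[ℝ] E n) {g : (Λ → Sph n) → ℝ} (hg : Continuous g) :
    ∫ s, g (fun x => sm (R x) (s x)) ∂(Measure.pi fun _ : Λ => nu n) =
      ∫ s, g s ∂(Measure.pi fun _ : Λ => nu n) := by
  have := nu_prob hn
  have h := measurePreserving_pi (fun _ : Λ => nu n) (fun _ : Λ => nu n) (fun x => sm_mp (R x))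
  conv_rhs => rw [← h.map_eq]
  rw [integral_map h.measurable.aemeasurable hg.aestronglyMeasurable]

theorem mix_mp (hn : 0 < n) (J : Finset Λ) :
    MeasurePreserving (fun p : (Λ → Sph n) × (Λ → Sph n) => fun x => if x ∈ J then p.2 x else p.1 x)
      ((Measure.pi fun _ : Λ => nu n).prod (Measure.pi fun _ : Λ => nu n))
      (Measure.pi fun _ : Λ => nu n) := by
  have := nu_prob hn
  have hm : Measurable
      (fun p : (Λ → Sph n) × (Λ → Sph n) => fun x => if x ∈ J then p.2 x else p.1 x) := by
    refine measurable_pi_lambda _ (fun x => ?_)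
    split_ifs
    · fun_prop
    · fun_prop
  refine ⟨hm, (Measure.pi_eq (fun t ht => ?_)).symm⟩
  rw [Measure.map_apply hm (MeasurableSet.univ_pi ht)]
  have : (fun p : (Λ → Sph n) × (Λ → Sph n) => fun x => if x ∈ J then p.2 x else p.1 x) ⁻¹'
      Set.univ.pi t = (Set.univ.pi fun x => if x ∈ J then Set.univ else t x) ×ˢ
        (Set.univ.pi fun x => if x ∈ J then t x else Set.univ) := by
    ext p
    simp only [Set.mem_preimage, Set.mem_pi, Set.mem_univ, true_implies, Set.mem_prod]
    constructor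
    · intro h
      constructor <;> intro x <;> have := h x <;> split_ifs at this ⊢ <;> simp_all
    · rintro ⟨h1, h2⟩ x
      have a1 := h1 x
      have a2 := h2 x
      split_ifs at a1 a2 ⊢ <;> assumption
  have hp : IsProbabilityMeasure (Measure.pi fun _ : Λ => nu n) := inferInstance
  have hs : SigmaFinite (Measure.pi fun _ : Λ => nu n) := IsFiniteMeasure.toSigmaFinite _
  rw [this, Measure.prod_prod, Measure.pi_pi, Measure.pi_pi, ← Finset.prod_mul_distrib]
  refine Finset.prod_congr rfl (fun x _ => ?_)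
  split_ifs <;> simp

theorem D_P (hn : 0 < n) (I : Finset Λ) (θ : Λ → ℝ) {A : E n →L[ℝ] E n} {f : (Λ → E n) → ℝ}
    (hA : Rot A) (hf : Sm f) : D θ A (P I f) = P I (D θ A f) := by
  have := nu_prob hn
  funext ξ
  have h1 : ContDiff ℝ 1 f := hf.of_le (by exact_mod_cast le_top)
  have cf' := h1.continuous_fderiv one_ne_zero
  have ca := aa_cont (n := n) I
  have e1 : P I f = fun y => ∫ s, f (aa I s + LL I y) ∂(Measure.pi fun _ : Λ => nu n) := by
    funext y; simp only [P, pw_eq]
  have c1 : Continuous (fun s : Λ → Sph n => (fderiv ℝ f (aa I s + LL I ξ)).comp (LL I)) :=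
    (cf'.comp (by fun_prop)).clm_comp continuous_const
  have e2 : D θ A (P I f) ξ = ∫ s, fderiv ℝ f (aa I s + LL I ξ) (LL I (fun x => θ x • A (ξ x)))
      ∂(Measure.pi fun _ : Λ => nu n) := by
    unfold D
    rw [e1, (fder2 _ ca (LL I) h1 ξ).fderiv, ContinuousLinearMap.integral_apply (itg _ c1)]
    rfl
  -- the flow on the inner spins
  set ψ : ℝ → (Λ → Sph n) → (Λ → E n) := fun t s x => rotL A (t * θ x) (aa I s x) with hψ
  set ψ' : ℝ → (Λ → Sph n) → (Λ → E n) := fun t s x =>
    (Real.cos (t * θ x) * θ x) • A (aa I s x) + (Real.sin (t * θ x) * θ x) • A (A (aa I s x))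
    with hψ'
  have cψ : Continuous (uncurry ψ) := by
    refine continuous_pi (fun x => ?_)
    simp only [hψ, uncurry, rotL_apply]
    fun_prop
  have cψ' : Continuous (uncurry ψ') := by
    refine continuous_pi (fun x => ?_)
    simp only [hψ', uncurry]
    fun_prop
  have dψ : ∀ s t, HasDerivAt (fun t => ψ t s) (ψ' t s) t := by
    intro s t
    rw [hasDerivAt_pi]
    intro x
    simp only [hψ, hψ', rotL_apply]
    have k0 : HasDerivAt (fun t : ℝ => t * θ x) (θ x) t := by
      simpa using (hasDerivAt_id t).mul_const (θ x)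
    have k1 := (k0.sin.smul_const (A (aa I s x))).const_add (aa I s x)
    have k2 := (k0.cos.const_sub 1).smul_const (A (A (aa I s x)))
    have := k1.add k2
    simp only [neg_mul, neg_neg] at this
    exact this
  have d := der (Measure.pi fun _ : Λ => nu n) (F := fun t s => f (ψ t s + LL I ξ))
    (F' := fun t s => fderiv ℝ f (ψ t s + LL I ξ) (ψ' t s))
    (hf.continuous.comp (cψ.add continuous_const))
    ((cf'.comp (cψ.add continuous_const)).clm_apply cψ')
    (fun s t => (h1.differentiable one_ne_zero _).hasFDerivAt.comp_hasDerivAt t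
      ((dψ s t).add_const _)) 0
  have e3 : (fun t => ∫ s, f (ψ t s + LL I ξ) ∂(Measure.pi fun _ : Λ => nu n)) =
      fun _ => ∫ s, f (aa I s + LL I ξ) ∂(Measure.pi fun _ : Λ => nu n) := by
    funext t
    rw [← inv hn (fun x => rotE hA (t * θ x)) (g := fun s => f (aa I s + LL I ξ))
      (hf.continuous.comp (by fun_prop))]
    congr 1
    funext s
    congr 2
    funext x
    simp only [hψ, aa, sm, rotE_apply]
    split_ifs <;> simp
  rw [e3] at d
  have e4 := d.unique (hasDerivAt_const _ _)
  have e5 : ∀ s, ψ 0 s = aa I s := by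
    intro s; funext x; simp [hψ, rotL_apply]
  have e6 : ∀ s, ψ' 0 s = fun x => θ x • A (aa I s x) := by
    intro s; funext x; simp [hψ']
  simp only [e5, e6] at e4
  have c2 : Continuous (fun s : Λ → Sph n =>
      fderiv ℝ f (aa I s + LL I ξ) (fun x => θ x • A (aa I s x))) :=
    (cf'.comp (by fun_prop)).clm_apply (by fun_prop)
  have c3 : Continuous (fun s : Λ → Sph n =>
      fderiv ℝ f (aa I s + LL I ξ) (LL I (fun x => θ x • A (ξ x)))) :=
    (cf'.comp (by fun_prop)).clm_apply continuous_const
  rw [e2, ← zero_add (∫ s, fderiv ℝ f (aa I s + LL I ξ) (LL I (fun x => θ x • A (ξ x)))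
      ∂(Measure.pi fun _ : Λ => nu n)), ← e4, ← integral_add (itg _ c2) (itg _ c3)]
  unfold P D
  congr 1
  funext s
  rw [← map_add, pw_eq]
  congr 1
  funext x
  simp only [Pi.add_apply, LL_apply, aa]
  split_ifs <;> simp

end MG

open MG in
theorem margB {n : ℕ} {Λ : Type} [Fintype Λ] [DecidableEq Λ] (hn : 0 < n) : MargB n Λ := by
  have := nu_prob hn
  have hc : ∀ (I : Finset Λ) {f : (Λ → E n) → ℝ}, Continuous f → Continuous (P I f) :=
    fun I f hf => cont _ (F := fun ξ s => f (pw I s ξ)) (hf.comp (pw_cont I))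
  refine ⟨hc, fun I f hf => ?_, fun I θ A f hA hf => D_P hn I θ hA hf, fun I f s s' h => ?_,
    fun I S f hf s s' h => ?_, fun I c => ?_, fun I f g hf hg => ?_, fun I c f => ?_,
    fun I ι Z f hf => ?_, fun I f g hg => ?_, fun {I J f} hJ hf => ?_,
    fun I f g ξ hf hg hξ h => ?_, fun I f ξ hf h => ?_, fun {I C} R f hCI hf => ?_⟩
  · have e1 : P I f = fun y => ∫ s, f (aa I s + LL I y) ∂(Measure.pi fun _ : Λ => nu n) := by
      funext y; simp only [P, pw_eq]
    rw [e1]
    unfold Sm
    rw [contDiff_infty]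
    intro m
    exact smooth _ (aa_cont I) (LL I) m ℝ f (contDiff_infty.1 hf m)
  · unfold P
    congr 1
    funext u
    congr 1
    funext x
    unfold pw
    split_ifs with hx
    · rfl
    · exact h x (by simpa using hx)
  · unfold P
    congr 1
    funext u
    refine hf _ _ (fun x hx => ?_)
    unfold pw
    split_ifs
    · rfl
    · exact h x hx
  · funext ξ; simp [P]
  · funext ξ
    exact integral_add (itg _ (hf.comp (pw_cont' I ξ))) (itg _ (hg.comp (pw_cont' I ξ)))
  · funext ξ
    exact integral_const_mul _ _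
  · funext ξ
    exact integral_finsetSum _ (fun z hz => itg _ ((hf z hz).comp (pw_cont' I ξ)))
  · funext ξ
    unfold P
    rw [← integral_mul_const]
    congr 1
    funext s
    show f (pw I s ξ) * g (pw I s ξ) = _
    congr 1
    refine hg _ _ (fun x hx => ?_)
    have : x ∉ I := by simpa using hx
    simp [pw, this]
  · funext ξ
    have h := mix_mp (Λ := Λ) hn J
    have hp : IsProbabilityMeasure (Measure.pi fun _ : Λ => nu n) := inferInstance
    have hs : SigmaFinite (Measure.pi fun _ : Λ => nu n) := IsFiniteMeasure.toSigmaFinite _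
    have cg : Continuous (fun s : Λ → Sph n => f (pw I s ξ)) := hf.comp (pw_cont' I ξ)
    have cm : Continuous
        (fun p : (Λ → Sph n) × (Λ → Sph n) => fun x => if x ∈ J then p.2 x else p.1 x) := by
      refine continuous_pi (fun x => ?_)
      split_ifs
      · fun_prop
      · fun_prop
    unfold P
    conv_rhs => rw [← h.map_eq]
    rw [integral_map h.measurable.aemeasurable cg.aestronglyMeasurable,
      integral_prod (fun p : (Λ → Sph n) × (Λ → Sph n) =>
        f (pw I (fun x => if x ∈ J then p.2 x else p.1 x) ξ)) (itg _ (cg.comp cm))]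
    congr 1
    funext s
    congr 1
    funext s'
    congr 1
    funext x
    unfold pw
    by_cases h1 : x ∈ J
    · simp [h1, hJ h1]
    · simp [h1]
  · exact integral_mono (itg _ (hf.comp (pw_cont' I ξ))) (itg _ (hg.comp (pw_cont' I ξ)))
      (fun s => h _ (pw_onS I s hξ))
  · unfold P
    rw [integral_pos_iff_support_of_nonneg (fun s => (h _).le) (itg _ (hf.comp (pw_cont' I ξ)))]
    have : support (fun s : Λ → Sph n => f (pw I s ξ)) = Set.univ :=
      Set.eq_univ_of_forall (fun s => (h _).ne')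
    rw [this]
    simp
  · funext ξ
    unfold P
    rw [← inv hn (fun x => if x ∈ C then R else LinearIsometryEquiv.refl ℝ _)
      (g := fun s => f (pw I s ξ)) (hf.comp (pw_cont' I ξ))]
    congr 1
    funext s
    show f _ = f _
    congr 1
    funext x
    unfold pw
    by_cases h1 : x ∈ C
    · simp [h1, hCI h1, sm]
    · simp [h1, sm]

end Crest.Agent.R167
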