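import Crest.Agent.R167.Defs

/-! Row 167, task I: an `so(3)` triple rotating a given coordinate vector. -/

set_option autoImplicit false

open Finset Function MeasureTheory
open scoped ContDiff RealInnerProductSpace

namespace Crest.Agent.R167

noncomputable section

variable {n : ℕ}

/-- generator of the rotation in the plane of `p`, `q` -/
def triR (p q : E n) : E n →L[ℝ] E n :=
  (innerSL ℝ q).smulRight p - (innerSL ℝ p).smulRight q

theorem triR_apply (p q w : E n) : triR p q w = ⟪q, w⟫ • p - ⟪p, w⟫ • q := by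
  simp [triR]

theorem triR_rot {p q : E n} (hp : ⟪p, p⟫ = 1) (hq : ⟪q, q⟫ = 1) (hpq : ⟪p, q⟫ = 0) :
    Rot (triR p q) := by
  have hqp : ⟪q, p⟫ = 0 := by rw [real_inner_comm]; exact hpq
  refine ⟨?_, ?_, ?_⟩
  · intro u v
    simp only [triR_apply, inner_sub_left, inner_sub_right, real_inner_smul_left,
      real_inner_smul_right, real_inner_comm p u, real_inner_comm q u]
    ring
  · intro u
    simp only [triR_apply, inner_sub_right, real_inner_smul_right, hp, hq, hpq, hqp]
    module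
  · intro u
    have h1 : ⟪triR p q u, triR p q u⟫ = ⟪p, u⟫ ^ 2 + ⟪q, u⟫ ^ 2 := by
      simp only [triR_apply, inner_sub_left, inner_sub_right, real_inner_smul_left,
        real_inner_smul_right, hp, hq, hpq, hqp]
      ring
    have h2 : ⟪u - ⟪p, u⟫ • p - ⟪q, u⟫ • q, u - ⟪p, u⟫ • p - ⟪q, u⟫ • q⟫ =
        ⟪u, u⟫ - ⟪p, u⟫ ^ 2 - ⟪q, u⟫ ^ 2 := by
      simp only [inner_sub_left, inner_sub_right, real_inner_smul_left,
        real_inner_smul_right, hp, hq, hpq, hqp, real_inner_comm p u, real_inner_comm q u]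
      ring
    have h3 := real_inner_self_nonneg (x := u - ⟪p, u⟫ • p - ⟪q, u⟫ • q)
    rw [h2] at h3
    rw [real_inner_self_eq_norm_sq] at h1 h3
    exact le_of_sq_le_sq (by linarith) (norm_nonneg _)

theorem triR_comm {p q r : E n} (hr : ⟪r, r⟫ = 1) (hpq : ⟪p, q⟫ = 0) (hpr : ⟪p, r⟫ = 0)
    (hqr : ⟪q, r⟫ = 0) :
    (triR r p).comp (triR q r) - (triR q r).comp (triR r p) = triR p q := by
  have hqp : ⟪q, p⟫ = 0 := by rw [real_inner_comm]; exact hpq
  have hrp : ⟪r, p⟫ = 0 := by rw [real_inner_comm]; exact hpr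
  have hrq : ⟪r, q⟫ = 0 := by rw [real_inner_comm]; exact hqr
  ext1 w
  simp only [sub_apply, ContinuousLinearMap.comp_apply, triR_apply,
    inner_sub_right, real_inner_smul_right, hr, hpq, hqp, hpr, hrp, hqr, hrq]
  module

theorem tri_of_orth (f : Fin 3 → E n) (h1 : ∀ i, ⟪f i, f i⟫ = 1)
    (h0 : ∀ i j, i ≠ j → ⟪f i, f j⟫ = 0) : ∃ T : Tri n, T.e = f 0 := by
  refine ⟨⟨fun i => triR (f (i + 1)) (f (i + 2)), f 0, ?_, ?_, ?_, ?_⟩, rfl⟩
  · intro i
    exact triR_rot (h1 _) (h1 _) (h0 _ _ (by revert i; decide))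
  · intro i
    have e1 : i + 1 + 1 = i + 2 := by revert i; decide
    have e2 : i + 1 + 2 = i := by revert i; decide
    have e3 : i + 2 + 1 = i := by revert i; decide
    have e4 : i + 2 + 2 = i + 1 := by revert i; decide
    simp only [e1, e2, e3, e4]
    exact triR_comm (h1 _) (h0 _ _ (by revert i; decide)) (h0 _ _ (by revert i; decide))
      (h0 _ _ (by revert i; decide))
  · have := h1 0
    rw [real_inner_self_eq_norm_sq] at this
    have h := norm_nonneg (f 0)
    nlinarith
  · intro u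
    have a01 := h0 0 1 (by decide)
    have a02 := h0 0 2 (by decide)
    have a10 := h0 1 0 (by decide)
    have a12 := h0 1 2 (by decide)
    have a20 := h0 2 0 (by decide)
    have a21 := h0 2 1 (by decide)
    have e1 : (0 : Fin 3) + 1 = 1 := rfl
    have e2 : (0 : Fin 3) + 2 = 2 := rfl
    have e3 : (1 : Fin 3) + 1 = 2 := rfl
    have e4 : (1 : Fin 3) + 2 = 0 := rfl
    have e5 : (2 : Fin 3) + 1 = 0 := rfl
    have e6 : (2 : Fin 3) + 2 = 1 := rfl
    simp only [Fin.sum_univ_three, e1, e2, e3, e4, e5, e6, triR_apply, inner_sub_right,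
      real_inner_smul_right, h1, a01, a02, a10, a12, a20, a21]
    ring

theorem triEx (hn : 3 ≤ n) : TriEx n := by
  intro a
  obtain ⟨b, c, hab, hac, hbc⟩ : ∃ b c : Fin n, a ≠ b ∧ a ≠ c ∧ b ≠ c := by
    have hc : 2 < Fintype.card (Fin n) := by simp; omega
    obtain ⟨x, y, z, hxy, hxz, hyz⟩ := Fintype.two_lt_card_iff.1 hc
    by_cases h1 : a = x
    · exact ⟨y, z, h1 ▸ hxy, h1 ▸ hxz, hyz⟩
    by_cases h2 : a = y
    · exact ⟨x, z, h1, h2 ▸ hyz, hxz⟩
    exact ⟨x, y, h1, h2, hxy⟩
  have hinj : Injective ![a, b, c] := by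
    intro i j hij
    fin_cases i <;> fin_cases j <;> simp_all [eq_comm]
  exact tri_of_orth (fun i => EuclideanSpace.single (![a, b, c] i) (1 : ℝ))
    (fun i => by simp)
    (fun i j hij => by
      have : ![a, b, c] i ≠ ![a, b, c] j := fun h => hij (hinj h)
      simp [EuclideanSpace.inner_single_left, this])

end

end Crest.Agent.R167
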