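import Crest.Agent.R167.Defs

set_option autoImplicit false
set_option linter.unusedSectionVars false

open Finset Function MeasureTheory
open scoped ContDiff RealInnerProductSpace

namespace Crest.Agent.R167

namespace WD

variable {n : ℕ} {Λ : Type} [Fintype Λ] [DecidableEq Λ]

theorem f11 (i : Fin 3) : i + 1 + 1 = i + 2 := by revert i; decide
theorem f12 (i : Fin 3) : i + 1 + 2 = i := by revert i; decide
theorem f21 (i : Fin 3) : i + 2 + 1 = i := by revert i; decide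
theorem f22 (i : Fin 3) : i + 2 + 2 = i + 1 := by revert i; decide

theorem sum1 (g : Fin 3 → ℝ) : ∑ i, g (i + 1) = ∑ i, g i := Equiv.sum_comp (Equiv.addRight 1) g
theorem sum2 (g : Fin 3 → ℝ) : ∑ i, g (i + 2) = ∑ i, g i := Equiv.sum_comp (Equiv.addRight 2) g

section Alg

variable (hC : CalcB n Λ) (T : Tri n)
include hC

theorem c01 (θ : Λ → ℝ) (i : Fin 3) {f : (Λ → E n) → ℝ} (hf : Sm f) :
    D (fun _ => 1) (T.A i) (D θ (T.A (i + 1)) f) =
      fun s => D θ (T.A (i + 1)) (D (fun _ => 1) (T.A i) f) s + D θ (T.A (i + 2)) f s := by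
  rw [hC.comm _ _ _ _ hf, T.comm]
  simp only [one_mul]

theorem c10 (θ : Λ → ℝ) (i : Fin 3) {f : (Λ → E n) → ℝ} (hf : Sm f) :
    D (fun _ => 1) (T.A (i + 1)) (D θ (T.A i) f) =
      fun s => D θ (T.A i) (D (fun _ => 1) (T.A (i + 1)) f) s - D θ (T.A (i + 2)) f s := by
  have := hC.comm θ (fun _ => 1) (T.A i) (T.A (i + 1)) hf
  rw [T.comm] at this
  simp only [mul_one] at this
  funext s
  have := congrFun this s
  linarith

theorem c00 (θ : Λ → ℝ) (i : Fin 3) {f : (Λ → E n) → ℝ} (hf : Sm f) :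
    D (fun _ => 1) (T.A i) (D θ (T.A i) f) = D θ (T.A i) (D (fun _ => 1) (T.A i) f) := by
  rw [hC.comm _ _ _ _ hf, sub_self, hC.zeroA]
  simp

theorem neg (θ : Λ → ℝ) (A : E n →L[ℝ] E n) {f : (Λ → E n) → ℝ} (hf : Sm f) :
    D θ A (fun s => -f s) = fun s => -D θ A f s := by
  have := hC.const_mul θ A (-1) hf
  simpa using this

theorem split (θ : Λ → ℝ) (c : ℝ) (A : E n →L[ℝ] E n) (f : (Λ → E n) → ℝ) :
    D θ A f = fun s => c * D (fun _ => 1) A f s + D (fun x => θ x - c) A f s := by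
  have := hC.lin (fun _ => 1) (fun x => θ x - c) c 1 A f
  simpa using this

variable {F : (Λ → E n) → ℝ} (hF : Sm F) (hI : ∀ i, D (fun _ => 1) (T.A i) F = fun _ => 0)
include hF hI

theorem r1 (δ : Λ → ℝ) (i : Fin 3) :
    D (fun _ => 1) (T.A (i + 1)) (D δ (T.A (i + 2)) F) = D δ (T.A i) F := by
  have := c01 hC T δ (i + 1) hF
  rw [f11, f12, hI, hC.const] at this
  simpa using this

theorem r2 (δ : Λ → ℝ) (i : Fin 3) :
    D (fun _ => 1) (T.A i) (D δ (T.A (i + 2)) F) = fun s => -D δ (T.A (i + 1)) F s := by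
  have := c10 hC T δ (i + 2) hF
  rw [f21, f22, hI, hC.const] at this
  simpa using this

theorem r3 (δ : Λ → ℝ) (i : Fin 3) :
    D (fun _ => 1) (T.A i) (D δ (T.A i) F) = fun _ => 0 := by
  rw [c00 hC T δ i hF, hI, hC.const]

theorem r4 (δ : Λ → ℝ) (i : Fin 3) :
    D (fun _ => 1) (T.A (i + 1)) (D δ (T.A i) F) = fun s => -D δ (T.A (i + 2)) F s := by
  have := c10 hC T δ i hF
  rw [hI, hC.const] at this
  simpa using this

theorem r5 (δ η : Λ → ℝ) (i : Fin 3) :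
    D (fun _ => 1) (T.A i) (D η (T.A (i + 1)) (D δ (T.A (i + 2)) F)) =
      fun s => D η (T.A (i + 2)) (D δ (T.A (i + 2)) F) s -
        D η (T.A (i + 1)) (D δ (T.A (i + 1)) F) s := by
  rw [c01 hC T η i (hC.sm _ _ hF), r2 hC T hF hI, neg hC _ _ (hC.sm _ _ hF)]
  funext s; ring

theorem r6 (δ η : Λ → ℝ) (i : Fin 3) :
    D (fun _ => 1) (T.A (i + 1)) (D η (T.A (i + 1)) (D δ (T.A i) F)) =
      fun s => -D η (T.A (i + 1)) (D δ (T.A (i + 2)) F) s := by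
  rw [c00 hC T η (i + 1) (hC.sm _ _ hF), r4 hC T hF hI, neg hC _ _ (hC.sm _ _ hF)]

theorem shift (lam : Λ → ℝ) (c : ℝ) (i : Fin 3) :
    D lam (T.A i) F = D (fun x => lam x - c) (T.A i) F := by
  rw [split hC lam c, hI]
  simp

theorem shift2 (lam : Λ → ℝ) (c : ℝ) (i : Fin 3) :
    D lam (T.A i) (D lam (T.A i) F) =
      D (fun x => lam x - c) (T.A i) (D (fun x => lam x - c) (T.A i) F) := by
  rw [shift hC T hF hI lam c, split hC lam c, r3 hC T hF hI]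
  simp

end Alg

theorem box (hC : CalcB n Λ) (T : Tri n) {S : Set Λ} {F : (Λ → E n) → ℝ} {θ₁ θ₂ lam : Λ → ℝ}
    {c₂ c₃ B l η L q : ℝ} (hB : 0 ≤ B) (hl : 0 ≤ l) (hη : 0 ≤ η) (hL : 0 < L) (hq : 0 ≤ q)
    (hF : Sm F) (hS : Loc S F) (hCr : Crude T S B F)
    (hI : ∀ i, D (fun _ => 1) (T.A i) F = fun _ => 0) (h1 : ∀ x, |θ₁ x| ≤ 1)
    (h0 : 0 ≤ c₂) (h0' : c₂ ≤ 1) (hd : ∀ x ∈ S, |lam x - c₃| ≤ l ∧ |θ₂ x - c₂| ≤ η)
    (hcase : (c₂ = 0 ∧ ∀ x ∈ S, θ₂ x = 0) ∨ ∃ c₁, ∀ x ∈ S, θ₁ x = c₁ + lam x / L)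
    (hQ : ∀ s, OnS s → Qf T lam F s ≤ q) (s : Λ → E n) (hs : OnS s) :
    c₂ * Qf T lam F s / L ≤
      -∑ i, D θ₁ (T.A i) (D θ₂ (T.A (i + 1)) (D lam (T.A (i + 2)) F)) s + 3 * B * l ^ 2 * η / L ∧
    ∑ i, D θ₁ (T.A i) (D θ₂ (T.A (i + 1)) (D θ₂ (T.A (i + 1)) (D θ₁ (T.A i) F))) s ≤
      q / L ^ 2 + 6 * B * l ^ 2 * η / L ^ 2 + 3 * B * l * η ^ 2 / L := by
  rcases hcase with ⟨hc, hz⟩ | ⟨c₁, hc⟩
  · have hz' : ∀ (A : E n →L[ℝ] E n) {g : (Λ → E n) → ℝ}, Sm g → Loc S g →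
        D θ₂ A g = fun _ => 0 := by
      intro A g hg hgS
      rw [hC.congr (θ' := fun _ => 0) A hg hgS hz, hC.zero]
    have e1 : ∀ i, D θ₁ (T.A i) (D θ₂ (T.A (i + 1)) (D lam (T.A (i + 2)) F)) = fun _ => 0 := by
      intro i
      rw [hz' _ (hC.sm _ _ hF) (hC.loc _ _ hF hS), hC.const]
    have e2 : ∀ i, D θ₁ (T.A i) (D θ₂ (T.A (i + 1)) (D θ₂ (T.A (i + 1)) (D θ₁ (T.A i) F))) =
        fun _ => 0 := by
      intro i
      rw [hz' _ (hC.sm _ _ (hC.sm _ _ hF)) (hC.loc _ _ (hC.sm _ _ hF) (hC.loc _ _ hF hS)),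
        hC.const]
    simp only [e1, e2, hc, Finset.sum_const_zero, zero_mul, zero_div, neg_zero, zero_add]
    constructor <;> positivity
  set δ : Λ → ℝ := fun x => lam x - c₃ with hδ
  set ζ : Λ → ℝ := fun x => θ₂ x - c₂ with hζ
  have hU : ∀ (A : E n →L[ℝ] E n) {g : (Λ → E n) → ℝ}, Sm g → Loc S g →
      D θ₁ A g = fun s => (c₁ + c₃ / L) * D (fun _ => 1) A g s + 1 / L * D δ A g s := by
    intro A g hg hgS
    rw [← hC.lin]
    refine hC.congr A hg hgS (fun x hx => ?_)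
    rw [hc x hx, hδ]; ring
  have hT : ∀ (A : E n →L[ℝ] E n) (g : (Λ → E n) → ℝ),
      D θ₂ A g = fun s => c₂ * D (fun _ => 1) A g s + D ζ A g s := fun A g => split hC θ₂ c₂ A g
  have sW : ∀ i, Sm (D δ (T.A i) F) := fun i => hC.sm _ _ hF
  have lW : ∀ i, Loc S (D δ (T.A i) F) := fun i => hC.loc _ _ hF hS
  have sEW : ∀ i j, Sm (D ζ (T.A j) (D δ (T.A i) F)) := fun i j => hC.sm _ _ (sW i)
  have lEW : ∀ i j, Loc S (D ζ (T.A j) (D δ (T.A i) F)) := fun i j => hC.loc _ _ (sW i) (lW i)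
  have u1 : ∀ i, D θ₁ (T.A i) (D δ (T.A i) F) s = 1 / L * D δ (T.A i) (D δ (T.A i) F) s := by
    intro i
    rw [hU _ (sW i) (lW i), r3 hC T hF hI]
    simp
  have u2 : ∑ i, D θ₁ (T.A i) (D ζ (T.A (i + 1)) (D δ (T.A (i + 2)) F)) s =
      1 / L * ∑ i, D δ (T.A i) (D ζ (T.A (i + 1)) (D δ (T.A (i + 2)) F)) s := by
    have : ∀ i, D θ₁ (T.A i) (D ζ (T.A (i + 1)) (D δ (T.A (i + 2)) F)) s =
        (c₁ + c₃ / L) * (D ζ (T.A (i + 2)) (D δ (T.A (i + 2)) F) s -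
          D ζ (T.A (i + 1)) (D δ (T.A (i + 1)) F) s) +
        1 / L * D δ (T.A i) (D ζ (T.A (i + 1)) (D δ (T.A (i + 2)) F)) s := by
      intro i
      rw [hU _ (sEW _ _) (lEW _ _), r5 hC T hF hI]
    simp only [this]
    rw [Finset.sum_add_distrib, ← Finset.mul_sum, ← Finset.mul_sum, Finset.sum_sub_distrib,
      sum2 (fun j => D ζ (T.A j) (D δ (T.A j) F) s), sum1 (fun j => D ζ (T.A j) (D δ (T.A j) F) s)]
    ring
  have g1 : ∀ i, D θ₂ (T.A (i + 1)) (D δ (T.A (i + 2)) F) =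
      fun s => c₂ * D δ (T.A i) F s + D ζ (T.A (i + 1)) (D δ (T.A (i + 2)) F) s := by
    intro i
    rw [hT, r1 hC T hF hI]
  have id2 : ∀ i, D θ₁ (T.A i) (D θ₂ (T.A (i + 1)) (D lam (T.A (i + 2)) F)) s =
      c₂ * (1 / L * D δ (T.A i) (D δ (T.A i) F) s) +
        D θ₁ (T.A i) (D ζ (T.A (i + 1)) (D δ (T.A (i + 2)) F)) s := by
    intro i
    rw [shift hC T hF hI lam c₃, g1, hC.add _ _ (contDiff_const.mul (sW i)) (sEW _ _),
      hC.const_mul _ _ _ (sW i)]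
    simp only [u1]
  have g2 : ∀ i, D θ₁ (T.A i) F = fun s => 1 / L * D δ (T.A i) F s := by
    intro i
    rw [hU _ hF hS, hI]
    simp
  have g3 : ∀ i, D θ₂ (T.A (i + 1)) (D δ (T.A i) F) =
      fun s => -c₂ * D δ (T.A (i + 2)) F s + D ζ (T.A (i + 1)) (D δ (T.A i) F) s := by
    intro i
    rw [hT, r4 hC T hF hI]
    funext s; ring
  have g4 : ∀ i, D θ₂ (T.A (i + 1)) (D ζ (T.A (i + 1)) (D δ (T.A i) F)) =
      fun s => -c₂ * D ζ (T.A (i + 1)) (D δ (T.A (i + 2)) F) s +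
        D ζ (T.A (i + 1)) (D ζ (T.A (i + 1)) (D δ (T.A i) F)) s := by
    intro i
    rw [hT, r6 hC T hF hI]
    funext s; ring
  have g5 : ∀ i, D θ₂ (T.A (i + 1)) (D θ₂ (T.A (i + 1)) (D θ₁ (T.A i) F)) =
      fun s => (-(c₂ ^ 2) / L) * D δ (T.A i) F s +
        ((-2 * c₂ / L) * D ζ (T.A (i + 1)) (D δ (T.A (i + 2)) F) s +
        1 / L * D ζ (T.A (i + 1)) (D ζ (T.A (i + 1)) (D δ (T.A i) F)) s) := by
    intro i
    rw [g2, hC.const_mul _ _ _ (sW i), hC.const_mul _ _ _ (hC.sm _ _ (sW i)), g3,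
      hC.add _ _ (contDiff_const.mul (sW _)) (sEW _ _), hC.const_mul _ _ _ (sW _), g1, g4]
    funext s; ring
  have id1 : ∀ i, D θ₁ (T.A i) (D θ₂ (T.A (i + 1)) (D θ₂ (T.A (i + 1)) (D θ₁ (T.A i) F))) s =
      (-(c₂ ^ 2) / L) * (1 / L * D δ (T.A i) (D δ (T.A i) F) s) +
        ((-2 * c₂ / L) * D θ₁ (T.A i) (D ζ (T.A (i + 1)) (D δ (T.A (i + 2)) F)) s +
        1 / L * D θ₁ (T.A i) (D ζ (T.A (i + 1)) (D ζ (T.A (i + 1)) (D δ (T.A i) F))) s) := by
    intro i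
    rw [g5, hC.add _ _ (contDiff_const.mul (sW i)) ((contDiff_const.mul (sEW _ _)).add
      (contDiff_const.mul (hC.sm _ _ (sEW _ _)))), hC.add _ _ (contDiff_const.mul (sEW _ _))
      (contDiff_const.mul (hC.sm _ _ (sEW _ _))), hC.const_mul _ _ _ (sW i),
      hC.const_mul _ _ _ (sEW _ _), hC.const_mul _ _ _ (hC.sm _ _ (sEW _ _))]
    simp only [u1]
  have hQe : Qf T lam F s = -∑ i, D δ (T.A i) (D δ (T.A i) F) s := by
    unfold Qf
    simp only [shift2 hC T hF hI lam c₃]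
    rfl
  have b1 : |∑ i, D δ (T.A i) (D ζ (T.A (i + 1)) (D δ (T.A (i + 2)) F)) s| ≤
      3 * B * l ^ 2 * η := by
    refine (Finset.abs_sum_le_sum_abs _ _).trans ?_
    refine (Finset.sum_le_sum (fun i _ => (hCr δ ζ δ δ l η l l i (i + 1) (i + 2) i hl hη hl hl
      (fun x hx => (hd x hx).1) (fun x hx => (hd x hx).2) (fun x hx => (hd x hx).1)
      (fun x hx => (hd x hx).1) s hs).1)).trans (le_of_eq ?_)
    simp; ring
  have b2 : |∑ i, D θ₁ (T.A i) (D ζ (T.A (i + 1)) (D ζ (T.A (i + 1)) (D δ (T.A i) F))) s| ≤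
      3 * B * l * η ^ 2 := by
    refine (Finset.abs_sum_le_sum_abs _ _).trans ?_
    refine (Finset.sum_le_sum (fun i _ => (hCr θ₁ ζ ζ δ 1 η η l i (i + 1) (i + 1) i zero_le_one
      hη hη hl (fun x _ => h1 x) (fun x hx => (hd x hx).2) (fun x hx => (hd x hx).2)
      (fun x hx => (hd x hx).1) s hs).2)).trans (le_of_eq ?_)
    simp; ring
  have hQs := hQ s hs
  simp only [id1, id2]
  rw [Finset.sum_add_distrib, Finset.sum_add_distrib, Finset.sum_add_distrib]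
  simp only [← Finset.mul_sum]
  rw [u2]
  set a := ∑ i, D δ (T.A i) (D δ (T.A i) F) s
  set b := ∑ i, D δ (T.A i) (D ζ (T.A (i + 1)) (D δ (T.A (i + 2)) F)) s
  set c := ∑ i, D θ₁ (T.A i) (D ζ (T.A (i + 1)) (D ζ (T.A (i + 1)) (D δ (T.A i) F))) s
  rw [hQe] at hQs ⊢
  have hb := abs_le.1 b1
  have hc' := abs_le.1 b2
  constructor
  · have : -(c₂ * (1 / L * a) + 1 / L * b) + 3 * B * l ^ 2 * η / L - c₂ * -a / L =
        (3 * B * l ^ 2 * η - b) / L := by ring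
    have h2 : 0 ≤ (3 * B * l ^ 2 * η - b) / L := div_nonneg (by linarith) hL.le
    linarith
  · have e : q / L ^ 2 + 6 * B * l ^ 2 * η / L ^ 2 + 3 * B * l * η ^ 2 / L -
        (-c₂ ^ 2 / L * (1 / L * a) + (-2 * c₂ / L * (1 / L * b) + 1 / L * c)) =
        (q + c₂ ^ 2 * a) / L ^ 2 + (6 * B * l ^ 2 * η + 2 * c₂ * b) / L ^ 2 +
          (3 * B * l * η ^ 2 - c) / L := by
      field_simp; ring
    have p1 : 0 ≤ q + c₂ ^ 2 * a := by
      have : c₂ ^ 2 ≤ 1 := by nlinarith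
      nlinarith [sq_nonneg c₂]
    have p2 : 0 ≤ 6 * B * l ^ 2 * η + 2 * c₂ * b := by
      have : 0 ≤ 3 * B * l ^ 2 * η := by positivity
      nlinarith
    have p3 : 0 ≤ 3 * B * l * η ^ 2 - c := by linarith
    have : 0 ≤ (q + c₂ ^ 2 * a) / L ^ 2 + (6 * B * l ^ 2 * η + 2 * c₂ * b) / L ^ 2 +
          (3 * B * l * η ^ 2 - c) / L := by positivity
    linarith

section Exp

variable (hC : CalcB n Λ) (hE : ExB n Λ) {I : Finset Λ} {F : (Λ → E n) → ℝ} (hF : Sm F)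
  {ξ : Λ → E n}
include hC hE hF

theorem ward2 {θ θ' : Λ → ℝ} {A A' : E n →L[ℝ] E n} (hA : Rot A) (hA' : Rot A')
    (h : ∀ x, x ∉ I → θ x = 0) (h' : ∀ x, x ∉ I → θ' x = 0) {f : (Λ → E n) → ℝ} (hf : Sm f) :
    Ex I F (D θ A (D θ' A' f)) ξ =
      Ex I F (fun s => f s * (D θ' A' (D θ A F) s + D θ A F s * D θ' A' F s)) ξ := by
  have sX : Sm (D θ A F) := hC.sm _ _ hF
  have e1 := congrFun (hE.ibp I θ hA hF (hC.sm θ' A' hf) h) ξ
  have e2 := congrFun (hE.ibp I θ' hA' hF (hf.mul sX) h') ξ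
  rw [hC.mul _ _ hf sX, hE.add I hF.continuous ((hC.sm _ _ hf).mul sX).continuous
    (hf.mul (hC.sm _ _ sX)).continuous] at e2
  have e3 : (fun s => f s * (D θ' A' (D θ A F) s + D θ A F s * D θ' A' F s)) =
      fun s => f s * D θ' A' (D θ A F) s + f s * D θ A F s * D θ' A' F s := by
    funext s; ring
  rw [e3, hE.add I hF.continuous (hf.mul (hC.sm _ _ sX)).continuous
    ((hf.mul sX).mul (hC.sm _ _ hF)).continuous]
  simp only at e1 e2 ⊢
  linarith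

theorem four (hξ : OnS ξ) {θ : Λ → ℝ} {A : E n →L[ℝ] E n} (hA : Rot A)
    (h : ∀ x, x ∉ I → θ x = 0) {C : ℝ} (hb : ∀ s, OnS s → -D θ A (D θ A F) s ≤ C) :
    Ex I F (fun s => D θ A F s ^ 4) ξ ≤ 3 * C ^ 2 := by
  have sX : Sm (D θ A F) := hC.sm _ _ hF
  have cF := hF.continuous
  have cX := sX.continuous
  have cY := (hC.sm θ A sX).continuous
  have e1 := congrFun (hE.ibp I θ hA hF sX h) ξ
  have e2 := congrFun (hE.ibp I θ hA hF ((sX.mul sX).mul sX) h) ξ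
  rw [hC.mul _ _ (sX.mul sX) sX, hC.mul _ _ sX sX] at e2
  simp only at e1 e2
  have a0 : 0 ≤ Ex I F (fun s => D θ A F s * D θ A F s) ξ :=
    (mul_self_nonneg _).trans (hE.sq_le I cF cX hξ)
  have a1 : Ex I F (fun _ => -C) ξ ≤ Ex I F (D θ A (D θ A F)) ξ :=
    hE.mono I cF continuous_const cY hξ (fun s hs => by have := hb s hs; linarith)
  rw [hE.const I _ cF] at a1
  simp only at a1
  have hC0 : 0 ≤ C := by linarith
  have a2 : Ex I F (fun s => (-3 * C) * (D θ A F s * D θ A F s)) ξ ≤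
      Ex I F (fun s => (D θ A (D θ A F) s * D θ A F s + D θ A F s * D θ A (D θ A F) s) *
        D θ A F s + D θ A F s * D θ A F s * D θ A (D θ A F) s) ξ := by
    refine hE.mono I cF (by fun_prop) (by fun_prop) hξ (fun s hs => ?_)
    have := hb s hs
    nlinarith [mul_self_nonneg (D θ A F s)]
  rw [hE.const_mul] at a2
  simp only at a2
  have e3 : (fun s => D θ A F s ^ 4) = fun s => D θ A F s * D θ A F s * D θ A F s * D θ A F s := by
    funext s; ring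
  rw [e3]
  nlinarith

end Exp

end WD

open WD in
theorem ward {n : ℕ} {Λ : Type} [Fintype Λ] [DecidableEq Λ] (hC : CalcB n Λ) (hE : ExB n Λ) :
    Ward n Λ := by
  intro T ι Z S F I θ₁ θ₂ lam c₂ c₃ B l η L C₁ q ξ hB hl hη hL hq hξ hF hsupp h1 hc hcase hen hQ
  set G : (Λ → E n) → ℝ := fun s => ∑ z ∈ Z, F z s with hG
  have sF : ∀ z ∈ Z, Sm (F z) := fun z hz => (hF z hz).1
  have sG : Sm G := ContDiff.sum sF
  have cG := sG.continuous
  have d1 : ∀ θ A, D θ A G = fun s => ∑ z ∈ Z, D θ A (F z) s := fun θ A => hC.sum θ A Z F sF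
  have d2 : ∀ θ A θ' A', D θ' A' (D θ A G) = fun s => ∑ z ∈ Z, D θ' A' (D θ A (F z)) s := by
    intro θ A θ' A'
    rw [d1, hC.sum _ _ Z _ (fun z hz => hC.sm _ _ (sF z hz))]
  have d3 : ∀ θ A θ' A' θ'' A'', D θ'' A'' (D θ' A' (D θ A G)) =
      fun s => ∑ z ∈ Z, D θ'' A'' (D θ' A' (D θ A (F z))) s := by
    intro θ A θ' A' θ'' A''
    rw [d2, hC.sum _ _ Z _ (fun z hz => hC.sm _ _ (hC.sm _ _ (sF z hz)))]
  have d4 : ∀ θ A θ' A' θ'' A'' θ''' A''', D θ''' A''' (D θ'' A'' (D θ' A' (D θ A G))) =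
      fun s => ∑ z ∈ Z, D θ''' A''' (D θ'' A'' (D θ' A' (D θ A (F z)))) s := by
    intro θ A θ' A' θ'' A'' θ''' A'''
    rw [d3, hC.sum _ _ Z _ (fun z hz => hC.sm _ _ (hC.sm _ _ (hC.sm _ _ (sF z hz))))]
  have sQ : ∀ z ∈ Z, Sm (Qf T lam (F z)) := fun z hz =>
    (ContDiff.sum (fun i _ => hC.sm _ _ (hC.sm _ _ (sF z hz)))).neg
  have hbox := fun z (hz : z ∈ Z) => box hC T hB hl hη hL hq (sF z hz) (hF z hz).2.1
    (hF z hz).2.2.1 (hF z hz).2.2.2 h1 (hc z hz).1 (hc z hz).2.1 (hc z hz).2.2 (hcase z hz)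
    (hQ z hz)
  set Y : Fin 3 → (Λ → E n) → ℝ := fun k => D lam (T.A k) G with hY
  have sY : ∀ k, Sm (Y k) := fun k => hC.sm _ _ sG
  set Φ : Fin 3 → (Λ → E n) → ℝ := fun i s => D θ₂ (T.A (i + 1)) (D θ₁ (T.A i) G) s +
    D θ₁ (T.A i) G s * D θ₂ (T.A (i + 1)) G s with hΦ
  have sΦ : ∀ i, Sm (Φ i) := fun i =>
    (hC.sm _ _ (hC.sm _ _ sG)).add ((hC.sm _ _ sG).mul (hC.sm _ _ sG))
  have w2 : ∀ i {f : (Λ → E n) → ℝ}, Sm f →
      Ex I G (D θ₁ (T.A i) (D θ₂ (T.A (i + 1)) f)) ξ = Ex I G (fun s => f s * Φ i s) ξ :=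
    fun i f hf => ward2 hC hE sG (T.rot i) (T.rot (i + 1)) (fun x hx => (hsupp x hx).1)
      (fun x hx => (hsupp x hx).2) hf
  have mean0 : ∀ i, Ex I G (Φ i) ξ = 0 := by
    intro i
    have := w2 i (f := fun _ => 1) contDiff_const
    rw [hC.const, hC.const, hE.const I _ cG] at this
    simpa using this.symm
  -- the bound on `Φ`
  have phi1 : ∀ i, Ex I G (fun s => Φ i s * Φ i s) ξ ≤
      2 * Ex I G (D θ₁ (T.A i) (D θ₂ (T.A (i + 1)) (D θ₂ (T.A (i + 1)) (D θ₁ (T.A i) G)))) ξ +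
        3 * C₁ ^ 2 := by
    intro i
    have cX := (hC.sm θ₁ (T.A i) sG).continuous
    have cX' := (hC.sm θ₂ (T.A (i + 1)) sG).continuous
    have cY := (hC.sm θ₂ (T.A (i + 1)) (hC.sm θ₁ (T.A i) sG)).continuous
    have cΦ := (sΦ i).continuous
    have q1 := four hC hE sG hξ (T.rot i) (fun x hx => (hsupp x hx).1) (C := C₁)
      (fun s hs => by rw [d2]; exact (hen i s hs).1)
    have q2 := four hC hE sG hξ (T.rot (i + 1)) (fun x hx => (hsupp x hx).2) (C := C₁)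
      (fun s hs => by rw [d2]; exact (hen (i + 1) s hs).2)
    rw [w2 i (hC.sm _ _ (hC.sm _ _ sG))]
    have m := hE.mono I (F := G) (f := fun s => Φ i s * Φ i s)
      (g := fun s => 2 * (D θ₂ (T.A (i + 1)) (D θ₁ (T.A i) G) s * Φ i s) +
        (1 / 2 * D θ₁ (T.A i) G s ^ 4 + 1 / 2 * D θ₂ (T.A (i + 1)) G s ^ 4)) cG (by fun_prop)
      (by fun_prop) hξ (fun s _ => by
        simp only [hΦ]
        nlinarith [sq_nonneg (D θ₁ (T.A i) G s ^ 2 - D θ₂ (T.A (i + 1)) G s ^ 2),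
          sq_nonneg (D θ₂ (T.A (i + 1)) (D θ₁ (T.A i) G) s)])
    rw [hE.add I cG (by fun_prop) (by fun_prop), hE.add I cG (by fun_prop) (by fun_prop),
      hE.const_mul, hE.const_mul, hE.const_mul] at m
    simp only at m
    linarith
  have phi2 : ∑ i, Ex I G (fun s => Φ i s * Φ i s) ξ ≤
      2 * (Z.card * (q / L ^ 2 + 6 * B * l ^ 2 * η / L ^ 2 + 3 * B * l * η ^ 2 / L)) +
        9 * C₁ ^ 2 := by
    have a1 := Finset.sum_le_sum (fun i (_ : i ∈ univ) => phi1 i)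
    have a2 : ∑ i, Ex I G
        (D θ₁ (T.A i) (D θ₂ (T.A (i + 1)) (D θ₂ (T.A (i + 1)) (D θ₁ (T.A i) G)))) ξ ≤
        Z.card * (q / L ^ 2 + 6 * B * l ^ 2 * η / L ^ 2 + 3 * B * l * η ^ 2 / L) := by
      have c4 : ∀ i, Continuous
          (D θ₁ (T.A i) (D θ₂ (T.A (i + 1)) (D θ₂ (T.A (i + 1)) (D θ₁ (T.A i) G)))) :=
        fun i => (hC.sm _ _ (hC.sm _ _ (hC.sm _ _ (hC.sm _ _ sG)))).continuous
      have e := congrFun (hE.sum I univ _ cG (fun i _ => c4 i)) ξ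
      rw [← e, ← congrFun (hE.const I (Z.card * (q / L ^ 2 + 6 * B * l ^ 2 * η / L ^ 2 +
        3 * B * l * η ^ 2 / L)) cG) ξ]
      refine hE.mono I cG (continuous_finsetSum _ (fun i _ => c4 i)) continuous_const hξ
        (fun s hs => ?_)
      simp only [d4]
      rw [Finset.sum_comm, ← nsmul_eq_mul, ← Finset.sum_const]
      exact Finset.sum_le_sum (fun z hz => (hbox z hz s hs).2)
    rw [Finset.sum_add_distrib, ← Finset.mul_sum] at a1
    simp only [Finset.sum_const, Finset.card_univ, Fintype.card_fin, nsmul_eq_mul,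
      Nat.cast_ofNat] at a1
    linarith
  refine ⟨∑ k, (Ex I G (fun s => Y k s * Y k s) ξ - Ex I G (Y k) ξ * Ex I G (Y k) ξ),
    Finset.sum_nonneg (fun k _ => sub_nonneg.2 (hE.sq_le I cG (sY k).continuous hξ)), ?_,
    fun t ht => ?_⟩
  · have e1 : ∀ k, D lam (T.A k) (D lam (T.A k) (LZ I G)) ξ =
        Ex I G (D lam (T.A k) (Y k)) ξ + (Ex I G (fun s => Y k s * Y k s) ξ -
          Ex I G (Y k) ξ * Ex I G (Y k) ξ) := by
      intro k
      rw [hE.D_LZ I lam (T.rot k) sG, hE.D_Ex I lam (T.rot k) sG (hC.sm _ _ sG)]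
      simp only [hY]
      ring
    have e2 := congrFun (hE.sum I Z _ cG (fun z hz => (sQ z hz).continuous)) ξ
    have e3 := congrFun (hE.sum I univ (fun k => D lam (T.A k) (Y k)) cG
      (fun k _ => (hC.sm _ _ (sY k)).continuous)) ξ
    have e4 : (fun s => ∑ z ∈ Z, Qf T lam (F z) s) =
        fun s => -1 * ∑ k, D lam (T.A k) (Y k) s := by
      funext s
      simp only [hY, d2, Qf]
      rw [Finset.sum_comm, Finset.sum_neg_distrib]
      ring
    rw [e4, hE.const_mul] at e2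
    simp only at e2 e3
    rw [← e2, e3]
    unfold Qf
    simp only [e1]
    rw [Finset.sum_add_distrib]
    ring
  · have c3 : ∀ i, Continuous (D θ₁ (T.A i) (D θ₂ (T.A (i + 1)) (Y (i + 2)))) :=
      fun i => (hC.sm _ _ (hC.sm _ _ (sY _))).continuous
    have a1 : (∑ z ∈ Z, c₂ z * Ex I G (Qf T lam (F z)) ξ) / L ≤
        -∑ i, Ex I G (D θ₁ (T.A i) (D θ₂ (T.A (i + 1)) (Y (i + 2)))) ξ +
          Z.card * (3 * B * l ^ 2 * η / L) := by
      have m := hE.mono I (F := G) (f := fun s => ∑ z ∈ Z, (c₂ z / L) * Qf T lam (F z) s)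
        (g := fun s => -1 * ∑ i, D θ₁ (T.A i) (D θ₂ (T.A (i + 1)) (Y (i + 2))) s +
          Z.card * (3 * B * l ^ 2 * η / L)) cG
        (continuous_finsetSum _ (fun z hz => continuous_const.mul (sQ z hz).continuous))
        ((continuous_const.mul (continuous_finsetSum _ (fun i _ => c3 i))).add continuous_const)
        hξ (fun s hs => by
          simp only [hY, d3]
          rw [Finset.sum_comm, ← nsmul_eq_mul, ← Finset.sum_const, Finset.mul_sum,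
            ← Finset.sum_add_distrib]
          refine Finset.sum_le_sum (fun z hz => ?_)
          have := (hbox z hz s hs).1
          rw [div_mul_eq_mul_div]
          linarith)
      rw [hE.sum I Z (fun z s => c₂ z / L * Qf T lam (F z) s) cG
          (fun z hz => continuous_const.mul (sQ z hz).continuous),
        hE.add I (f := fun s => -1 * ∑ i, D θ₁ (T.A i) (D θ₂ (T.A (i + 1)) (Y (i + 2))) s) cG
          (continuous_const.mul (continuous_finsetSum _ (fun i _ => c3 i)))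
          continuous_const, hE.const_mul, hE.const I _ cG,
        hE.sum I univ _ cG (fun i _ => c3 i)] at m
      simp only [hE.const_mul] at m
      rw [Finset.sum_div]
      refine le_trans (le_of_eq (Finset.sum_congr rfl (fun z _ => by ring))) (m.trans (le_of_eq ?_))
      ring
    have a2 : ∀ i, -Ex I G (D θ₁ (T.A i) (D θ₂ (T.A (i + 1)) (Y (i + 2)))) ξ ≤
        t / 2 * (Ex I G (fun s => Y (i + 2) s * Y (i + 2) s) ξ -
          Ex I G (Y (i + 2)) ξ * Ex I G (Y (i + 2)) ξ) +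
        Ex I G (fun s => Φ i s * Φ i s) ξ / (2 * t) := by
      intro i
      rw [w2 i (sY _)]
      have cY := (sY (i + 2)).continuous
      have cΦ := (sΦ i).continuous
      set m := Ex I G (Y (i + 2)) ξ with hm
      have k := hE.mono I (F := G) (f := fun s => -1 * (Y (i + 2) s * Φ i s) + m * Φ i s)
        (g := fun s => (t / 2 * (Y (i + 2) s * Y (i + 2) s) + (-t * m) * Y (i + 2) s) +
          (t / 2 * m ^ 2 + 1 / (2 * t) * (Φ i s * Φ i s))) cG (by fun_prop) (by fun_prop) hξ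
        (fun s _ => by
          have h0 : 0 ≤ 1 / (2 * t) * (t * (Y (i + 2) s - m) + Φ i s) ^ 2 := by positivity
          have h1 : 1 / (2 * t) * (t * (Y (i + 2) s - m) + Φ i s) ^ 2 =
              t / 2 * (Y (i + 2) s - m) ^ 2 + (Y (i + 2) s - m) * Φ i s +
                1 / (2 * t) * (Φ i s * Φ i s) := by
            field_simp; ring
          nlinarith)
      rw [hE.add I cG (by fun_prop) (by fun_prop), hE.add I cG (by fun_prop) (by fun_prop),
        hE.add I cG (by fun_prop) (by fun_prop), hE.add I cG (by fun_prop) (by fun_prop),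
        hE.const I _ cG] at k
      simp only [hE.const_mul] at k
      rw [mean0 i, ← hm] at k
      have e : Ex I G (fun s => Φ i s * Φ i s) ξ / (2 * t) =
          1 / (2 * t) * Ex I G (fun s => Φ i s * Φ i s) ξ := by ring
      rw [e]
      nlinarith
    have a3 := Finset.sum_le_sum (fun i (_ : i ∈ univ) => a2 i)
    rw [Finset.sum_neg_distrib, Finset.sum_add_distrib, ← Finset.mul_sum, ← Finset.sum_div,
      sum2 (fun k => Ex I G (fun s => Y k s * Y k s) ξ - Ex I G (Y k) ξ * Ex I G (Y k) ξ)] at a3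
    have a4 := div_le_div_of_nonneg_right phi2 (by positivity : (0 : ℝ) ≤ 2 * t)
    linarith

end Crest.Agent.R167
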